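import Vale.Agent.P112.T580.Dual
import Vale.Agent.P112.T.DefsN

/-!
# P112, chapter (T), frequency parameter `N`: tree function from the operators (duality)
-/

namespace Vale.Agent.P112.T580

open MeasureTheory Set
open scoped ENNReal NNReal

open Vale.Agent.P112.T (Ker Nice Field Un)

/-- The data of a tree, frequency parameter `N`. -/
structure TreeN (N A δ τ s : ℝ) (u : ℝ × ℝ → ℝ) (n : ℕ) (E : ℕ → Set (ℝ × ℝ)) : Prop where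
  meas : ∀ j, MeasurableSet (E j)
  slope : ∀ j < n, ∀ z ∈ E j, |u z - s| ≤ A * 2 ^ j / N
  conv : ∀ z, ∀ i j k : ℕ, i ≤ j → j ≤ k → k < n → z ∈ E i → z ∈ E k → z ∈ E j
  pos : 0 < δ
  dens : ∀ j1 < n, ∀ z1 ∈ E j1, ∀ i ≤ j1,
      volume {z : ℝ × ℝ | z ∈ Un E n ∧ T.q τ i z.1 = T.q τ i z1.1 ∧
        |(z.2 - s * z.1) - (z1.2 - s * z1.1)| ≤ 1 ∧ |u z - s| ≤ 2 * A * 2 ^ i / N} ≤
        ENNReal.ofReal (δ / 2 ^ i)

/-- the `L^p` bound of the operators on a tree (owner helper724) -/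
def OpBN (p : ℝ) (M : ℕ) (A C0 : ℝ) : Prop := ∃ C : ℝ, 0 < C ∧ ∀ (N : ℝ) (κ : Ker M), κ.Bd N C0 →
  ∀ (τ : ℝ) (u : ℝ × ℝ → ℝ), Field u → ∀ (n : ℕ) (E : ℕ → Set (ℝ × ℝ)) (s δ : ℝ),
    TreeN N A δ τ s u n E → ∀ f : ℝ × ℝ → ℝ, Nice f →
      ∫⁻ z in Un E n, ‖TU κ u E n f z‖ₑ ^ p ≤ ENNReal.ofReal (C * δ) * ∫⁻ z, ‖f z‖ₑ ^ p

/-- the tree function in `L^q` -/
def TqBN (q : ℝ) (M : ℕ) (A C0 : ℝ) : Prop := ∃ C : ℝ, 0 < C ∧ ∀ (N : ℝ) (κ : Ker M), κ.Bd N C0 →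
  ∀ (τ : ℝ) (u : ℝ × ℝ → ℝ), Field u → ∀ (n : ℕ) (E : ℕ → Set (ℝ × ℝ)) (s δ : ℝ),
    TreeN N A δ τ s u n E → ∀ g : ℝ × ℝ → ℝ, Nice g →
      ∫⁻ ζ, ‖κ.FS u g E n ζ‖ₑ ^ q ≤
        ENNReal.ofReal (C * δ ^ (q - 1)) * ∫⁻ z in Un E n, ‖g z‖ₑ ^ q

theorem tqBN_of_opBN {M : ℕ} {A C0 p q : ℝ} (hpq : p.HolderConjugate q) (h : OpBN p M A C0) :
    TqBN q M A C0 := by
  obtain ⟨C, hC, hop⟩ := h
  have hq1 : 1 < q := hpq.symm.lt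
  refine ⟨C ^ (q - 1), by positivity, ?_⟩
  intro N κ hκ τ u hu n E s δ hT g hg
  have hδ := hT.pos
  refine (dual_bound κ hu hT.meas n hpq (hop N κ hκ τ u hu n E s δ hT) hg).trans (le_of_eq ?_)
  rw [ENNReal.ofReal_rpow_of_nonneg (by positivity) (by linarith),
    Real.mul_rpow hC.le hδ.le]

/-- helper3's `StN2` -/
theorem stN2_of_opBN {M : ℕ} {A C0 : ℝ} (h : OpBN 2 M A C0) : T.StN2 M A C0 := by
  obtain ⟨C, hC, hq⟩ := tqBN_of_opBN (q := 2) Real.HolderConjugate.two_two h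
  refine ⟨C, hC, ?_⟩
  intro N κ hκ τ u hu n E hE s hs hconv δ hδ hd g hg
  have h1 := hq N κ hκ τ u hu n E s δ ⟨hE, hs, hconv, hδ, hd⟩ g hg
  have h2 := real_of_enn (m := 0) (D := C * δ) (κ.FS_nice hu hg hE n) hg (U := Un E n)
    (by positivity) (by
      have e1 : ((2 * (0 + 1) : ℕ) : ℝ) = 2 := by norm_num
      rw [e1]
      rw [show (2 : ℝ) - 1 = 1 by norm_num, Real.rpow_one] at h1
      exact h1)
  simpa using h2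

/-- fourth moment of a tree function, frequency parameter `N` -/
def StN2four (M : ℕ) (A C0 : ℝ) : Prop := ∃ C : ℝ, 0 < C ∧ ∀ (N : ℝ) (κ : Ker M), κ.Bd N C0 →
  ∀ (τ : ℝ) (u : ℝ × ℝ → ℝ), Field u → ∀ (n : ℕ) (E : ℕ → Set (ℝ × ℝ)) (s δ : ℝ),
    TreeN N A δ τ s u n E → ∀ g : ℝ × ℝ → ℝ, Nice g →
      ∫ ζ, (κ.FS u g E n ζ) ^ 4 ≤ C * δ ^ 3 * ∫ z in Un E n, g z ^ 4

theorem stN2four_of_opBN {M : ℕ} {A C0 : ℝ} (h : OpBN (4 / 3) M A C0) : StN2four M A C0 := by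
  have hpq : (4 / 3 : ℝ).HolderConjugate 4 := by
    rw [Real.holderConjugate_iff]; norm_num
  obtain ⟨C, hC, hq⟩ := tqBN_of_opBN hpq h
  refine ⟨C, hC, ?_⟩
  intro N κ hκ τ u hu n E s δ hT g hg
  have hδ := hT.pos
  have h1 := hq N κ hκ τ u hu n E s δ hT g hg
  have h2 := real_of_enn (m := 1) (D := C * δ ^ 3) (κ.FS_nice hu hg hT.meas n) hg (U := Un E n)
    (by positivity) (by
      have e1 : ((2 * (1 + 1) : ℕ) : ℝ) = 4 := by norm_num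
      rw [e1]
      rw [show (4 : ℝ) - 1 = ((3 : ℕ) : ℝ) by norm_num, Real.rpow_natCast] at h1
      exact h1)
  simpa using h2

end Vale.Agent.P112.T580
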