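import Vale.Agent.P112.H964.StT4a
import Vale.Agent.P112.H967.Dir
import Vale.Agent.P112.T580.DualN

/-!
# P112, interface (T) - (G): regularity of a tree function along the lines of its slope

`F = κ.FS u g E n`, tree of slope `s`. If no pair of scale `> J` is active near the point `(x, y)`
(within `2 / 2 ^ J` in `x`), then `F` varies at most by `C |t| 2 ^ J * GR` along `(t, s t)`,
`GR` = grand maximal function of the tree.
-/

open MeasureTheory Set
open scoped ENNReal NNReal

namespace Vale.Agent.P112.T580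

open Vale.Agent.P112.T (Ker Nice Field Un)
open Vale.Agent.P112.H964

/-- the grand maximal function of a tree -/
noncomputable def GR (s : ℝ) (U : Set (ℝ × ℝ)) (g : ℝ × ℝ → ℝ) (z : ℝ × ℝ) : ℝ≥0∞ :=
  HL.MV (HL.MS s (U.indicator fun z => ‖g z‖ₑ)) z

theorem GR_meas (s : ℝ) {U : Set (ℝ × ℝ)} (hU : MeasurableSet U) {g : ℝ × ℝ → ℝ}
    (hg : Measurable g) : Measurable (GR s U g) :=
  HL.measurable_MV (HL.measurable_MS s (hg.enorm.indicator hU))

/-- `L^p` bound of the grand maximal function -/
theorem GR_Lp {p : ℝ} (hp : 1 < p) (s : ℝ) {U : Set (ℝ × ℝ)} (hU : MeasurableSet U)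
    {g : ℝ × ℝ → ℝ} (hg : Measurable g) :
    ∫⁻ z, GR s U g z ^ p ≤ HL.CM p * HL.CM p * ∫⁻ z in U, ‖g z‖ₑ ^ p := by
  refine (HL.strong_MVS hp s (hg.enorm.indicator hU)).trans (le_of_eq ?_)
  congr 1
  rw [← lintegral_indicator hU]
  refine lintegral_congr fun z => ?_
  by_cases hz : z ∈ U
  · rw [indicator_of_mem hz, indicator_of_mem hz]
  · rw [indicator_of_notMem hz, indicator_of_notMem hz, ENNReal.zero_rpow_of_pos (by linarith)]

/-- the averages over the tubes of the tree are bounded by the grand maximal function -/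
theorem Av_le_GR (s : ℝ) {B : ℝ} (hB : 0 < B) (j : ℕ) {U : Set (ℝ × ℝ)} (hU : MeasurableSet U)
    {g : ℝ × ℝ → ℝ} (hg : Measurable g) (ζ : ℝ × ℝ) :
    ENNReal.ofReal (T.Av s B j (fun z => |U.indicator g z|) ζ) ≤
      ENNReal.ofReal (16 * B ^ 2) * GR s U g ζ := by
  have h2 : (0 : ℝ) < 2 ^ j := by positivity
  set f : ℝ × ℝ → ℝ≥0∞ := U.indicator fun z => ‖g z‖ₑ with hf
  have hfm : Measurable f := hg.enorm.indicator hU
  set S : Set (ℝ × ℝ) := {z : ℝ × ℝ | |z.1 - ζ.1| ≤ B / 2 ^ j ∧
    |(z.2 - s * z.1) - (ζ.2 - s * ζ.1)| ≤ B} with hS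
  have hSm : MeasurableSet S :=
    (measurableSet_le (f := fun z : ℝ × ℝ => |z.1 - ζ.1|) (g := fun _ => B / 2 ^ j)
      (by fun_prop) (by fun_prop)).inter
    (measurableSet_le (f := fun z : ℝ × ℝ => |(z.2 - s * z.1) - (ζ.2 - s * ζ.1)|)
      (g := fun _ => B) (by fun_prop) (by fun_prop))
  set L : ℝ := 2 * B / 2 ^ j with hL
  set w : ℝ := 2 * B with hw
  have hL0 : 0 < L := by positivity
  have hw0 : 0 < w := by positivity
  -- the box integral
  have h1 : ENNReal.ofReal (∫ z in S, |U.indicator g z|) ≤ ∫⁻ z in S, f z := by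
    refine (ENNReal.ofReal_le_ofReal (le_abs_self _)).trans ?_
    rw [← Real.enorm_eq_ofReal_abs]
    refine (enorm_integral_le_lintegral_enorm _).trans (le_of_eq ?_)
    refine lintegral_congr fun z => ?_
    rw [Real.enorm_eq_ofReal_abs, abs_abs, ← Real.enorm_eq_ofReal_abs, hf]
    by_cases hz : z ∈ U
    · rw [indicator_of_mem hz, indicator_of_mem hz]
    · rw [indicator_of_notMem hz, indicator_of_notMem hz, enorm_zero]
  have h3 : ∫⁻ z in S, f z ≤ ∫⁻ t in Metric.ball ζ.1 L,
      ∫⁻ h in Metric.ball (ζ.2 + s * (t - ζ.1)) w, f (t, h) := by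
    rw [← lintegral_indicator hSm, HL.lintegral_iter (hfm.indicator hSm),
      ← lintegral_indicator Metric.isOpen_ball.measurableSet]
    refine lintegral_mono fun t => ?_
    by_cases ht : t ∈ Metric.ball ζ.1 L
    · rw [indicator_of_mem ht, ← lintegral_indicator Metric.isOpen_ball.measurableSet]
      refine lintegral_mono fun h => ?_
      by_cases hh : (t, h) ∈ S
      · rw [indicator_of_mem hh, indicator_of_mem]
        rw [Metric.mem_ball, Real.dist_eq]
        have h4 := hh.2
        simp only at h4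
        rw [show h - (ζ.2 + s * (t - ζ.1)) = h - s * t - (ζ.2 - s * ζ.1) by ring]
        linarith
      · rw [indicator_of_notMem hh]
        exact zero_le
    · rw [indicator_of_notMem ht]
      refine le_of_eq ?_
      rw [← lintegral_zero (μ := (volume : Measure ℝ))]
      refine lintegral_congr fun h => ?_
      rw [indicator_of_notMem]
      intro hh
      apply ht
      rw [Metric.mem_ball, Real.dist_eq]
      have h4 := hh.1
      simp only at h4
      refine lt_of_le_of_lt h4 ?_
      rw [hL]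
      have : 0 < B / 2 ^ j := by positivity
      have e : 2 * B / 2 ^ j = B / 2 ^ j + B / 2 ^ j := by ring
      linarith
  have h5 := HL.tube_avg s hfm (x := ζ.1) (y := ζ.2) (x₀ := ζ.1) (y₀ := ζ.2) (L := L) (w := w)
    (Metric.mem_ball_self hL0) (by
      rw [sub_self, mul_zero, add_zero]; exact Metric.mem_ball_self hw0)
  rw [ENNReal.div_le_iff (mul_ne_zero (by simpa using hL0) (by simpa using hw0))
    (ENNReal.mul_ne_top ENNReal.ofReal_ne_top ENNReal.ofReal_ne_top)] at h5
  unfold T.Av
  rw [ENNReal.ofReal_mul h2.le]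
  calc ENNReal.ofReal (2 ^ j) * ENNReal.ofReal (∫ z in S, |U.indicator g z|)
      ≤ ENNReal.ofReal (2 ^ j) * (HL.MV (HL.MS s f) (ζ.1, ζ.2) *
        (ENNReal.ofReal (2 * L) * ENNReal.ofReal (2 * w))) := by
        gcongr
        exact h1.trans (h3.trans h5)
    _ = ENNReal.ofReal (16 * B ^ 2) * GR s U g ζ := by
        rw [← ENNReal.ofReal_mul (by positivity), mul_left_comm, ← ENNReal.ofReal_mul h2.le,
          mul_comm]
        congr 2
        rw [hL, hw]
        field_simp
        ring

/-- a function with small derivative varies little -/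
theorem lip_of_deriv {f f' : ℝ → ℝ} {x t C : ℝ} (hf : ∀ x', HasDerivAt f (f' x') x')
    (hb : ∀ x', |x' - x| ≤ |t| → |f' x'| ≤ C) : |f (x + t) - f x| ≤ C * |t| := by
  have h1 := Convex.norm_image_sub_le_of_norm_hasDerivWithin_le (f := f) (f' := f')
    (s := Metric.closedBall x |t|) (x := x) (y := x + t) (C := C)
    (fun y _ => (hf y).hasDerivWithinAt) (fun y hy => by
      rw [Metric.mem_closedBall, Real.dist_eq] at hy
      exact hb y hy) (convex_closedBall x |t|) (Metric.mem_closedBall_self (abs_nonneg t))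
    (by rw [Metric.mem_closedBall, Real.dist_eq, add_sub_cancel_left])
  simpa [Real.norm_eq_abs, add_sub_cancel_left] using h1

theorem geom_two (J n : ℕ) : ∑ i ∈ (Finset.range n).filter (fun i => i ≤ J), (2 : ℝ) ^ i ≤
    2 * 2 ^ J := by
  calc ∑ i ∈ (Finset.range n).filter (fun i => i ≤ J), (2 : ℝ) ^ i
      ≤ ∑ i ∈ Finset.range (J + 1), (2 : ℝ) ^ i := by
        refine Finset.sum_le_sum_of_subset_of_nonneg (fun i hi => ?_) fun _ _ _ => by positivity
        rw [Finset.mem_filter] at hi
        exact Finset.mem_range.2 (by omega)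
    _ = (2 : ℝ) ^ (J + 1) - 1 := by rw [geom_sum_eq (by norm_num)]; ring
    _ ≤ 2 * 2 ^ J := by rw [pow_succ]; linarith

/-- **(AMP1)** -/
theorem amp_one {M : ℕ} {κ : Ker M} {N C0 A : ℝ} (hκ : κ.Bd N C0) (hA : 0 ≤ A)
    {u : ℝ × ℝ → ℝ} (hu : Measurable u) {g : ℝ × ℝ → ℝ} (hg : Nice g) {E : ℕ → Set (ℝ × ℝ)}
    (hE : ∀ j, MeasurableSet (E j)) {s : ℝ} {n : ℕ}
    (hs : ∀ j < n, ∀ z ∈ E j, |u z - s| ≤ A * 2 ^ j / N) {J : ℕ} {x t y : ℝ}
    (ht : |t| ≤ 1 / 2 ^ J)
    (hloc : ∀ i, J < i → i < n → ∀ z ∈ E i, |(z.2 - s * z.1) - (y - s * x)| ≤ 1 + A →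
      2 / 2 ^ J < |z.1 - x|) :
    ‖κ.FS u g E n (x + t, y + s * t) - κ.FS u g E n (x, y)‖ₑ ≤
      ENNReal.ofReal (64 * C0 ^ 2 * (1 + A) * (2 + A) ^ 2 * |t| * 2 ^ J) *
        GR s (Un E n) g (x, y) := by
  have h := prof_of_ker κ
  have b := pb_of_bd hκ
  have tr := tr_of hA hu (nice_int hg) hE hs
  have hC0 : 0 ≤ C0 := b.C0_nonneg
  set Y : ℝ := y - s * x with hY
  set G : ℕ → ℝ × ℝ → ℝ := fun i => (shE s ⁻¹' E i).indicator (fun z => g (shE s z)) with hG
  have hJ0 : (0 : ℝ) < 2 ^ J := by positivity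
  have hUn : MeasurableSet (Un E n) := by
    have : Un E n = ⋃ j ∈ Finset.range n, E j := by
      ext z; simp [Un]
    rw [this]
    exact Finset.measurableSet_biUnion _ fun j _ => hE j
  have e1 : κ.FS u g E n (x, y) = FD κ.K κ.psi 0 (vS s u) (fun z => g (shE s z))
      (fun j => shE s ⁻¹' E j) n x Y := by
    rw [← FS_frame, hY]; congr 2; ring
  have e2 : κ.FS u g E n (x + t, y + s * t) = FD κ.K κ.psi 0 (vS s u) (fun z => g (shE s z))
      (fun j => shE s ⁻¹' E j) n (x + t) Y := by
    rw [← FS_frame, hY]; congr 2; ring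
  rw [e1, e2]
  -- scale by scale
  have hbox : ∀ i, i < n → Bx A i (G i) x Y ≤ T.Av s (2 + A) i
      (fun z => |(Un E n).indicator g z|) (x, y) := by
    intro i hi
    have h1 := Bx_frame_le (h := (E i).indicator g) ((nice_int hg).indicator (hE i)) s hA i (x, y)
    have h2 : (fun z => (E i).indicator g (shE s z)) = G i := by
      funext z; rfl
    rw [h2] at h1
    refine h1.trans ?_
    unfold T.Av
    refine mul_le_mul_of_nonneg_left ?_ (by positivity)
    refine integral_mono (((nice_int hg).indicator (hE i)).abs.integrableOn)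
      (((nice_int hg).indicator hUn).abs.integrableOn) fun z => ?_
    by_cases hz : z ∈ E i
    · have hz' : z ∈ Un E n := ⟨i, hi, hz⟩
      simp only [indicator_of_mem hz, indicator_of_mem hz', le_refl]
    · simp only [indicator_of_notMem hz, abs_zero]
      exact abs_nonneg _
  have hterm : ∀ i ∈ Finset.range n, |S κ.K κ.psi 0 i (vS s u) (G i) (x + t) Y -
      S κ.K κ.psi 0 i (vS s u) (G i) x Y| ≤ if i ≤ J then
        2 * C0 ^ 2 * (1 + A) * 2 ^ i * |t| * T.Av s (2 + A) i
          (fun z => |(Un E n).indicator g z|) (x, y) else 0 := by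
    intro i hi
    have hin := Finset.mem_range.1 hi
    split_ifs with hiJ
    · have hpow : (2 : ℝ) ^ i ≤ 2 ^ J := pow_le_pow_right₀ (by norm_num) hiJ
      have h1 := lip_of_deriv (f := fun x => S κ.K κ.psi 0 i (vS s u) (G i) x Y)
        (f' := fun x => S κ.K κ.psi 1 i (vS s u) (G i) x Y) (x := x) (t := t)
        (C := 2 ^ 1 * C0 ^ 2 * (1 + A) ^ 1 * (2 ^ i) ^ 1 * Bx A i (G i) x Y)
        (fun x' => hasDerivAt_S h b tr.A0 (by omega) i tr.mv (tr.iE i) (tr.vE hin) x' Y)
        (fun x' hx' => abs_S_le h b tr.A0 (by omega) i _ _ (tr.iE i) (tr.vE hin) x Y x' (by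
          refine hx'.trans (ht.trans ?_)
          rw [one_div]
          exact inv_anti₀ (by positivity) hpow))
      refine h1.trans ?_
      simp only [pow_one]
      calc 2 * C0 ^ 2 * (1 + A) * 2 ^ i * Bx A i (G i) x Y * |t|
          ≤ 2 * C0 ^ 2 * (1 + A) * 2 ^ i * T.Av s (2 + A) i
            (fun z => |(Un E n).indicator g z|) (x, y) * |t| := by
            gcongr
            exact hbox i hin
        _ = _ := by ring
    · rw [not_le] at hiJ
      have hzero : ∀ x', |x' - x| ≤ 1 / 2 ^ J → S κ.K κ.psi 0 i (vS s u) (G i) x' Y = 0 := by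
        intro x' hx'
        have h1 := abs_S_le h b tr.A0 (a := 0) (by omega) i (vS s u) (G i) (tr.iE i) (tr.vE hin)
          x' Y x' (by simp)
        have h2 : Bx A i (G i) x' Y = 0 := by
          unfold Bx
          rw [setIntegral_eq_zero_of_forall_eq_zero, mul_zero]
          intro z hz
          by_contra hne
          have hzE : z ∈ shE s ⁻¹' E i := by
            by_contra hn
            apply hne
            simp only [hG]
            rw [indicator_of_notMem hn, abs_zero]
          have hz2 := hloc i hiJ hin (shE s z) hzE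
          rw [shE_apply] at hz2
          simp only [add_sub_cancel_right] at hz2
          have h3 := hz2 hz.2
          have h4 : 2 * ((2 : ℝ) ^ i)⁻¹ ≤ 1 / 2 ^ J := by
            have : (2 : ℝ) * 2 ^ J ≤ 2 ^ i := by
              rw [← pow_succ']
              exact pow_le_pow_right₀ (by norm_num) hiJ
            rw [← div_eq_mul_inv, div_le_div_iff₀ (by positivity) (by positivity)]
            linarith
          have h5 : |z.1 - x| ≤ |z.1 - x'| + |x' - x| := abs_sub_le _ _ _
          have h6 := hz.1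
          have h7 : (2 : ℝ) / 2 ^ J = 1 / 2 ^ J + 1 / 2 ^ J := by ring
          linarith
        rw [h2, mul_zero] at h1
        exact abs_nonpos_iff.1 h1
      rw [hzero x (by simp), hzero (x + t) (by simpa using ht), sub_zero, abs_zero]
  -- summation
  have hsum : |FD κ.K κ.psi 0 (vS s u) (fun z => g (shE s z)) (fun j => shE s ⁻¹' E j) n (x + t) Y -
      FD κ.K κ.psi 0 (vS s u) (fun z => g (shE s z)) (fun j => shE s ⁻¹' E j) n x Y| ≤
      ∑ i ∈ (Finset.range n).filter (fun i => i ≤ J), 2 * C0 ^ 2 * (1 + A) * 2 ^ i * |t| *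
        T.Av s (2 + A) i (fun z => |(Un E n).indicator g z|) (x, y) := by
    unfold FD
    rw [← Finset.sum_sub_distrib, Finset.sum_filter]
    exact (Finset.abs_sum_le_sum_abs _ _).trans (Finset.sum_le_sum hterm)
  rw [Real.enorm_eq_ofReal_abs]
  refine (ENNReal.ofReal_le_ofReal hsum).trans ?_
  have hAvn : ∀ i, 0 ≤ T.Av s (2 + A) i (fun z => |(Un E n).indicator g z|) (x, y) := fun i =>
    mul_nonneg (by positivity) (integral_nonneg fun _ => abs_nonneg _)
  rw [ENNReal.ofReal_sum_of_nonneg fun i _ => by have := hAvn i; positivity]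
  calc ∑ i ∈ (Finset.range n).filter (fun i => i ≤ J),
        ENNReal.ofReal (2 * C0 ^ 2 * (1 + A) * 2 ^ i * |t| *
          T.Av s (2 + A) i (fun z => |(Un E n).indicator g z|) (x, y))
      ≤ ∑ i ∈ (Finset.range n).filter (fun i => i ≤ J),
        ENNReal.ofReal (2 * C0 ^ 2 * (1 + A) * |t| * (16 * (2 + A) ^ 2)) * ENNReal.ofReal (2 ^ i) *
          GR s (Un E n) g (x, y) := by
        refine Finset.sum_le_sum fun i _ => ?_
        rw [ENNReal.ofReal_mul (by positivity)]
        refine (mul_le_mul' le_rfl (Av_le_GR s (by linarith) i hUn hg.meas (x, y))).trans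
          (le_of_eq ?_)
        rw [← mul_assoc, ← ENNReal.ofReal_mul (by positivity), ← ENNReal.ofReal_mul (by positivity)]
        congr 2
        ring
    _ = ENNReal.ofReal (2 * C0 ^ 2 * (1 + A) * |t| * (16 * (2 + A) ^ 2)) *
        ENNReal.ofReal (∑ i ∈ (Finset.range n).filter (fun i => i ≤ J), (2 : ℝ) ^ i) *
          GR s (Un E n) g (x, y) := by
        rw [← Finset.sum_mul, ← Finset.mul_sum, ENNReal.ofReal_sum_of_nonneg fun i _ => by positivity]
    _ ≤ ENNReal.ofReal (2 * C0 ^ 2 * (1 + A) * |t| * (16 * (2 + A) ^ 2)) *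
        ENNReal.ofReal (2 * 2 ^ J) * GR s (Un E n) g (x, y) := by
        gcongr
        exact geom_two J n
    _ = _ := by
        rw [← ENNReal.ofReal_mul (by positivity)]
        congr 2
        ring

end Vale.Agent.P112.T580
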