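import Vale.Agent.P112.H864.Prof
import Vale.Agent.P112.T580.Amp

/-!
# P112, interface (T) - (G): increments of the profiles in `L²(dv)`, and `L^r` bounds of windows
-/

open MeasureTheory Set
open scoped ENNReal NNReal

namespace Vale.Agent.P112.T580

open Vale.Agent.P112.T (Ker Nice Field Un)
open Vale.Agent.P112.H864 (prof Win)

theorem add_sq_le2 (a b : ℝ≥0∞) : (a + b) ^ 2 ≤ 2 * (a ^ 2 + b ^ 2) := by
  have h := ENNReal.rpow_add_le_mul_rpow_add_rpow a b (p := 2) (by norm_num)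
  simp only [ENNReal.rpow_two] at h
  refine h.trans (le_of_eq ?_)
  norm_num

theorem Un_meas {E : ℕ → Set (ℝ × ℝ)} (hE : ∀ j, MeasurableSet (E j)) (n : ℕ) :
    MeasurableSet (Un E n) := by
  have : Un E n = ⋃ j ∈ Finset.range n, E j := by
    ext z; simp [Un]
  rw [this]
  exact Finset.measurableSet_biUnion _ fun j _ => hE j

/-- the constant of (AMP1) -/
noncomputable def cA (A C0 : ℝ) : ℝ := 64 * C0 ^ 2 * (1 + A) * (2 + A) ^ 2

/-- **(AMP2)** -/
theorem amp_two {ρ : ℝ → ℝ} {L : ℝ} (hρ : Win ρ L) {h : ℝ} (hh : 0 < h)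
    {M : ℕ} {κ : Ker M} {N C0 A : ℝ} (hκ : κ.Bd N C0) (hA : 0 ≤ A)
    {u : ℝ × ℝ → ℝ} (hu : Field u) {g : ℝ × ℝ → ℝ} (hg : Nice g) {E : ℕ → Set (ℝ × ℝ)}
    (hE : ∀ j, MeasurableSet (E j)) {s : ℝ} {n : ℕ}
    (hs : ∀ j < n, ∀ z ∈ E j, |u z - s| ≤ A * 2 ^ j / N) {J : ℕ} {z : ℝ × ℝ}
    (hq : ∀ j, J < j → j < n → ∀ z' ∈ E j, |z'.1 - z.1| ≤ 2 / 2 ^ J →
      |(z'.2 - s * z'.1) - (z.2 - s * z.1)| ≤ 3 * h + 1 + A → False)
    {t σ : ℝ} (ht : |t| ≤ 1 / 2 ^ J) (ha : |t * (s - σ)| ≤ h) :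
    ∫⁻ v, ‖prof ρ h (κ.FS u g E n) (z.1 + t, z.2 + t * σ) v -
        prof ρ h (κ.FS u g E n) z (v - t * (s - σ))‖ₑ ^ 2 ≤
      ENNReal.ofReal (2 * (cA A C0 * (|t| * 2 ^ J) + L * (|t * (s - σ)| / h)) ^ 2) *
        ∫⁻ w in Icc (-(3 * h)) (3 * h), (GR s (Un E n) g (z.1, z.2 + w) ^ 2 +
          ‖κ.FS u g E n (z.1, z.2 + w)‖ₑ ^ 2) := by
  set a : ℝ := t * (s - σ) with ha_def
  set F := κ.FS u g E n with hF
  set c1 : ℝ := cA A C0 * (|t| * 2 ^ J) with hc1
  set c2 : ℝ := L * (|a| / h) with hc2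
  have hC0 : 0 ≤ C0 := (H964.pb_of_bd hκ).C0_nonneg
  have hc1n : 0 ≤ c1 := by rw [hc1, cA]; positivity
  have hc2n : 0 ≤ c2 := mul_nonneg hρ.L0 (by positivity)
  -- pointwise
  have key : ∀ w, ‖prof ρ h F (z.1 + t, z.2 + t * σ) (w + a) - prof ρ h F z w‖ₑ ^ 2 ≤
      (Icc (-(3 * h)) (3 * h)).indicator (fun w => ENNReal.ofReal (2 * (c1 + c2) ^ 2) *
        (GR s (Un E n) g (z.1, z.2 + w) ^ 2 + ‖F (z.1, z.2 + w)‖ₑ ^ 2)) w := by
    intro w
    by_cases hw : |w| ≤ 3 * h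
    · have hwm : w ∈ Icc (-(3 * h)) (3 * h) := abs_le.1 hw
      rw [indicator_of_mem hwm]
      have e1 : z.2 + t * σ + (w + a) = (z.2 + w) + s * t := by rw [ha_def]; ring
      have h1 := amp_one hκ hA hu.meas hg hE hs (J := J) (x := z.1) (t := t) (y := z.2 + w) ht
        (by
          intro i hi hin z' hz' hoff
          by_contra hc
          rw [not_lt] at hc
          refine hq i hi hin z' hz' hc ?_
          have e2 : (z'.2 - s * z'.1) - (z.2 - s * z.1) =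
            ((z'.2 - s * z'.1) - (z.2 + w - s * z.1)) + w := by ring
          rw [e2]
          refine (abs_add_le _ _).trans ?_
          linarith)
      have e3 : prof ρ h F (z.1 + t, z.2 + t * σ) (w + a) - prof ρ h F z w =
          ρ ((w + a) / h) * (F (z.1 + t, (z.2 + w) + s * t) - F (z.1, z.2 + w)) +
            (ρ ((w + a) / h) - ρ (w / h)) * F (z.1, z.2 + w) := by
        unfold prof
        simp only [e1]
        ring
      have h2 : ‖ρ ((w + a) / h)‖ₑ ≤ 1 := by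
        rw [Real.enorm_eq_ofReal_abs, abs_of_nonneg (hρ.nonneg _)]
        exact ENNReal.ofReal_le_one.2 (hρ.le_one _)
      have h3 : ‖ρ ((w + a) / h) - ρ (w / h)‖ₑ ≤ ENNReal.ofReal c2 := by
        rw [Real.enorm_eq_ofReal_abs]
        apply ENNReal.ofReal_le_ofReal
        refine (hρ.lip _ _).trans (le_of_eq ?_)
        rw [hc2, ← sub_div, add_sub_cancel_left, abs_div, abs_of_pos hh]
      have h4 : ‖prof ρ h F (z.1 + t, z.2 + t * σ) (w + a) - prof ρ h F z w‖ₑ ≤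
          ENNReal.ofReal (c1 + c2) * GR s (Un E n) g (z.1, z.2 + w) +
            ENNReal.ofReal (c1 + c2) * ‖F (z.1, z.2 + w)‖ₑ := by
        rw [e3]
        refine (enorm_add_le _ _).trans (add_le_add ?_ ?_)
        · rw [enorm_mul]
          calc ‖ρ ((w + a) / h)‖ₑ * ‖F (z.1 + t, (z.2 + w) + s * t) - F (z.1, z.2 + w)‖ₑ
              ≤ 1 * (ENNReal.ofReal (64 * C0 ^ 2 * (1 + A) * (2 + A) ^ 2 * |t| * 2 ^ J) *
                GR s (Un E n) g (z.1, z.2 + w)) := by gcongr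
            _ ≤ _ := by
              rw [one_mul]
              gcongr
              rw [hc1, cA]
              linarith [hc2n]
        · rw [enorm_mul]
          gcongr
          exact h3.trans (ENNReal.ofReal_le_ofReal (by linarith))
      calc ‖prof ρ h F (z.1 + t, z.2 + t * σ) (w + a) - prof ρ h F z w‖ₑ ^ 2
          ≤ (ENNReal.ofReal (c1 + c2) * GR s (Un E n) g (z.1, z.2 + w) +
            ENNReal.ofReal (c1 + c2) * ‖F (z.1, z.2 + w)‖ₑ) ^ 2 := by gcongr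
        _ ≤ 2 * ((ENNReal.ofReal (c1 + c2) * GR s (Un E n) g (z.1, z.2 + w)) ^ 2 +
            (ENNReal.ofReal (c1 + c2) * ‖F (z.1, z.2 + w)‖ₑ) ^ 2) := add_sq_le2 _ _
        _ = ENNReal.ofReal (2 * (c1 + c2) ^ 2) *
            (GR s (Un E n) g (z.1, z.2 + w) ^ 2 + ‖F (z.1, z.2 + w)‖ₑ ^ 2) := by
          rw [ENNReal.ofReal_mul (by norm_num), ENNReal.ofReal_pow (by positivity),
            show ENNReal.ofReal 2 = 2 by norm_num]
          ring
    · have hwm : w ∉ Icc (-(3 * h)) (3 * h) := fun hc => hw (abs_le.2 hc)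
      rw [indicator_of_notMem hwm]
      rw [not_le] at hw
      have h1 : prof ρ h F z w = 0 := H864.prof_zero hρ hh F z (by linarith)
      have h2 : prof ρ h F (z.1 + t, z.2 + t * σ) (w + a) = 0 := by
        apply H864.prof_zero hρ hh
        have : |w| ≤ |w + a| + |a| := by
          have := abs_sub (w + a) a
          rwa [add_sub_cancel_right] at this
        linarith
      rw [h1, h2]
      simp
  calc ∫⁻ v, ‖prof ρ h F (z.1 + t, z.2 + t * σ) v - prof ρ h F z (v - a)‖ₑ ^ 2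
      = ∫⁻ w, ‖prof ρ h F (z.1 + t, z.2 + t * σ) (w + a) - prof ρ h F z (w + a - a)‖ₑ ^ 2 :=
        (lintegral_add_right_eq_self (μ := volume) (fun v =>
          ‖prof ρ h F (z.1 + t, z.2 + t * σ) v - prof ρ h F z (v - a)‖ₑ ^ 2) a).symm
    _ ≤ ∫⁻ w, (Icc (-(3 * h)) (3 * h)).indicator (fun w => ENNReal.ofReal (2 * (c1 + c2) ^ 2) *
        (GR s (Un E n) g (z.1, z.2 + w) ^ 2 + ‖F (z.1, z.2 + w)‖ₑ ^ 2)) w := by
        refine lintegral_mono fun w => ?_
        simp only [add_sub_cancel_right]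
        exact key w
    _ = _ := by
        rw [lintegral_indicator measurableSet_Icc, lintegral_const_mul' _ _ ENNReal.ofReal_ne_top]

/-! ### windows -/

/-- Hölder on a window, with the measure of the support -/
theorem win_holder {r : ℝ} (hr : 1 ≤ r) {μ : Measure ℝ} {φ : ℝ → ℝ≥0∞} (hφ : Measurable φ)
    {o : ℝ≥0∞} (ho : μ {w | φ w ≠ 0} ≤ o) :
    (∫⁻ w, φ w ∂μ) ^ r ≤ o ^ (r - 1) * ∫⁻ w, φ w ^ r ∂μ := by
  rcases hr.eq_or_lt with rfl | hr1
  · simp
  have hr0 : 0 < r := by linarith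
  set S : Set ℝ := {w | φ w ≠ 0} with hS
  have hSm : MeasurableSet S := hφ (measurableSet_singleton 0).compl
  have hpq : r.HolderConjugate (r / (r - 1)) := by
    rw [Real.holderConjugate_iff]
    refine ⟨hr1, ?_⟩
    have : r - 1 ≠ 0 := by linarith
    field_simp
    ring
  have h1 : ∫⁻ w, φ w ∂μ = ∫⁻ w, (φ * S.indicator fun _ => (1 : ℝ≥0∞)) w ∂μ := by
    refine lintegral_congr fun w => ?_
    by_cases hw : w ∈ S
    · simp [indicator_of_mem hw]
    · have : φ w = 0 := by simpa [hS] using hw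
      simp [this]
  have h2 := ENNReal.lintegral_mul_le_Lp_mul_Lq μ hpq hφ.aemeasurable
    ((measurable_const (a := (1 : ℝ≥0∞))).indicator hSm).aemeasurable
  rw [← h1] at h2
  have h3 : ∫⁻ w, (S.indicator (fun _ => (1 : ℝ≥0∞)) w) ^ (r / (r - 1)) ∂μ = μ S := by
    rw [← setLIntegral_one, ← lintegral_indicator hSm]
    refine lintegral_congr fun w => ?_
    by_cases hw : w ∈ S
    · simp [indicator_of_mem hw]
    · have : 0 < r / (r - 1) := div_pos hr0 (by linarith)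
      simp [indicator_of_notMem hw, this]
  rw [h3] at h2
  calc (∫⁻ w, φ w ∂μ) ^ r ≤ ((∫⁻ w, φ w ^ r ∂μ) ^ (1 / r) * μ S ^ (1 / (r / (r - 1)))) ^ r := by
        gcongr
    _ = (∫⁻ w, φ w ^ r ∂μ) * μ S ^ (r - 1) := by
        rw [ENNReal.mul_rpow_of_nonneg _ _ hr0.le, ← ENNReal.rpow_mul, ← ENNReal.rpow_mul,
          one_div_mul_cancel hr0.ne', ENNReal.rpow_one]
        congr 2
        field_simp
    _ ≤ _ := by
        rw [mul_comm]
        gcongr

/-- translation and Tonelli -/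
theorem win_tonelli {Φ : ℝ × ℝ → ℝ≥0∞} (hΦ : Measurable Φ) (W : Set ℝ) :
    ∫⁻ z : ℝ × ℝ, ∫⁻ w in W, Φ (z.1, z.2 + w) = volume W * ∫⁻ z, Φ z := by
  rw [lintegral_lintegral_swap]
  · have h1 : ∀ w : ℝ, ∫⁻ z : ℝ × ℝ, Φ (z.1, z.2 + w) = ∫⁻ z, Φ z := by
      intro w
      have h2 : (fun z : ℝ × ℝ => Φ (z.1, z.2 + w)) = fun z => Φ (z + (0, w)) := by
        funext z
        congr 1
        ext <;> simp
      rw [h2, lintegral_add_right_eq_self (μ := (volume : Measure (ℝ × ℝ))) Φ (0, w)]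
    simp only [h1, lintegral_const, Measure.restrict_apply_univ]
    rw [mul_comm]
  · exact (hΦ.comp (by fun_prop)).aemeasurable

/-- **(LEAF)**: `L^r` bound of a window, relative to the occupancy `o` -/
theorem win_leaf {r : ℝ} (hr : 1 ≤ r) {Φ : ℝ × ℝ → ℝ≥0∞} (hΦ : Measurable Φ) {W : Set ℝ}
    (_hW : MeasurableSet W) {o : ℝ≥0∞} {Om : Set (ℝ × ℝ)} (hOm : MeasurableSet Om)
    (ho : ∀ z ∈ Om, volume {w | w ∈ W ∧ Φ (z.1, z.2 + w) ≠ 0} ≤ o) :
    ∫⁻ z in Om, (∫⁻ w in W, Φ (z.1, z.2 + w)) ^ r ≤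
      o ^ (r - 1) * volume W * ∫⁻ z, Φ z ^ r := by
  have hsec : ∀ z : ℝ × ℝ, Measurable fun w => Φ (z.1, z.2 + w) := fun z =>
    hΦ.comp (by fun_prop)
  calc ∫⁻ z in Om, (∫⁻ w in W, Φ (z.1, z.2 + w)) ^ r
      ≤ ∫⁻ z in Om, o ^ (r - 1) * ∫⁻ w in W, Φ (z.1, z.2 + w) ^ r := by
        refine setLIntegral_mono' hOm fun z hz => win_holder hr (hsec z) ?_
        refine le_trans (le_of_eq ?_) (ho z hz)
        have hms : MeasurableSet {w | Φ (z.1, z.2 + w) ≠ 0} :=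
          (hsec z) (measurableSet_singleton 0).compl
        rw [Measure.restrict_apply hms]
        congr 1
        ext w
        simp only [mem_inter_iff, mem_ofPred_eq]
        exact and_comm
    _ ≤ ∫⁻ z : ℝ × ℝ, o ^ (r - 1) * ∫⁻ w in W, Φ (z.1, z.2 + w) ^ r :=
        setLIntegral_le_lintegral _ _
    _ = o ^ (r - 1) * ∫⁻ z : ℝ × ℝ, ∫⁻ w in W, Φ (z.1, z.2 + w) ^ r := by
        rw [lintegral_const_mul]
        have h3 : Measurable fun q : (ℝ × ℝ) × ℝ => Φ (q.1.1, q.1.2 + q.2) ^ r :=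
          (hΦ.comp (by fun_prop)).pow_const r
        exact h3.lintegral_prod_right'
    _ = _ := by
        rw [win_tonelli (hΦ.pow_const r) W, mul_assoc]

/-- `L^r` bound of a window -/
theorem win_Lr {r : ℝ} (hr : 1 ≤ r) {Φ : ℝ × ℝ → ℝ≥0∞} (hΦ : Measurable Φ) {R : ℝ}
    (hR : 0 ≤ R) :
    ∫⁻ z : ℝ × ℝ, (∫⁻ w in Icc (-R) R, Φ (z.1, z.2 + w)) ^ r ≤
      ENNReal.ofReal ((2 * R) ^ r) * ∫⁻ z, Φ z ^ r := by
  have hvol : volume (Icc (-R) R) = ENNReal.ofReal (2 * R) := by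
    rw [Real.volume_Icc]; congr 1; ring
  have h := win_leaf hr hΦ (W := Icc (-R) R) measurableSet_Icc (o := ENNReal.ofReal (2 * R))
    (Om := univ) MeasurableSet.univ (fun z _ => by
      rw [← hvol]; exact measure_mono fun w hw => hw.1)
  rw [setLIntegral_univ, hvol] at h
  refine h.trans (le_of_eq ?_)
  congr 1
  rw [← ENNReal.ofReal_rpow_of_nonneg (by positivity) (by linarith)]
  rcases (show 0 ≤ R from hR).eq_or_lt with h0 | h0
  · rw [← h0]
    simp only [mul_zero, ENNReal.ofReal_zero]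
    rw [ENNReal.zero_rpow_of_pos (by linarith)]
  · have hne : ENNReal.ofReal (2 * R) ≠ 0 := by
      rw [Ne, ENNReal.ofReal_eq_zero]; linarith
    nth_rewrite 2 [← ENNReal.rpow_one (ENNReal.ofReal (2 * R))]
    rw [← ENNReal.rpow_add _ _ hne ENNReal.ofReal_ne_top]
    congr 1
    ring

end Vale.Agent.P112.T580
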