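import Vale.Agent.P112.H172.VCor
import Vale.Agent.P112.T580.Amp2

/-!
# P112, interface (T) - (G): vertical regularity of the tree functions and of their profiles

`up κ` = the kernel with `ψ'` in the place of `ψ`. `∂_y (κ.FS) = - (up κ).FS`. With
`F1 = κ.FS`, `F = (up κ).FS`, `F2 = (up (up κ)).FS` the profile `p` of `F` satisfies
(H2) `∫ |p (v - d) - p v|² ≤ C d² B`, (H3) `∫_{|θ| < θ0} |p^|² ≤ C (θ0² + h⁻²) B`, (H4) `∫ |p|² ≤ B`.
-/

open MeasureTheory Set
open scoped ENNReal NNReal FourierTransform ContDiff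

namespace Vale.Agent.P112.T580

open Vale.Agent.P112.T (Ker Nice Field Un)
open Vale.Agent.P112.H864 (prof Win)

/-- the kernel with one more derivative -/
def up {M : ℕ} (κ : Ker M) : Ker (M + 1) := ⟨κ.K, κ.Φ, κ.smoothK, κ.oddK, κ.suppK, κ.smoothΦ, κ.suppΦ⟩

theorem hasDerivAt_psi {M : ℕ} (κ : Ker M) (t : ℝ) : HasDerivAt κ.psi ((up κ).psi t) t := by
  have h1 : (up κ).psi = deriv κ.psi := by
    unfold Ker.psi up
    exact iteratedDeriv_succ
  rw [h1]
  have h2 : Differentiable ℝ κ.psi :=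
    κ.smoothΦ.differentiable_iteratedDeriv M (by exact_mod_cast ENat.natCast_lt_top M)
  exact (h2 t).hasDerivAt

theorem hasDerivAt_S {M : ℕ} (κ : Ker M) {u : ℝ × ℝ → ℝ} (hu : Field u) (j : ℕ) {g : ℝ × ℝ → ℝ}
    (hg : Nice g) (x y : ℝ) :
    HasDerivAt (fun y => κ.S u j g (x, y)) (-(up κ).S u j g (x, y)) y := by
  obtain ⟨D, hD, hk⟩ := (up κ).k_bdd
  have hgi := hg.integrable
  have hm : ∀ (M' : ℕ) (κ' : Ker M') (y : ℝ),
      AEStronglyMeasurable (fun z : ℝ × ℝ => κ'.k j (u z) z (x, y) * g z) := by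
    intro M' κ' y
    have h1 : Measurable fun z : ℝ × ℝ => κ'.k j (u z) z (x, y) :=
      (κ'.k_measurable hu.meas j).comp (by fun_prop : Measurable fun z : ℝ × ℝ => (z, (x, y)))
    exact (h1.mul hg.meas).aestronglyMeasurable
  obtain ⟨D', hD', hk'⟩ := κ.k_bdd
  have h := hasDerivAt_integral_of_dominated_loc_of_deriv_le (μ := (volume : Measure (ℝ × ℝ)))
    (F := fun y z => κ.k j (u z) z (x, y) * g z)
    (F' := fun y z => -((up κ).k j (u z) z (x, y) * g z)) (s := univ) (x₀ := y)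
    (bound := fun z => D * 2 ^ j * |g z|) Filter.univ_mem
    (Filter.Eventually.of_forall fun y => hm M κ y)
    (by
      refine (hgi.abs.const_mul (D' * 2 ^ j)).mono' (hm M κ y) ?_
      refine Filter.Eventually.of_forall fun z => ?_
      rw [Real.norm_eq_abs, abs_mul]
      exact mul_le_mul_of_nonneg_right (hk' _ _ _ _) (abs_nonneg _))
    ((hm (M + 1) (up κ) y).neg)
    (Filter.Eventually.of_forall fun z y _ => by
      rw [norm_neg, Real.norm_eq_abs, abs_mul]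
      exact mul_le_mul_of_nonneg_right (hk _ _ _ _) (abs_nonneg _))
    (hgi.abs.const_mul _)
    (Filter.Eventually.of_forall fun z y _ => by
      have h1 : HasDerivAt (fun y : ℝ => z.2 - y - (z.1 - x) * u z) (-1) y := by
        have := ((hasDerivAt_id y).const_sub z.2).sub_const ((z.1 - x) * u z)
        simpa using this
      have h2 := ((hasDerivAt_psi κ (z.2 - y - (z.1 - x) * u z)).comp y h1).const_mul
        (2 ^ j * κ.K (2 ^ j * (z.1 - x)))
      have h3 := h2.mul_const (g z)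
      refine h3.congr_deriv ?_
      simp only [Ker.k, up]
      ring)
  have h2 := h.2
  rw [integral_neg] at h2
  exact h2

theorem hasDerivAt_FS {M : ℕ} (κ : Ker M) {u : ℝ × ℝ → ℝ} (hu : Field u) {g : ℝ × ℝ → ℝ}
    (hg : Nice g) {E : ℕ → Set (ℝ × ℝ)} (hE : ∀ j, MeasurableSet (E j)) (n : ℕ) (x y : ℝ) :
    HasDerivAt (fun y => κ.FS u g E n (x, y)) (-(up κ).FS u g E n (x, y)) y := by
  unfold Ker.FS
  have h := HasDerivAt.fun_sum (u := Finset.range n)
    (A := fun j y => κ.S u j ((E j).indicator g) (x, y))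
    (A' := fun j => -(up κ).S u j ((E j).indicator g) (x, y)) (x := y)
    fun j _ => hasDerivAt_S κ hu j (hg.indicator (hE j)) x y
  rwa [Finset.sum_neg_distrib] at h

theorem continuous_FS {M : ℕ} (κ : Ker M) {u : ℝ × ℝ → ℝ} (hu : Field u) {g : ℝ × ℝ → ℝ}
    (hg : Nice g) {E : ℕ → Set (ℝ × ℝ)} (hE : ∀ j, MeasurableSet (E j)) (n : ℕ) (x : ℝ) :
    Continuous fun y => κ.FS u g E n (x, y) :=
  continuous_iff_continuousAt.2 fun y => (hasDerivAt_FS κ hu hg hE n x y).continuousAt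

/-- continuous functions of compact support are profiles in the sense of helper172 -/
theorem prof_of_cont {f : ℝ → ℂ} (hf : Continuous f) {R : ℝ} (h0 : ∀ v, R < |v| → f v = 0) :
    H172.Prof f := by
  have hc : HasCompactSupport f := by
    refine HasCompactSupport.of_support_subset_isCompact (isCompact_Icc (a := -R) (b := R)) ?_
    intro v hv
    by_contra hn
    apply hv
    apply h0
    by_contra hle
    rw [not_lt] at hle
    exact hn (abs_le.1 hle)
  exact ⟨hf.measurable, hf.integrable_of_hasCompactSupport hc, hf.memLp_of_hasCompactSupport hc⟩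

/-- `L²` modulus of continuity from the derivative -/
theorem shift_le {p p' : ℝ → ℝ} (hp : ∀ v, HasDerivAt p (p' v) v) (hp' : Continuous p') (d : ℝ) :
    ∫⁻ v, ‖p (v - d) - p v‖ₑ ^ 2 ≤ ENNReal.ofReal (d ^ 2) * ∫⁻ v, ‖p' v‖ₑ ^ 2 := by
  have hm : Measurable fun v => ‖p' v‖ₑ := hp'.measurable.enorm
  have h1 : ∀ v, ‖p (v - d) - p v‖ₑ ^ 2 ≤
      ENNReal.ofReal |d| * ∫⁻ τ in uIoc 0 (-d), ‖p' (v + τ)‖ₑ ^ 2 := by
    intro v
    have e1 : p (v - d) - p v = ∫ τ in (0 : ℝ)..(-d), p' (v + τ) := by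
      rw [intervalIntegral.integral_comp_add_left (fun w => p' w) v, add_zero]
      rw [intervalIntegral.integral_eq_sub_of_hasDerivAt (fun w _ => hp w)
        (hp'.intervalIntegrable _ _)]
      rw [sub_eq_add_neg v d]
    have e2 : ‖p (v - d) - p v‖ₑ ≤ ∫⁻ τ in uIoc 0 (-d), ‖p' (v + τ)‖ₑ := by
      rw [e1, intervalIntegral.intervalIntegral_eq_integral_uIoc]
      refine le_trans (le_of_eq ?_) (enorm_integral_le_lintegral_enorm _)
      rw [enorm_smul]
      split_ifs <;> simp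
    have hvol : volume (uIoc 0 (-d)) = ENNReal.ofReal |d| := by
      rw [uIoc, Real.volume_Ioc]
      congr 1
      rw [max_sub_min_eq_abs]
      simp
    have h2 := win_holder (r := 2) (by norm_num) (μ := volume.restrict (uIoc 0 (-d)))
      (φ := fun τ => ‖p' (v + τ)‖ₑ) (hm.comp (by fun_prop)) (o := ENNReal.ofReal |d|) (by
        rw [← hvol, ← Measure.restrict_apply_univ (uIoc 0 (-d))]
        exact measure_mono (subset_univ _))
    simp only [ENNReal.rpow_two] at h2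
    rw [show (2 : ℝ) - 1 = 1 by norm_num, ENNReal.rpow_one] at h2
    exact (pow_le_pow_left' e2 2).trans h2
  calc ∫⁻ v, ‖p (v - d) - p v‖ₑ ^ 2
      ≤ ∫⁻ v, ENNReal.ofReal |d| * ∫⁻ τ in uIoc 0 (-d), ‖p' (v + τ)‖ₑ ^ 2 := lintegral_mono h1
    _ = ENNReal.ofReal |d| * ∫⁻ v, ∫⁻ τ in uIoc 0 (-d), ‖p' (v + τ)‖ₑ ^ 2 := by
        rw [lintegral_const_mul' _ _ ENNReal.ofReal_ne_top]
    _ = ENNReal.ofReal |d| * ∫⁻ τ in uIoc 0 (-d), ∫⁻ v, ‖p' (v + τ)‖ₑ ^ 2 := by
        rw [lintegral_lintegral_swap]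
        have : Measurable fun q : ℝ × ℝ => ‖p' (q.1 + q.2)‖ₑ ^ 2 :=
          (hm.comp (by fun_prop : Measurable fun q : ℝ × ℝ => q.1 + q.2)).pow_const 2
        exact this.aemeasurable
    _ = ENNReal.ofReal |d| * (volume (uIoc 0 (-d)) * ∫⁻ v, ‖p' v‖ₑ ^ 2) := by
        congr 1
        have h3 : ∀ τ : ℝ, ∫⁻ v, ‖p' (v + τ)‖ₑ ^ 2 = ∫⁻ v, ‖p' v‖ₑ ^ 2 := fun τ =>
          lintegral_add_right_eq_self (μ := volume) (fun v => ‖p' v‖ₑ ^ 2) τ
        simp only [h3, lintegral_const, Measure.restrict_apply_univ]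
        rw [mul_comm]
    _ = ENNReal.ofReal (d ^ 2) * ∫⁻ v, ‖p' v‖ₑ ^ 2 := by
        have hvol : volume (uIoc 0 (-d)) = ENNReal.ofReal |d| := by
          rw [uIoc, Real.volume_Ioc]
          congr 1
          rw [max_sub_min_eq_abs]
          simp
        rw [hvol, ← mul_assoc, ← ENNReal.ofReal_mul (abs_nonneg _), ← sq, sq_abs]

/-- the derivative of a window is bounded and supported in `|v| ≤ 2` -/
theorem win_deriv_le {ρ : ℝ → ℝ} {L : ℝ} (hρ : Win ρ L) (v : ℝ) : |deriv ρ v| ≤ L := by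
  have h := norm_deriv_le_of_lip' (f := ρ) (x₀ := v) (C := L) hρ.L0
    (Filter.Eventually.of_forall fun w => by
      rw [Real.norm_eq_abs, Real.norm_eq_abs]; exact hρ.lip w v)
  rwa [Real.norm_eq_abs] at h

theorem win_deriv_zero {ρ : ℝ → ℝ} {L : ℝ} (hρ : Win ρ L) {v : ℝ} (hv : 2 < |v|) :
    deriv ρ v = 0 := by
  have h : ρ =ᶠ[nhds v] fun _ => 0 := by
    have ho : IsOpen {t : ℝ | 2 < |t|} := isOpen_lt continuous_const continuous_abs
    filter_upwards [ho.mem_nhds hv] with x hx using hρ.supp x (le_of_lt hx)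
  rw [h.deriv_eq, deriv_const]

theorem win_hasDeriv {ρ : ℝ → ℝ} {L : ℝ} (hρ : Win ρ L) (h v : ℝ) :
    HasDerivAt (fun v => ρ (v / h)) (deriv ρ (v / h) / h) v := by
  have h1 : HasDerivAt ρ (deriv ρ (v / h)) (v / h) :=
    ((hρ.smooth.differentiable (by norm_num)) _).hasDerivAt
  have h2 : HasDerivAt (fun v : ℝ => v / h) (1 / h) v := by
    simpa using (hasDerivAt_id v).div_const h
  have h3 := h1.comp v h2
  refine h3.congr_deriv ?_
  ring

theorem win_deriv_cont {ρ : ℝ → ℝ} {L : ℝ} (hρ : Win ρ L) : Continuous (deriv ρ) :=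
  hρ.smooth.continuous_deriv (by norm_num)

/-- derivative of a profile -/
theorem prof_hasDeriv {ρ : ℝ → ℝ} {L : ℝ} (hρ : Win ρ L) (h : ℝ) {M : ℕ} (κ : Ker M)
    {u : ℝ × ℝ → ℝ} (hu : Field u) {g : ℝ × ℝ → ℝ} (hg : Nice g) {E : ℕ → Set (ℝ × ℝ)}
    (hE : ∀ j, MeasurableSet (E j)) (n : ℕ) (z : ℝ × ℝ) (v : ℝ) :
    HasDerivAt (prof ρ h (κ.FS u g E n) z)
      (deriv ρ (v / h) / h * κ.FS u g E n (z.1, z.2 + v) -
        ρ (v / h) * (up κ).FS u g E n (z.1, z.2 + v)) v := by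
  have h1 := win_hasDeriv hρ h v
  have h2 : HasDerivAt (fun v : ℝ => z.2 + v) 1 v := by
    simpa using (hasDerivAt_id v).const_add z.2
  have h3 := (hasDerivAt_FS κ hu hg hE n z.1 (z.2 + v)).comp v h2
  have h4 := h1.mul h3
  refine h4.congr_deriv ?_
  simp only [Function.comp]
  ring

end Vale.Agent.P112.T580
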