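import Vale.Agent.P112.T580.Ana3

/-!
# P112 [ANA-CORE], part 4: the theorem
-/

open MeasureTheory Set
open scoped ENNReal Real

noncomputable section

namespace Vale.Agent.P112.T580.Ana

open Vale.Agent.P112.H371 (Gb Wa Gb_meas Wa_meas lint_Wa_all Wa_eq)
open Vale.Agent.P112.H646 (Sys Arc)
open Vale.Agent.P112.H646.Gain (Out Osc big)
open Vale.Agent.P112.H8 (Bxs)
open Lev

theorem meas_Wa_f {ι κ : Type} [Fintype ι] [Fintype κ] {X : Bxs ι κ} {H : ℝ}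
    {g : ι → ℝ × ℝ → ℂ} (hg : ∀ i, Measurable (g i)) {f : ℝ × ℝ → ℂ} (hf : Measurable f) :
    Measurable fun z => Wa H (fun w => ‖f w‖ₑ * ‖Gz X g z w‖ₑ) z := by
  have h1 : (fun z => Wa H (fun w => ‖f w‖ₑ * ‖Gz X g z w‖ₑ) z) = fun z =>
      ENNReal.ofReal (1 / H) * ∫⁻ v in Ioc 0 H, ‖f (z.1, z.2 + v)‖ₑ *
        ‖∑ i, (Ri X i).indicator (fun _ => g i (X.tilt i (z.1, z.2 + v))) z‖ₑ := by
    funext z
    rw [Wa_eq]
    congr 1
    refine lintegral_congr fun v => ?_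
    congr 2
    classical
    rw [Gz, act, Finset.sum_filter]
    refine Finset.sum_congr rfl fun i _ => ?_
    by_cases h : z ∈ Ri X i
    · rw [if_pos h, indicator_of_mem h]
    · rw [if_neg h, indicator_of_notMem h]
  rw [h1]
  refine Measurable.const_mul ?_ _
  refine Measurable.lintegral_prod_right' (f := fun (p : (ℝ × ℝ) × ℝ) =>
    ‖f (p.1.1, p.1.2 + p.2)‖ₑ *
      ‖∑ i, (Ri X i).indicator (fun _ => g i (X.tilt i (p.1.1, p.1.2 + p.2))) p.1‖ₑ) ?_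
  have hp : Measurable fun p : (ℝ × ℝ) × ℝ => (p.1.1, p.1.2 + p.2) := by fun_prop
  refine (hf.comp hp).enorm.mul (Finset.measurable_sum _ fun i _ => ?_).enorm
  have h2 : (fun p : (ℝ × ℝ) × ℝ =>
      (Ri X i).indicator (fun _ => g i (X.tilt i (p.1.1, p.1.2 + p.2))) p.1) =
      (Prod.fst ⁻¹' Ri X i).indicator fun p => g i (X.tilt i (p.1.1, p.1.2 + p.2)) := by
    funext p
    by_cases h : p.1 ∈ Ri X i
    · rw [indicator_of_mem h, indicator_of_mem (show p ∈ Prod.fst ⁻¹' Ri X i from h)]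
    · rw [indicator_of_notMem h, indicator_of_notMem (show p ∉ Prod.fst ⁻¹' Ri X i from h)]
  rw [h2]
  exact ((hg i).comp ((tilt_meas X i).comp hp)).indicator (measurable_fst (Ri_meas X i))

/-- the exceptional windows -/
def EE (K M0 : ℕ) (R y θ D : ℝ) : ℝ :=
  64 * R * ((M0 * y) ^ (3 / 4 : ℝ) + (2 * R / K) ^ (3 / 4 : ℝ) +
    ((8 * θ) ^ (1 / 2 : ℝ) * (2 * R)) ^ (3 / 4 : ℝ) + (2 * R * D ^ (1 / 2 : ℝ)) ^ (3 / 4 : ℝ))

/-- **[ANA-CORE]**: the analytic side, without numbers. -/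
theorem ana_core : ∃ c0 : ℝ, 0 < c0 ∧ ∀ (ι : Type) [Fintype ι] (s : ι → ℝ)
    (G : ι → ℝ × ℝ → ℂ) (V R H0 θ Qs e H1 : ℝ) (m N0 : ℕ) (K : Fin N0 → Type)
    [∀ a, Fintype (K a)] (X : ∀ a, Bxs ι (K a)),
    Out s G (ENNReal.ofReal V) R H0 θ Qs e H1 m N0 K X →
    ∀ (Kn M0 : ℕ) (β p A A2 Q δ k0 y : ℝ) (f : ℝ × ℝ → ℂ),
    0 < V → 1 ≤ R → 0 < H0 → 0 < θ → θ ≤ 1 → 0 ≤ e → 0 < k0 →
    1 - c0 / Real.log (m + 3) ≤ β → 1 / 2 ≤ β → β ≤ 1 → 1 < p → 1 ≤ 2 * p * (1 - β) →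
    1 ≤ m → 1 ≤ A2 → (4 * (m + 1) * A2) ^ (m + 3) ≤ A → 4 * (2 * A + 1) ^ (2 * m + 2) ≤ H1 →
    0 < Q → Q ≤ k0 * Qs → 0 ≤ δ → 2 * m * Kn * δ ≤ 1 / 2 →
    Real.sqrt A2 * ((A + 1) * (3 * A) ^ (m + 2)) ≤ δ * (k0 * (θ * H0)) →
    Real.sqrt A2 * ((A + 1) * (3 * A) ^ (m + 2)) ≤ δ * Q →
    1 ≤ M0 → 1 ≤ Kn → (Kn : ℝ) * (m * (14 * (Kn : ℝ) ^ 3 / Real.sqrt A2)) ≤ 1 →
    Measurable f → (∀ z, ‖f z‖ ≤ 1) → 0 ≤ y → volume {z | f z ≠ 0} = ENNReal.ofReal (y * V) →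
    ‖∫ z : ℝ × ℝ, f z * ∑ i, G i (z.1, z.2 - s i * z.1)‖ ≤
      N0 * ((y * TT Kn M0 R H0 θ e k0 p β) ^ (1 / 2 : ℝ) +
        EE Kn M0 R y (2 * m * Kn * δ) ((2 : ℝ) ^ (-((m : ℝ) / R)))) * V := by
  obtain ⟨c0, hc0, hlevel⟩ := level
  refine ⟨c0, hc0, ?_⟩
  intro ι _ s G V R H0 θ Qs e H1 m N0 K _ X o Kn M0 β p A A2 Q δ k0 y f hV hR hH hθ hθ1 he hk0
    hβ0 hβ1 hβ2 hp hpβ hm hA2 hA hH1 hQ hQs hδ hmK hb hbQ hM0 hKn herr hf hf1 hy hv
  classical
  have hR0 : 0 < R := by linarith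
  obtain ⟨Bd, hBd⟩ := o.bG
  obtain ⟨gs, hgs, hosc, hgsV⟩ := o.osc
  obtain ⟨g1, hg1, ⟨B1, hB1⟩, hd, hg1V⟩ := o.prim
  have hVe : ENNReal.ofReal V ≠ ⊤ := ENNReal.ofReal_ne_top
  set θs : ℝ := 2 * m * Kn * δ with hθs
  have hθs0 : 0 ≤ θs := by positivity
  set Dd : ℝ := (2 : ℝ) ^ (-((m : ℝ) / R)) with hDd
  have hDd0 : 0 ≤ Dd := by positivity
  have hTT : 0 ≤ TT Kn M0 R H0 θ e k0 p β := TT_nonneg hR0.le hH hθ.le he hk0.le (by linarith)
  have hEE : 0 ≤ EE Kn M0 R y θs Dd := by unfold EE; positivity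
  -- one level
  have key : ∀ a : Fin N0, ∫⁻ z, Wa H0 (fun w => ‖f w‖ₑ * ‖Gz (X a) G z w‖ₑ) z ≤
      ENNReal.ofReal (((y * TT Kn M0 R H0 θ e k0 p β) ^ (1 / 2 : ℝ) +
        EE Kn M0 R y θs Dd) * V) := by
    intro a
    obtain ⟨D, hDm, hDv, hDarc⟩ := o.arc a
    set aa : ℝ := 2 * (1 / 2) ^ (a : ℕ) with haa
    have haa0 : 0 ≤ aa := by positivity
    have haa2 : ENNReal.ofReal aa = ENNReal.ofReal 2 * ENNReal.ofReal ((1 / 2) ^ (a : ℕ)) := by
      rw [haa, ENNReal.ofReal_mul (by norm_num)]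
    have hocc : ∀ i, ∀ w ∈ (X a).reg i,
        volume {t | t ∈ Ioc w.2 (w.2 + H0) ∧ G i (w.1, t) ≠ 0} ≤ ENNReal.ofReal (aa * H0) := by
      rintro i w ⟨k, rfl, hk⟩
      have := o.occ a k w hk
      rwa [show 2 * H0 * (1 / 2) ^ (a : ℕ) = aa * H0 by rw [haa]; ring] at this
    have hn2 : ENNReal.ofReal aa * ∫⁻ z, ((act (X a) z).card : ℝ≥0∞) ^ 2 ≤
        ENNReal.ofReal (2 * R * V) := by
      have h := o.sq a
      calc ENNReal.ofReal aa * ∫⁻ z, ((act (X a) z).card : ℝ≥0∞) ^ 2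
          = ENNReal.ofReal 2 * (ENNReal.ofReal ((1 / 2) ^ (a : ℕ)) *
            ∫⁻ z, ((act (X a) z).card : ℝ≥0∞) ^ 2) := by rw [haa2, mul_assoc]
        _ ≤ ENNReal.ofReal 2 * (ENNReal.ofReal R * ENNReal.ofReal V) := mul_le_mul' le_rfl h
        _ = _ := by
            rw [← ENNReal.ofReal_mul hR0.le, ← ENNReal.ofReal_mul (by norm_num)]
            congr 1
            ring
    have hvD : ENNReal.ofReal aa * volume D ≤ ENNReal.ofReal (2 * R * Dd * V) := by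
      calc ENNReal.ofReal aa * volume D
          = ENNReal.ofReal 2 * (ENNReal.ofReal ((1 / 2) ^ (a : ℕ)) * volume D) := by
            rw [haa2, mul_assoc]
        _ ≤ ENNReal.ofReal 2 * (ENNReal.ofReal (R * Dd) * ENNReal.ofReal V) :=
            mul_le_mul' le_rfl hDv
        _ = _ := by
            rw [← ENNReal.ofReal_mul (by positivity), ← ENNReal.ofReal_mul (by norm_num)]
            congr 1
            ring
    have hS4 : ∑ i, ∫⁻ w, ‖G i w‖ₑ ^ 4 ≤ ENNReal.ofReal ((64 * R) ^ 4 * V) := by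
      have h := o.lq 4 (by norm_num)
      have e1 : ∀ i, ∫⁻ w, ‖G i w‖ₑ ^ (4 : ℝ) = ∫⁻ w, ‖G i w‖ₑ ^ 4 := fun i =>
        lintegral_congr fun w => by exact_mod_cast ENNReal.rpow_natCast _ 4
      simp_rw [e1] at h
      refine h.trans (le_of_eq ?_)
      rw [← ENNReal.ofReal_mul (by positivity)]
      congr 2
      rw [show R * (4 : ℝ) ^ 3 = 64 * R by ring]
      exact_mod_cast Real.rpow_natCast (64 * R) 4
    have hS2 : ∑ i, ∫⁻ w, ‖G i w‖ₑ ^ 2 ≤ ENNReal.ofReal ((8 * R) ^ 2 * V) := by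
      have h := o.lq 2 le_rfl
      have e1 : ∀ i, ∫⁻ w, ‖G i w‖ₑ ^ (2 : ℝ) = ∫⁻ w, ‖G i w‖ₑ ^ 2 := fun i =>
        lintegral_congr fun w => by exact_mod_cast ENNReal.rpow_natCast _ 2
      simp_rw [e1] at h
      refine h.trans (le_of_eq ?_)
      rw [← ENNReal.ofReal_mul (by positivity)]
      congr 2
      rw [show R * (2 : ℝ) ^ 3 = 8 * R by ring]
      exact_mod_cast Real.rpow_natCast (8 * R) 2
    have hS2p := o.lq (2 * p) (by linarith)
    -- the good windows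
    have hgood : ∫⁻ z in Good (X a) M0 Kn θs D, Wa H0 (fun w => ‖Gz (X a) G z w‖ₑ ^ 2) z ≤
        ENNReal.ofReal (TT Kn M0 R H0 θ e k0 p β * V) := by
      have hL := hlevel ι (K a) (X a) m Kn M0 β p A A2 H1 Q δ θ H0 k0 (max Bd B1) aa G g1 gs
        (Good (X a) M0 Kn θs D) hβ0 hβ1 hβ2 hp hpβ hm hA2 hA hH1 (o.disj a) ?_ hQ hδ hmK ?_ hbQ
        hH hk0 (fun k => (o.height a k).le) hθ1 haa0 o.mG hg1 hgs
        (fun i z => (hBd i z).trans (le_max_left _ _)) (fun i z => (hB1 i z).trans (le_max_right _ _))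
        hd ?_ hocc (good_meas _ _ _ _ hDm) ?_ hM0
      · refine hL.trans ?_
        have e1 : ∑ i, (ENNReal.ofReal (8 * θ) * (∫⁻ w, ‖G i w‖ₑ ^ 2) + 2 * ∫⁻ w, gs i w ^ 2) =
            ENNReal.ofReal (8 * θ) * (∑ i, ∫⁻ w, ‖G i w‖ₑ ^ 2) + 2 * ∑ i, ∫⁻ w, gs i w ^ 2 := by
          rw [Finset.sum_add_distrib, Finset.mul_sum, Finset.mul_sum]
        rw [e1]
        refine level_num hV hR hH hθ.le he hk0 hp hM0 (by linarith) hg1V hS2 hgsV hS2p ?_
        refine le_trans (mul_le_mul' le_rfl (setLIntegral_le_lintegral _ _)) hn2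
      · intro b b' hne hmeet
        have hs := o.s_eq a
        have h1 := o.sep a b b' hne (by
          obtain ⟨z, h1, h2⟩ := hmeet
          refine ⟨z, ?_, ?_⟩
          · obtain ⟨c1, c2, c3, c4⟩ := h1
            exact ⟨by linarith, by linarith, by linarith, by linarith⟩
          · obtain ⟨c1, c2, c3, c4⟩ := h2
            exact ⟨by linarith, by linarith, by linarith, by linarith⟩)
        rw [hs]
        calc Q ≤ k0 * Qs := hQs
          _ ≤ k0 * (|s ((X a).tb b) - s ((X a).tb b')| * min ((X a).lam b) ((X a).lam b')) := by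
              gcongr
          _ = _ := by ring
      · intro b
        rw [o.height a b]
        exact hb
      · intro k x hx x' hx' t ht
        refine hosc a k x hx x' hx' t ⟨ht.1, ?_⟩
        have h2 := ht.2
        rw [o.height a k] at h2
        linarith
      · rintro z ⟨⟨⟨c1, c2⟩, c3⟩, c4⟩
        refine ⟨by exact_mod_cast c2, by exact_mod_cast c1, ?_, ?_⟩
        · have := hDarc z c4
          rw [o.s_eq a]
          exact this
        · by_contra hc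
          exact c3 hc
    have hsplit := level_split (M0 := M0) (K := Kn) (θ := θs) (D := D) (o.disj a) hH o.mG hBd hf hf1 haa0 hocc hKn hθs0
      hmK hDm
    refine hsplit.trans ?_
    have hexc := exc_num (K := Kn) (M0 := M0) (θ := θs) (D := Dd) hV hR hy hθs0 hDd0 hKn hv hS4
      hn2 hvD
    have hmain : volume {z | f z ≠ 0} ^ (1 / 2 : ℝ) *
        (∫⁻ z in Good (X a) M0 Kn θs D, Wa H0 (fun w => ‖Gz (X a) G z w‖ₑ ^ 2) z) ^ (1 / 2 : ℝ) ≤
        ENNReal.ofReal ((y * TT Kn M0 R H0 θ e k0 p β) ^ (1 / 2 : ℝ) * V) := by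
      rw [hv]
      calc ENNReal.ofReal (y * V) ^ (1 / 2 : ℝ) *
          (∫⁻ z in Good (X a) M0 Kn θs D, Wa H0 (fun w => ‖Gz (X a) G z w‖ₑ ^ 2) z) ^ (1 / 2 : ℝ)
          ≤ ENNReal.ofReal (y * V) ^ (1 / 2 : ℝ) *
            ENNReal.ofReal (TT Kn M0 R H0 θ e k0 p β * V) ^ (1 / 2 : ℝ) := by gcongr
        _ = _ := by
            rw [rp (by positivity) (by norm_num), rp (by positivity) (by norm_num),
              ← ENNReal.ofReal_mul (by positivity), ← Real.mul_rpow (by positivity)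
                (by positivity)]
            congr 1
            rw [show y * V * (TT Kn M0 R H0 θ e k0 p β * V) =
              (y * TT Kn M0 R H0 θ e k0 p β) * V ^ 2 by ring,
              Real.mul_rpow (by positivity) (by positivity)]
            congr 1
            rw [← Real.sqrt_eq_rpow, Real.sqrt_sq hV.le]
    refine (add_le_add hmain hexc).trans (le_of_eq ?_)
    rw [← ENNReal.ofReal_add (by positivity) (by positivity), ← add_mul]
    rfl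
  have htot := int_le_levels (fun a => o.s_eq a) o.mG hH o.lev o.out hf
    (fun a => meas_Wa_f (X := X a) (H := H0) o.mG hf)
  have hsum : ‖∫ z : ℝ × ℝ, f z * ∑ i, G i (z.1, z.2 - s i * z.1)‖ₑ ≤
      ENNReal.ofReal (N0 * ((y * TT Kn M0 R H0 θ e k0 p β) ^ (1 / 2 : ℝ) +
        EE Kn M0 R y θs Dd) * V) := by
    refine htot.trans ((Finset.sum_le_sum fun a _ => key a).trans (le_of_eq ?_))
    rw [Finset.sum_const, Finset.card_univ, Fintype.card_fin, nsmul_eq_mul,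
      ← ENNReal.ofReal_natCast, ← ENNReal.ofReal_mul (by positivity)]
    congr 1
    ring
  rw [← ofReal_norm, ENNReal.ofReal_le_ofReal_iff (by positivity)] at hsum
  exact hsum

end Vale.Agent.P112.T580.Ana
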