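import Vale.Agent.P112.T580.Lev4
import Vale.Agent.P112.H586.Exc
import Vale.Agent.P112.H646.GainDefs

/-!
# P112 [ANA-CORE], part 1: windows, levels, the unsafe set
-/

open MeasureTheory Set
open scoped ENNReal Real

noncomputable section

namespace Vale.Agent.P112.T580.Ana

open Vale.Agent.P112.H371 (Gb Wa Gb_meas Wa_meas lint_Wa_all Wa_eq)
open Vale.Agent.P112.H646 (Sys Arc)
open Vale.Agent.P112.H8 (Bxs)
open Lev

/-! ### windows -/

/-- the integral, by absolute values in the windows -/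
theorem int_le_win {H : ℝ} (hH : 0 < H) {f F : ℝ × ℝ → ℂ} (hf : Measurable f) (hF : Measurable F) :
    ‖∫ z, f z * F z‖ₑ ≤ ∫⁻ z, Wa H (fun w => ‖f w‖ₑ * ‖F w‖ₑ) z := by
  have h := lint_Wa_all (f := fun w => ‖f w‖ₑ * ‖F w‖ₑ) hH (hf.enorm.mul hF.enorm)
  rw [h]
  refine (enorm_integral_le_lintegral_enorm _).trans (le_of_eq ?_)
  refine lintegral_congr fun z => ?_
  rw [enorm_mul]

theorem Wa_CS {H : ℝ} {A B : ℝ × ℝ → ℝ≥0∞} (hA : Measurable A) (hB : Measurable B) (z : ℝ × ℝ) :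
    Wa H (fun w => A w * B w) z ≤
      Wa H (fun w => A w ^ 2) z ^ (1 / 2 : ℝ) * Wa H (fun w => B w ^ 2) z ^ (1 / 2 : ℝ) := by
  unfold Wa
  have h := ENNReal.lintegral_mul_le_Lp_mul_Lq (volume.restrict (Ioc z.2 (z.2 + H)))
    Real.HolderConjugate.two_two (f := fun t => A (z.1, t)) (g := fun t => B (z.1, t))
    (by fun_prop) (by fun_prop)
  simp only [Pi.mul_apply, ENNReal.rpow_two] at h
  refine (mul_le_mul_right h _).trans (le_of_eq ?_)
  rw [ENNReal.mul_rpow_of_nonneg _ _ (by norm_num), ENNReal.mul_rpow_of_nonneg _ _ (by norm_num)]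
  rw [mul_mul_mul_comm, ← ENNReal.rpow_add_of_nonneg _ _ (by norm_num) (by norm_num)]
  norm_num

variable {ι κ : Type} [Fintype ι] [Fintype κ]

theorem meas_Gb_Gz {X : Bxs ι κ} {H : ℝ} (hH : 0 < H) {g : ι → ℝ × ℝ → ℂ}
    (hg : ∀ i, Measurable (g i)) {C : ℝ} (hC : ∀ i z, ‖g i z‖ ≤ C) (b : ℤ) :
    Measurable fun z => Gb H b (Gz X g z) z := by
  have : (fun z => Gb H b (Gz X g z) z) = fun z => ∑ i, (Ri X i).indicator (fun z =>
      Complex.exp (-(Complex.I * (H371.eb H b * (X.s i * z.1) : ℝ))) *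
        Gb H b (g i) (X.tilt i z)) z := by
    funext z
    rw [Gb_Gz X hH hg hC]
    classical
    rw [act, Finset.sum_filter]
    refine Finset.sum_congr rfl fun i _ => ?_
    by_cases h : z ∈ Ri X i
    · rw [if_pos h, indicator_of_mem h]
    · rw [if_neg h, indicator_of_notMem h]
  rw [this]
  refine Finset.measurable_sum _ fun i _ => Measurable.indicator ?_ (Ri_meas X i)
  refine Measurable.mul ?_ ((Gb_meas hH b (hg i)).comp (tilt_meas X i))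
  refine Complex.measurable_exp.comp (Measurable.neg (measurable_const.mul ?_))
  refine Complex.measurable_ofReal.comp ?_
  exact measurable_const.mul (measurable_const.mul measurable_fst)

theorem meas_Wa_Gz {X : Bxs ι κ} {H : ℝ} (hH : 0 < H) {g : ι → ℝ × ℝ → ℂ}
    (hg : ∀ i, Measurable (g i)) {C : ℝ} (hC : ∀ i z, ‖g i z‖ ≤ C) :
    Measurable fun z => Wa H (fun w => ‖Gz X g z w‖ₑ ^ 2) z := by
  have : (fun z => Wa H (fun w => ‖Gz X g z w‖ₑ ^ 2) z) =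
      fun z => ∑' b : ℤ, ‖Gb H b (Gz X g z) z‖ₑ ^ 2 := by
    funext z
    exact (parseval hH hg hC z).symm
  rw [this]
  exact Measurable.tsum fun b => (meas_Gb_Gz hH hg hC b).enorm.pow_const 2

/-- **the good part**, by Cauchy–Schwarz -/
theorem good_CS {X : Bxs ι κ} {H : ℝ} (hH : 0 < H) {g : ι → ℝ × ℝ → ℂ}
    (hg : ∀ i, Measurable (g i)) {C : ℝ} (hC : ∀ i z, ‖g i z‖ ≤ C) {f : ℝ × ℝ → ℂ}
    (hf : Measurable f) (hf1 : ∀ z, ‖f z‖ ≤ 1) (F : Set (ℝ × ℝ)) :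
    ∫⁻ z in F, Wa H (fun w => ‖f w‖ₑ * ‖Gz X g z w‖ₑ) z ≤
      volume {z | f z ≠ 0} ^ (1 / 2 : ℝ) *
        (∫⁻ z in F, Wa H (fun w => ‖Gz X g z w‖ₑ ^ 2) z) ^ (1 / 2 : ℝ) := by
  have ms : MeasurableSet {w | f w ≠ 0} := (hf (measurableSet_singleton 0)).compl
  have hm2 : Measurable fun w => ‖f w‖ₑ ^ 2 := hf.enorm.pow_const 2
  have h1 : ∀ z, Wa H (fun w => ‖f w‖ₑ * ‖Gz X g z w‖ₑ) z ≤
      Wa H (fun w => ‖f w‖ₑ ^ 2) z ^ (1 / 2 : ℝ) *
        Wa H (fun w => ‖Gz X g z w‖ₑ ^ 2) z ^ (1 / 2 : ℝ) := fun z =>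
    Wa_CS hf.enorm (Gz_meas2 hg z).enorm z
  calc ∫⁻ z in F, Wa H (fun w => ‖f w‖ₑ * ‖Gz X g z w‖ₑ) z
      ≤ ∫⁻ z in F, Wa H (fun w => ‖f w‖ₑ ^ 2) z ^ (1 / 2 : ℝ) *
        Wa H (fun w => ‖Gz X g z w‖ₑ ^ 2) z ^ (1 / 2 : ℝ) := lintegral_mono fun z => h1 z
    _ ≤ (∫⁻ z in F, Wa H (fun w => ‖f w‖ₑ ^ 2) z) ^ (1 / 2 : ℝ) *
        (∫⁻ z in F, Wa H (fun w => ‖Gz X g z w‖ₑ ^ 2) z) ^ (1 / 2 : ℝ) :=
        H22.Use.lint_CS _ (Wa_meas hm2).aemeasurable (meas_Wa_Gz hH hg hC).aemeasurable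
    _ ≤ _ := by
        gcongr ?_ ^ (1 / 2 : ℝ) * _
        refine (setLIntegral_le_lintegral _ _).trans ?_
        rw [lint_Wa_all hH hm2, ← lintegral_indicator_one ms]
        refine lintegral_mono fun w => ?_
        by_cases hw : f w = 0
        · simp [hw]
        · rw [indicator_of_mem (show w ∈ {w | f w ≠ 0} from hw)]
          have : ‖f w‖ₑ ≤ 1 := by
            rw [← ofReal_norm]
            exact ENNReal.ofReal_le_one.2 (hf1 w)
          simpa using pow_le_one₀ (n := 2) (by simp) this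

/-! ### the unsafe set -/

/-- the boxes as a step system with the amplitudes `1` -/
def oneSys (X : Bxs ι κ) : Sys ι κ where
  s := X.s
  η := 1
  tb := X.tb
  x0 := X.x0
  lam := X.lam
  y0 := X.y0
  h := X.h
  val := fun _ => 1
  lam_pos := X.lam_pos
  h_pos := X.h_pos
  val_ne := fun _ => one_ne_zero
  η_ne := one_ne_zero

theorem one_bx (X : Bxs ι κ) (θ : ℝ) (k : κ) : (oneSys X).bx θ k = dil X θ k := rfl

omit [Fintype ι] [Fintype κ] in
theorem dil_zero (X : Bxs ι κ) (k : κ) (z : ℝ × ℝ) :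
    z ∈ dil X 0 k ↔ X.tilt (X.tb k) z ∈ X.box k := by
  simp only [dil, Bxs.tilt, Bxs.box, mem_prod, mem_Ico, mem_ofPred_eq, zero_mul, sub_zero, add_zero]
  tauto

theorem one_act (X : Bxs ι κ) (z : ℝ × ℝ) : (oneSys X).act z = act X z := by
  ext i
  rw [H371.mem_act, mem_act]
  constructor
  · rintro ⟨k, hk1, hk2⟩
    have hk1' : X.tb k = i := hk1
    rw [one_bx, dil_zero, hk1'] at hk2
    exact ⟨k, hk1', hk2⟩
  · rintro ⟨k, hk1, hk2⟩
    refine ⟨k, hk1, ?_⟩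
    rw [one_bx, dil_zero, hk1]
    exact hk2

theorem one_disj {X : Bxs ι κ} (hX : X.Disj) : (oneSys X).Disj := by
  intro k k' h hne
  rw [Set.disjoint_left]
  intro z hz hz'
  rw [one_bx, dil_zero] at hz hz'
  have h' : X.tb k = X.tb k' := h
  rw [← h'] at hz'
  exact Set.disjoint_left.mp (hX k k' h' hne) hz hz'

/-- the unsafe set -/
def Uns (X : Bxs ι κ) (θ : ℝ) : Set (ℝ × ℝ) := {z | ¬ SafeB X θ z}

theorem uns_eq (X : Bxs ι κ) (θ : ℝ) : Uns X θ = H371.NS (oneSys X) θ := by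
  ext z
  rw [H371.ns_eq]
  simp only [Uns, SafeB, mem_ofPred_eq, mem_iUnion, mem_sdiff, one_bx]
  push Not
  constructor
  · rintro ⟨b, h1, h2⟩
    exact ⟨b, h2, h1⟩
  · rintro ⟨b, h1, h2⟩
    exact ⟨b, h2, h1⟩

theorem uns_meas (X : Bxs ι κ) (θ : ℝ) : MeasurableSet (Uns X θ) := by
  rw [uns_eq]
  exact H371.ns_meas _ θ

theorem uns_vol {X : Bxs ι κ} (hX : X.Disj) {θ : ℝ} (h0 : 0 ≤ θ) (h1 : θ ≤ 1 / 2) :
    volume (Uns X θ) ≤ ENNReal.ofReal (8 * θ) * ∫⁻ z, ((act X z).card : ℝ≥0∞) ^ 2 := by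
  rw [uns_eq]
  refine (H371.ns_le _ h0 h1).trans ?_
  have h2 := H371.lint_act (oneSys X) (one_disj hX)
  rw [ENNReal.ofReal_mul (by positivity)]
  gcongr 1
  rw [ENNReal.ofReal_sum_of_nonneg fun b _ =>
    mul_nonneg ((oneSys X).lam_pos b).le ((oneSys X).h_pos b).le, ← h2]
  refine lintegral_mono fun z => ?_
  rw [one_act]
  have h3 : (act X z).card ≤ (act X z).card ^ 2 := Nat.le_self_pow (by norm_num) _
  calc ((act X z).card : ℝ≥0∞) ≤ (((act X z).card ^ 2 : ℕ) : ℝ≥0∞) := Nat.cast_le.2 h3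
    _ = _ := by rw [Nat.cast_pow]

/-! ### the levels -/

/-- the sum of all tubes = the sum over the levels, on the window above `z` -/
theorem sum_levels {s : ι → ℝ} {N0 : ℕ} {K : Fin N0 → Type} {X : ∀ a, Bxs ι (K a)}
    (hs : ∀ a, (X a).s = s) {G : ι → ℝ × ℝ → ℂ} {H : ℝ}
    (hlev : ∀ (i : ι) (w : ℝ × ℝ) (a a' : Fin N0), w ∈ (X a).reg i → w ∈ (X a').reg i → a = a')
    (hout : ∀ (i : ι) (w : ℝ × ℝ), (∀ a : Fin N0, w ∉ (X a).reg i) →
      ∀ t ∈ Ioc w.2 (w.2 + H), G i (w.1, t) = 0) (z : ℝ × ℝ) {t : ℝ}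
    (ht : t ∈ Ioc z.2 (z.2 + H)) :
    ∑ i, G i (z.1, t - s i * z.1) = ∑ a, Gz (X a) G z (z.1, t) := by
  classical
  have h1 : ∀ a, Gz (X a) G z (z.1, t) =
      ∑ i, if (z.1, z.2 - s i * z.1) ∈ (X a).reg i then G i (z.1, t - s i * z.1) else 0 := by
    intro a
    rw [Gz, act, Finset.sum_filter]
    refine Finset.sum_congr rfl fun i _ => ?_
    have e1 : (z ∈ Ri (X a) i) ↔ (z.1, z.2 - s i * z.1) ∈ (X a).reg i := by
      unfold Ri Bxs.tilt
      rw [hs a]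
      rfl
    have e2 : G i ((X a).tilt i (z.1, t)) = G i (z.1, t - s i * z.1) := by
      unfold Bxs.tilt
      rw [hs a]
    simp only [e1, e2]
  simp_rw [h1]
  rw [Finset.sum_comm]
  refine Finset.sum_congr rfl fun i _ => ?_
  by_cases h : ∃ a, (z.1, z.2 - s i * z.1) ∈ (X a).reg i
  · obtain ⟨a, ha⟩ := h
    rw [Finset.sum_eq_single a]
    · rw [if_pos ha]
    · intro a' _ hne
      rw [if_neg fun h' => hne (hlev i _ a' a h' ha)]
    · intro h'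
      exact absurd (Finset.mem_univ a) h'
  · push Not at h
    have h0 := hout i _ h (t - s i * z.1) (by
      constructor
      · simp only; linarith [ht.1]
      · simp only; linarith [ht.2])
    simp only at h0
    rw [h0, Finset.sum_eq_zero]
    intro a _
    simp

/-- **the integral by levels** -/
theorem int_le_levels {s : ι → ℝ} {N0 : ℕ} {K : Fin N0 → Type} [∀ a, Fintype (K a)]
    {X : ∀ a, Bxs ι (K a)}
    (hs : ∀ a, (X a).s = s) {G : ι → ℝ × ℝ → ℂ} (hG : ∀ i, Measurable (G i)) {H : ℝ} (hH : 0 < H)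
    (hlev : ∀ (i : ι) (w : ℝ × ℝ) (a a' : Fin N0), w ∈ (X a).reg i → w ∈ (X a').reg i → a = a')
    (hout : ∀ (i : ι) (w : ℝ × ℝ), (∀ a : Fin N0, w ∉ (X a).reg i) →
      ∀ t ∈ Ioc w.2 (w.2 + H), G i (w.1, t) = 0) {f : ℝ × ℝ → ℂ} (hf : Measurable f)
    (hmeas : ∀ a, Measurable fun z => Wa H (fun w => ‖f w‖ₑ * ‖Gz (X a) G z w‖ₑ) z) :
    ‖∫ z : ℝ × ℝ, f z * ∑ i, G i (z.1, z.2 - s i * z.1)‖ₑ ≤
      ∑ a, ∫⁻ z, Wa H (fun w => ‖f w‖ₑ * ‖Gz (X a) G z w‖ₑ) z := by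
  have hF : Measurable fun z : ℝ × ℝ => ∑ i, G i (z.1, z.2 - s i * z.1) :=
    Finset.measurable_sum _ fun i _ => (hG i).comp (by fun_prop)
  refine (int_le_win hH hf hF).trans ?_
  rw [← lintegral_finsetSum _ fun a _ => hmeas a]
  refine lintegral_mono fun z => ?_
  have hm : ∀ a, Measurable fun t => ‖f (z.1, t)‖ₑ * ‖Gz (X a) G z (z.1, t)‖ₑ := fun a =>
    (hf.comp (measurable_const.prodMk measurable_id)).enorm.mul
      ((Gz_meas2 hG z).comp (measurable_const.prodMk measurable_id)).enorm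
  simp only [Wa]
  rw [← Finset.mul_sum, ← lintegral_finsetSum _ fun a _ => hm a]
  gcongr 1
  refine setLIntegral_mono' measurableSet_Ioc fun t ht => ?_
  rw [sum_levels hs hlev hout z ht, ← Finset.mul_sum]
  gcongr
  exact enorm_sum_le _ _

end Vale.Agent.P112.T580.Ana
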