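import Vale.Agent.P112.T580.FromOp

/-!
# P112, chapter (T), single tree: explicit constants

helper724's operator form with its explicit constant (same proof as `opN_of_maxH`), and the
`L^q` bound of the tree function with a constant `(C q)^(a q)`, uniformly in `q`.
-/

open MeasureTheory Set Filter
open scoped ENNReal NNReal

namespace Vale.Agent.P112.T580

open Vale.Agent.P112.T (Ker Nice Field Un)
open Vale.Agent.P112.TreeT2
open Vale.Agent.P112.HL (HK MK SK CM CM_ne_top)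
open Vale.Agent.P112.H158 (cv)

/-- the constant of the operator form -/
noncomputable def cT (p A C0 : ℝ) (C₁ : ℝ≥0∞) : ℝ≥0∞ :=
  2 * (ENNReal.ofReal ((C0 * (1 + 8 * C0) + 12 * (C0 * A) * C0) *
    (2 * (A + 3))) ^ p * (CM p * (2 ^ (p - 1) * (C₁ + CM p))))

/-- **T2, operator form**, explicit constant -/
theorem op_explicit {p : ℝ} (hp : 1 < p) {M : ℕ} {A C0 : ℝ} (hA : 1 ≤ A) {C₁ : ℝ≥0∞}
    (hmax : MaxH p C0 C₁) {N : ℝ} {κ : Ker M} (hκ : κ.Bd N C0) {τ : ℝ} {u : ℝ × ℝ → ℝ}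
    {n : ℕ} {E : ℕ → Set (ℝ × ℝ)} {s δ : ℝ} (hT : TreeN N A δ τ s u n E)
    {f : ℝ × ℝ → ℝ} (hf : Nice f) :
    ∫⁻ z in Un E n, ‖TU κ u E n f z‖ₑ ^ p ≤
      cT p A C0 C₁ * ENNReal.ofReal δ * ∫⁻ z, ‖f z‖ₑ ^ p := by
  have hp0 : 0 ≤ p := by linarith
  have hN : 1 ≤ N := hκ.one_le
  have hN0 : 0 < N := by linarith
  obtain ⟨Mf, hMf⟩ := hf.bdd
  obtain ⟨r, hr⟩ := hf.supp
  have hC0 : 0 ≤ C0 := (lk_K hκ).nonneg
  have hδ := hT.pos
  -- the sheared data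
  set E' : ℕ → Set (ℝ × ℝ) := fun j => shear s ⁻¹' (E j) with hE'
  set u' : ℝ × ℝ → ℝ := fun z => u (shear s z) - s with hu'
  set f' : ℝ × ℝ → ℝ := fun z => f (shear s z) with hf'
  have hUn : T.Un E' n = shear s ⁻¹' (T.Un E n) := rfl
  have hAN : 0 ≤ A / N := by positivity
  have hAN' : A / N ≤ A := div_le_self (by linarith) hN
  have hden : Den τ n E' u' (A / N) δ.toNNReal := by
    intro j₁ hj₁ z₁ hz₁ i hi
    have h1 := hT.dens j₁ hj₁ (shear s z₁) hz₁ i hi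
    rw [← (shear_mp s).measure_preimage_equiv] at h1
    have h2 : (δ.toNNReal : ℝ≥0∞) * ENNReal.ofReal (1 / 2 ^ i) = ENNReal.ofReal (δ / 2 ^ i) := by
      rw [← ENNReal.ofReal, ← ENNReal.ofReal_mul hδ.le]
      congr 1
      ring
    rw [h2]
    refine (measure_mono ?_).trans h1
    rintro z ⟨ha, hb, hc, hd⟩
    refine ⟨ha, hb, ?_, ?_⟩
    · simpa using hc
    · rw [mul_div_right_comm, mul_div_assoc]
      exact hd
  have hslope' : ∀ j < n, ∀ z ∈ E' j, |u' z| ≤ A / N * 2 ^ j := by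
    intro j hj z hz
    have := hT.slope j hj (shear s z) hz
    rwa [mul_div_right_comm] at this
  have hD : C0 * N * (A / N) ≤ C0 * A := le_of_eq (by field_simp)
  have hLK := lk_K hκ
  have h0 := op_zero (τ := τ) hp hmax hLK κ.oddK (lk_psi hκ) (psi_bd hκ) hAN hD
    (u := u') (n := n) (E := E') (fun j => (shear s).measurable (hT.meas j)) hslope'
    (fun z i j k h1 h2 h3 h4 h5 => hT.conv (shear s z) i j k h1 h2 h3 h4 h5) hden
    (f := f') (hf.meas.comp (shear s).measurable) (M := Mf) (r := r) (fun z => hMf _)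
    (fun z hz => hr _ (Or.inl hz))
  -- back to the original coordinates
  have h1 : ∫⁻ z in T.Un E n, ‖TU κ u E n f z‖ₑ ^ p =
      ∫⁻ z in T.Un E' n, ‖∑ j ∈ Finset.range n, (E' j).indicator
        (fun z => Tp κ.K κ.psi j (u' z) f' z) z‖ₑ ^ p := by
    rw [hUn, ← (shear_mp s).setLIntegral_comp_preimage_emb (shear s).measurableEmbedding]
    refine lintegral_congr fun z => ?_
    rw [TU]
    congr 2
    refine Finset.sum_congr rfl fun j _ => ?_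
    by_cases hz : shear s z ∈ E j
    · have hz' : z ∈ E' j := hz
      rw [indicator_of_mem hz, indicator_of_mem hz', T_shear]
    · have hz' : z ∉ E' j := hz
      rw [indicator_of_notMem hz, indicator_of_notMem hz']
  have h2 : ∫⁻ z, ‖f' z‖ₑ ^ p = ∫⁻ z, ‖f z‖ₑ ^ p :=
    (shear_mp s).lintegral_comp_emb (shear s).measurableEmbedding fun z => ‖f z‖ₑ ^ p
  rw [h1]
  refine h0.trans ?_
  rw [h2]
  refine mul_le_mul' ?_ le_rfl
  have h3 : ENNReal.ofReal ((C0 * (1 + 8 * C0) + 12 * (C0 * A) * C0) * (2 * (A / N + 3))) ≤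
      ENNReal.ofReal ((C0 * (1 + 8 * C0) + 12 * (C0 * A) * C0) * (2 * (A + 3))) := by
    apply ENNReal.ofReal_le_ofReal
    gcongr
  calc 2 * (δ.toNNReal : ℝ≥0∞) * (ENNReal.ofReal ((C0 * (1 + 8 * C0) + 12 * (C0 * A) * C0) *
        (2 * (A / N + 3))) ^ p * (CM p * (2 ^ (p - 1) * (C₁ + CM p))))
      ≤ 2 * (δ.toNNReal : ℝ≥0∞) * (ENNReal.ofReal ((C0 * (1 + 8 * C0) + 12 * (C0 * A) * C0) *
        (2 * (A + 3))) ^ p * (CM p * (2 ^ (p - 1) * (C₁ + CM p)))) := by gcongr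
    _ = cT p A C0 C₁ * ENNReal.ofReal δ := by
        have e : ENNReal.ofReal δ = (δ.toNNReal : ℝ≥0∞) := rfl
        rw [cT, e]; ring

/-- the tree function in `L^q`, explicit constant -/
theorem tq_explicit {p q : ℝ} (hpq : p.HolderConjugate q) {M : ℕ} {A C0 : ℝ} (hA : 1 ≤ A)
    {C₁ : ℝ≥0∞} (hmax : MaxH p C0 C₁) {N : ℝ} {κ : Ker M} (hκ : κ.Bd N C0) {τ : ℝ}
    {u : ℝ × ℝ → ℝ} (hu : Field u) {n : ℕ} {E : ℕ → Set (ℝ × ℝ)} {s δ : ℝ}
    (hT : TreeN N A δ τ s u n E) {g : ℝ × ℝ → ℝ} (hg : Nice g) :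
    ∫⁻ ζ, ‖κ.FS u g E n ζ‖ₑ ^ q ≤
      (cT p A C0 C₁ * ENNReal.ofReal δ) ^ (q - 1) * ∫⁻ z in Un E n, ‖g z‖ₑ ^ q :=
  dual_bound κ hu hT.meas n hpq (fun _ hf => op_explicit hpq.lt hA hmax hκ hT hf) hg

/-- bound of the constant near `p = 1` -/
theorem cT_le {p A C0 c : ℝ} {k : ℕ} (hA : 1 ≤ A) (hC0 : 0 ≤ C0) (hc : 0 ≤ c) (hk : 1 ≤ k)
    (hp : 1 < p) (hp2 : p ≤ 3 / 2) :
    cT p A C0 (ENNReal.ofReal (c / (p - 1) ^ k)) ≤
      ENNReal.ofReal (96 * (1 + (C0 * (1 + 8 * C0) + 12 * (C0 * A) * C0) * (2 * (A + 3))) ^ 2 *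
        (c + 24) / (p - 1) ^ (k + 1)) := by
  set B : ℝ := (C0 * (1 + 8 * C0) + 12 * (C0 * A) * C0) * (2 * (A + 3)) with hB
  have hB0 : 0 ≤ B := by positivity
  have hp1 : 0 < p - 1 := by linarith
  have e1 : ENNReal.ofReal B ^ p ≤ ENNReal.ofReal ((1 + B) ^ 2) := by
    rw [ENNReal.ofReal_rpow_of_nonneg hB0 (by linarith)]
    apply ENNReal.ofReal_le_ofReal
    calc B ^ p ≤ (1 + B) ^ p := Real.rpow_le_rpow hB0 (by linarith) (by linarith)
      _ ≤ (1 + B) ^ (2 : ℝ) := Real.rpow_le_rpow_of_exponent_le (by linarith) (by linarith)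
      _ = (1 + B) ^ 2 := Real.rpow_two _
  have h2p : (2 : ℝ) ^ (p - 1) ≤ 2 := by
    calc (2 : ℝ) ^ (p - 1) ≤ 2 ^ (1 : ℝ) :=
          Real.rpow_le_rpow_of_exponent_le (by norm_num) (by linarith)
      _ = 2 := Real.rpow_one 2
  have e2 : CM p ≤ ENNReal.ofReal (24 / (p - 1)) := by
    rw [CM]
    apply ENNReal.ofReal_le_ofReal
    apply div_le_div_of_nonneg_right _ hp1.le
    have : (0 : ℝ) < 2 ^ (p - 1) := by positivity
    nlinarith
  have e3 : (2 : ℝ≥0∞) ^ (p - 1) ≤ ENNReal.ofReal 2 := by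
    have h : (2 : ℝ≥0∞) = ENNReal.ofReal 2 := by norm_num
    nth_rewrite 1 [h]
    rw [ENNReal.ofReal_rpow_of_pos (by norm_num)]
    exact ENNReal.ofReal_le_ofReal h2p
  have e4 : ENNReal.ofReal (c / (p - 1) ^ k) + CM p ≤ ENNReal.ofReal ((c + 24) / (p - 1) ^ k) := by
    refine (add_le_add le_rfl e2).trans ?_
    rw [← ENNReal.ofReal_add (by positivity) (by positivity)]
    apply ENNReal.ofReal_le_ofReal
    rw [add_div]
    gcongr
    calc (p - 1) ^ k ≤ (p - 1) ^ 1 := pow_le_pow_of_le_one hp1.le (by linarith) hk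
      _ = p - 1 := pow_one _
  calc cT p A C0 (ENNReal.ofReal (c / (p - 1) ^ k))
      ≤ 2 * (ENNReal.ofReal ((1 + B) ^ 2) * (ENNReal.ofReal (24 / (p - 1)) *
        (ENNReal.ofReal 2 * ENNReal.ofReal ((c + 24) / (p - 1) ^ k)))) := by
        rw [cT]; gcongr
    _ = ENNReal.ofReal (96 * (1 + B) ^ 2 * (c + 24) / (p - 1) ^ (k + 1)) := by
        rw [show (2 : ℝ≥0∞) = ENNReal.ofReal 2 by norm_num, ← ENNReal.ofReal_mul (by norm_num),
          ← ENNReal.ofReal_mul (by positivity), ← ENNReal.ofReal_mul (by positivity),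
          ← ENNReal.ofReal_mul (by norm_num)]
        congr 1
        rw [pow_succ]
        field_simp
        ring

/-- the maximal theorem for `p → 1` with a polynomial constant -/
def MaxHU (L c : ℝ) (k : ℕ) : Prop :=
  ∀ p : ℝ, 1 < p → p ≤ 3 / 2 → MaxH p L (ENNReal.ofReal (c / (p - 1) ^ k))

/-- the tree function in `L^q` for all `q ≥ 3`, constant `(C q)^(k q)` -/
def TqUN (k M : ℕ) (A C0 : ℝ) : Prop := ∃ C : ℝ, 1 ≤ C ∧ ∀ q : ℝ, 3 ≤ q →
  ∀ (N : ℝ) (κ : Ker M), κ.Bd N C0 → ∀ (τ : ℝ) (u : ℝ × ℝ → ℝ), Field u →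
  ∀ (n : ℕ) (E : ℕ → Set (ℝ × ℝ)) (s δ : ℝ), TreeN N A δ τ s u n E →
  ∀ g : ℝ × ℝ → ℝ, Nice g →
    ∫⁻ ζ, ‖κ.FS u g E n ζ‖ₑ ^ q ≤
      ENNReal.ofReal ((C * q) ^ (k * q) * δ ^ (q - 1)) * ∫⁻ z in Un E n, ‖g z‖ₑ ^ q

theorem tqUN_of_maxHU {M k : ℕ} {A C0 c : ℝ} (hA : 1 ≤ A) (hC0 : 0 ≤ C0) (hc : 0 ≤ c)
    (hk : 1 ≤ k) (hmax : MaxHU C0 c k) : TqUN (k + 1) M A C0 := by
  set B : ℝ := (C0 * (1 + 8 * C0) + 12 * (C0 * A) * C0) * (2 * (A + 3)) with hB
  set c' : ℝ := 96 * (1 + B) ^ 2 * (c + 24) with hc'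
  have hB0 : 0 ≤ B := by positivity
  have hc'1 : 1 ≤ c' := by
    rw [hc']
    have h1 : 1 ≤ (1 + B) ^ 2 := one_le_pow₀ (by linarith)
    nlinarith
  refine ⟨c', hc'1, ?_⟩
  intro q hq N κ hκ τ u hu n E s δ hT g hg
  have hδ := hT.pos
  set p : ℝ := q / (q - 1) with hp
  have hq1 : 0 < q - 1 := by linarith
  have hpq : p.HolderConjugate q := by
    rw [Real.holderConjugate_iff]
    refine ⟨by rw [hp, lt_div_iff₀ hq1]; linarith, ?_⟩
    rw [hp]
    field_simp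
    ring
  have hp2 : p ≤ 3 / 2 := by
    rw [hp, div_le_iff₀ hq1]; linarith
  have hpm : p - 1 = 1 / (q - 1) := by
    rw [hp]; field_simp; ring
  refine (tq_explicit hpq hA (hmax p hpq.lt hp2) hκ hu hT hg).trans ?_
  gcongr
  have h1 := cT_le (k := k) hA hC0 hc hk hpq.lt hp2
  rw [← hB, ← hc', hpm] at h1
  have h2 : c' / (1 / (q - 1)) ^ (k + 1) = c' * (q - 1) ^ (k + 1) := by
    rw [one_div, inv_pow, div_inv_eq_mul]
  rw [h2] at h1
  have hb1 : 1 ≤ c' * q := by nlinarith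
  calc (cT p A C0 (ENNReal.ofReal (c / (p - 1) ^ k)) * ENNReal.ofReal δ) ^ (q - 1)
      ≤ (ENNReal.ofReal (c' * (q - 1) ^ (k + 1)) * ENNReal.ofReal δ) ^ (q - 1) := by
        rw [hpm]; gcongr
    _ = ENNReal.ofReal ((c' * (q - 1) ^ (k + 1)) ^ (q - 1) * δ ^ (q - 1)) := by
        rw [← ENNReal.ofReal_mul (by positivity),
          ENNReal.ofReal_rpow_of_nonneg (by positivity) hq1.le,
          Real.mul_rpow (by positivity) hδ.le]
    _ ≤ ENNReal.ofReal ((c' * q) ^ (((k + 1 : ℕ) : ℝ) * q) * δ ^ (q - 1)) := by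
        apply ENNReal.ofReal_le_ofReal
        gcongr
        have h3 : c' * (q - 1) ^ (k + 1) ≤ (c' * q) ^ (k + 1) := by
          rw [mul_pow]
          have h4 : c' ≤ c' ^ (k + 1) := le_self_pow₀ hc'1 (by omega)
          gcongr
          linarith
        calc (c' * (q - 1) ^ (k + 1)) ^ (q - 1) ≤ ((c' * q) ^ (k + 1)) ^ (q - 1) := by
              apply Real.rpow_le_rpow (by positivity) h3 hq1.le
          _ = (c' * q) ^ (((k + 1 : ℕ) : ℝ) * (q - 1)) := by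
              rw [← Real.rpow_natCast, ← Real.rpow_mul (by positivity)]
          _ ≤ (c' * q) ^ (((k + 1 : ℕ) : ℝ) * q) := by
              apply Real.rpow_le_rpow_of_exponent_le hb1
              gcongr
              linarith

end Vale.Agent.P112.T580
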