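import Vale.Agent.P112.T580.Amp4

/-!
# P112, interface (T) - (G): `L^r` bounds of the amplitude `BB` and of the leaves
-/

open MeasureTheory Set
open scoped ENNReal NNReal FourierTransform ContDiff

namespace Vale.Agent.P112.T580

open Vale.Agent.P112.T (Ker Nice Field Un)
open Vale.Agent.P112.H864 (prof Win)

/-- the integrand of `BB` -/
noncomputable def PH {M : ℕ} (κ1 : Ker M) (u : ℝ × ℝ → ℝ) (g : ℝ × ℝ → ℝ)
    (E : ℕ → Set (ℝ × ℝ)) (n : ℕ) (s : ℝ) (z : ℝ × ℝ) : ℝ≥0∞ :=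
  GR s (Un E n) g z ^ 2 + ‖κ1.FS u g E n z‖ₑ ^ 2 + ‖(up κ1).FS u g E n z‖ₑ ^ 2 +
    ‖(up (up κ1)).FS u g E n z‖ₑ ^ 2

theorem PH_meas {M : ℕ} (κ1 : Ker M) {u : ℝ × ℝ → ℝ} (hu : Field u) {g : ℝ × ℝ → ℝ}
    (hg : Nice g) {E : ℕ → Set (ℝ × ℝ)} (hE : ∀ j, MeasurableSet (E j)) (n : ℕ) (s : ℝ) :
    Measurable (PH κ1 u g E n s) := by
  have h0 := GR_meas s (Un_meas hE n) hg.meas
  have h1 := (κ1.FS_nice hu hg hE n).meas.enorm
  have h2 := ((up κ1).FS_nice hu hg hE n).meas.enorm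
  have h3 := ((up (up κ1)).FS_nice hu hg hE n).meas.enorm
  exact (((h0.pow_const 2).add (h1.pow_const 2)).add (h2.pow_const 2)).add (h3.pow_const 2)

theorem BB_eq {M : ℕ} (κ1 : Ker M) (h : ℝ) (u : ℝ × ℝ → ℝ) (g : ℝ × ℝ → ℝ)
    (E : ℕ → Set (ℝ × ℝ)) (n : ℕ) (s : ℝ) (z : ℝ × ℝ) :
    BB κ1 h u g E n s z = ∫⁻ w in Icc (-(3 * h)) (3 * h), PH κ1 u g E n s (z.1, z.2 + w) := rfl

theorem BB_meas {M : ℕ} (κ1 : Ker M) (h : ℝ) {u : ℝ × ℝ → ℝ} (hu : Field u) {g : ℝ × ℝ → ℝ}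
    (hg : Nice g) {E : ℕ → Set (ℝ × ℝ)} (hE : ∀ j, MeasurableSet (E j)) (n : ℕ) (s : ℝ) :
    Measurable (BB κ1 h u g E n s) := by
  have h1 : Measurable fun q : (ℝ × ℝ) × ℝ => PH κ1 u g E n s (q.1.1, q.1.2 + q.2) :=
    (PH_meas κ1 hu hg hE n s).comp (by fun_prop)
  exact h1.lintegral_prod_right'

theorem four_rpow {r : ℝ} (hr : 1 ≤ r) (a b c d : ℝ≥0∞) :
    (a + b + c + d) ^ r ≤ (4 : ℝ≥0∞) ^ (r - 1) * (a ^ r + b ^ r + c ^ r + d ^ r) := by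
  have h1 : ∀ x y : ℝ≥0∞, (x + y) ^ r ≤ 2 ^ (r - 1) * (x ^ r + y ^ r) := fun x y =>
    ENNReal.rpow_add_le_mul_rpow_add_rpow x y hr
  have h2 : (4 : ℝ≥0∞) ^ (r - 1) = 2 ^ (r - 1) * 2 ^ (r - 1) := by
    rw [← ENNReal.mul_rpow_of_nonneg _ _ (by linarith)]
    norm_num
  calc (a + b + c + d) ^ r = ((a + b) + (c + d)) ^ r := by rw [add_assoc]
    _ ≤ 2 ^ (r - 1) * ((a + b) ^ r + (c + d) ^ r) := h1 _ _
    _ ≤ 2 ^ (r - 1) * (2 ^ (r - 1) * (a ^ r + b ^ r) + 2 ^ (r - 1) * (c ^ r + d ^ r)) := by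
        gcongr
        · exact h1 _ _
        · exact h1 _ _
    _ = _ := by rw [h2]; ring

/-- `L^r` bound of the integrand -/
theorem PH_Lr {M : ℕ} (κ1 : Ker M) {u : ℝ × ℝ → ℝ} (hu : Field u) {g : ℝ × ℝ → ℝ}
    (hg : Nice g) {E : ℕ → Set (ℝ × ℝ)} (hE : ∀ j, MeasurableSet (E j)) (n : ℕ) (s : ℝ)
    {r : ℝ} (hr : 1 ≤ r) {D : ℝ≥0∞}
    (h0 : ∫⁻ ζ, ‖κ1.FS u g E n ζ‖ₑ ^ (2 * r) ≤ D)
    (h1 : ∫⁻ ζ, ‖(up κ1).FS u g E n ζ‖ₑ ^ (2 * r) ≤ D)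
    (h2 : ∫⁻ ζ, ‖(up (up κ1)).FS u g E n ζ‖ₑ ^ (2 * r) ≤ D) :
    ∫⁻ z, PH κ1 u g E n s z ^ r ≤ 4 ^ (r - 1) * (HL.CM (2 * r) * HL.CM (2 * r) *
      (∫⁻ z in Un E n, ‖g z‖ₑ ^ (2 * r)) + D + D + D) := by
  have hpow : ∀ x : ℝ≥0∞, (x ^ 2) ^ r = x ^ (2 * r) := fun x => by
    rw [← ENNReal.rpow_natCast, ← ENNReal.rpow_mul]; norm_num
  have m0 : Measurable fun z => GR s (Un E n) g z ^ (2 * r) :=
    (GR_meas s (Un_meas hE n) hg.meas).pow_const _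
  have m1 : Measurable fun z => ‖κ1.FS u g E n z‖ₑ ^ (2 * r) :=
    (κ1.FS_nice hu hg hE n).meas.enorm.pow_const _
  have m2 : Measurable fun z => ‖(up κ1).FS u g E n z‖ₑ ^ (2 * r) :=
    ((up κ1).FS_nice hu hg hE n).meas.enorm.pow_const _
  have m01 : Measurable fun z => GR s (Un E n) g z ^ (2 * r) + ‖κ1.FS u g E n z‖ₑ ^ (2 * r) :=
    m0.add m1
  have m012 : Measurable fun z => GR s (Un E n) g z ^ (2 * r) + ‖κ1.FS u g E n z‖ₑ ^ (2 * r) +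
      ‖(up κ1).FS u g E n z‖ₑ ^ (2 * r) := m01.add m2
  calc ∫⁻ z, PH κ1 u g E n s z ^ r
      ≤ ∫⁻ z, (4 : ℝ≥0∞) ^ (r - 1) * (GR s (Un E n) g z ^ (2 * r) +
        ‖κ1.FS u g E n z‖ₑ ^ (2 * r) + ‖(up κ1).FS u g E n z‖ₑ ^ (2 * r) +
        ‖(up (up κ1)).FS u g E n z‖ₑ ^ (2 * r)) := by
        refine lintegral_mono fun z => ?_
        have := four_rpow hr (GR s (Un E n) g z ^ 2) (‖κ1.FS u g E n z‖ₑ ^ 2)
          (‖(up κ1).FS u g E n z‖ₑ ^ 2) (‖(up (up κ1)).FS u g E n z‖ₑ ^ 2)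
        simp only [hpow] at this
        exact this
    _ = 4 ^ (r - 1) * ((∫⁻ z, GR s (Un E n) g z ^ (2 * r)) +
        (∫⁻ z, ‖κ1.FS u g E n z‖ₑ ^ (2 * r)) + (∫⁻ z, ‖(up κ1).FS u g E n z‖ₑ ^ (2 * r)) +
        (∫⁻ z, ‖(up (up κ1)).FS u g E n z‖ₑ ^ (2 * r))) := by
        rw [lintegral_const_mul' _ _ (ENNReal.rpow_ne_top_of_nonneg (by linarith) (by norm_num)),
          lintegral_add_left m012, lintegral_add_left m01, lintegral_add_left m0]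
    _ ≤ _ := by
        have hG := GR_Lp (p := 2 * r) (by linarith) s (Un_meas hE n) hg.meas
        gcongr

/-- constants -/
theorem CM_sq_le {r : ℝ} (hr : 2 ≤ r) :
    HL.CM (2 * r) * HL.CM (2 * r) ≤ ENNReal.ofReal (256 * 16 ^ r) := by
  have h1 : HL.CM (2 * r) ≤ ENNReal.ofReal (16 * 4 ^ r) := by
    unfold HL.CM
    apply ENNReal.ofReal_le_ofReal
    rw [div_le_iff₀ (by linarith)]
    have h2 : (2 : ℝ) ^ (2 * r - 1) = 4 ^ r / 2 := by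
      rw [Real.rpow_sub_one (by norm_num), Real.rpow_mul (by norm_num)]
      norm_num
    rw [h2]
    have h3 : (0 : ℝ) < 4 ^ r := by positivity
    nlinarith
  calc HL.CM (2 * r) * HL.CM (2 * r)
      ≤ ENNReal.ofReal (16 * 4 ^ r) * ENNReal.ofReal (16 * 4 ^ r) := by gcongr
    _ = ENNReal.ofReal (256 * 16 ^ r) := by
        rw [← ENNReal.ofReal_mul (by positivity)]
        congr 1
        rw [show (16 : ℝ) = 4 * 4 by norm_num, Real.mul_rpow (by norm_num) (by norm_num)]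
        ring

/-- a common bound of the three kernels -/
theorem three_bd {M : ℕ} (κ1 : Ker M) : ∃ C0, 0 ≤ C0 ∧ κ1.Bd 1 C0 ∧ (up κ1).Bd 1 C0 ∧
    (up (up κ1)).Bd 1 C0 := by
  obtain ⟨C1, h1⟩ := TreeT2.exists_Bd κ1
  obtain ⟨C2, h2⟩ := TreeT2.exists_Bd (up κ1)
  obtain ⟨C3, h3⟩ := TreeT2.exists_Bd (up (up κ1))
  have mono : ∀ {M' : ℕ} {κ : Ker M'} {c c' : ℝ}, κ.Bd 1 c → c ≤ c' → κ.Bd 1 c' := by
    intro M' κ c c' h hc
    refine ⟨h.one_le, fun a ha t => (h.Φ_bd a ha t).trans ?_, fun a ha t => (h.K_bd a ha t).trans hc⟩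
    simp only [one_pow, mul_one, div_one]
    exact hc
  refine ⟨max 0 (max C1 (max C2 C3)), le_max_left _ _, mono h1 ?_, mono h2 ?_, mono h3 ?_⟩
  · exact (le_max_left _ _).trans (le_max_right _ _)
  · exact ((le_max_left _ _).trans (le_max_right _ _)).trans (le_max_right _ _)
  · exact ((le_max_right _ _).trans (le_max_right _ _)).trans (le_max_right _ _)

/-- `L^q` bounds of the three tree sums with one constant -/
theorem three_Lq {M : ℕ} (κ1 : Ker M) {A : ℝ} (hA : 1 ≤ A) : ∃ C : ℝ, 1 ≤ C ∧ ∀ q : ℝ, 3 ≤ q →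
    ∀ (τ : ℝ) (u : ℝ × ℝ → ℝ), Field u → ∀ (n : ℕ) (E : ℕ → Set (ℝ × ℝ)) (s δ : ℝ),
    TreeN 1 A δ τ s u n E → ∀ g : ℝ × ℝ → ℝ, Nice g →
      (∫⁻ ζ, ‖κ1.FS u g E n ζ‖ₑ ^ q ≤
        ENNReal.ofReal ((C * q) ^ (3 * q) * δ ^ (q - 1)) * ∫⁻ z in Un E n, ‖g z‖ₑ ^ q) ∧
      (∫⁻ ζ, ‖(up κ1).FS u g E n ζ‖ₑ ^ q ≤
        ENNReal.ofReal ((C * q) ^ (3 * q) * δ ^ (q - 1)) * ∫⁻ z in Un E n, ‖g z‖ₑ ^ q) ∧
      (∫⁻ ζ, ‖(up (up κ1)).FS u g E n ζ‖ₑ ^ q ≤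
        ENNReal.ofReal ((C * q) ^ (3 * q) * δ ^ (q - 1)) * ∫⁻ z in Un E n, ‖g z‖ₑ ^ q) := by
  obtain ⟨C0, hC0, b1, b2, b3⟩ := three_bd κ1
  obtain ⟨C1, hC1, h1⟩ := HL.tqUN (M := M) hA hC0
  obtain ⟨C2, hC2, h2⟩ := HL.tqUN (M := M + 1) hA hC0
  obtain ⟨C3, hC3, h3⟩ := HL.tqUN (M := M + 1 + 1) hA hC0
  refine ⟨max C1 (max C2 C3), hC1.trans (le_max_left _ _), ?_⟩
  intro q hq τ u hu n E s δ hT g hg
  have hδ := hT.pos
  have key : ∀ c : ℝ, 1 ≤ c → c ≤ max C1 (max C2 C3) →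
      ENNReal.ofReal ((c * q) ^ (((3 : ℕ) : ℝ) * q) * δ ^ (q - 1)) ≤
        ENNReal.ofReal ((max C1 (max C2 C3) * q) ^ (3 * q) * δ ^ (q - 1)) := by
    intro c hc hcm
    apply ENNReal.ofReal_le_ofReal
    push_cast
    have : 0 ≤ c * q := by positivity
    gcongr
  refine ⟨(h1 q hq 1 κ1 b1 τ u hu n E s δ hT g hg).trans ?_,
    (h2 q hq 1 _ b2 τ u hu n E s δ hT g hg).trans ?_,
    (h3 q hq 1 _ b3 τ u hu n E s δ hT g hg).trans ?_⟩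
  · exact mul_le_mul' (key C1 hC1 (le_max_left _ _)) le_rfl
  · exact mul_le_mul' (key C2 hC2 ((le_max_left _ _).trans (le_max_right _ _))) le_rfl
  · exact mul_le_mul' (key C3 hC3 ((le_max_right _ _).trans (le_max_right _ _))) le_rfl

/-- **(AMP3)**: all moments of the amplitude -/
theorem BB_Lr {M : ℕ} (κ1 : Ker M) {A : ℝ} (hA : 1 ≤ A) : ∃ C : ℝ, 1 ≤ C ∧ ∀ r : ℝ, 2 ≤ r →
    ∀ (τ : ℝ) (u : ℝ × ℝ → ℝ), Field u → ∀ (n : ℕ) (E : ℕ → Set (ℝ × ℝ)) (s δ : ℝ),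
    TreeN 1 A δ τ s u n E → ∀ (h : ℝ), 0 < h → ∀ g : ℝ × ℝ → ℝ, Nice g →
      ∫⁻ z, BB κ1 h u g E n s z ^ r ≤
        ENNReal.ofReal ((C * r) ^ (6 * r) * h ^ r * (1 + δ ^ (2 * r - 1))) *
          ∫⁻ z in Un E n, ‖g z‖ₑ ^ (2 * r) := by
  obtain ⟨C, hC, hq⟩ := three_Lq κ1 hA
  refine ⟨6144 * C, by linarith, ?_⟩
  intro r hr τ u hu n E s δ hT h hh g hg
  have hδ := hT.pos
  obtain ⟨h1, h2, h3⟩ := hq (2 * r) (by linarith) τ u hu n E s δ hT g hg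
  set I : ℝ≥0∞ := ∫⁻ z in Un E n, ‖g z‖ₑ ^ (2 * r) with hI
  have hP := PH_Lr κ1 hu hg hT.meas n s (r := r) (by linarith) h1 h2 h3
  have hW := win_Lr (r := r) (by linarith) (PH_meas κ1 hu hg hT.meas n s) (R := 3 * h)
    (by positivity)
  set X : ℝ := (6144 * C * r) ^ (6 * r) with hX
  have hr0 : 0 < r := by linarith
  have h6 : (6 : ℝ) ^ r * 4 ^ (r - 1) ≤ 24 ^ r := by
    rw [show (24 : ℝ) = 6 * 4 by norm_num, Real.mul_rpow (by norm_num) (by norm_num)]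
    gcongr
    · norm_num
    · linarith
  have hCr : 1 ≤ C * r := by nlinarith
  have hX1 : 24 ^ r * (256 * 16 ^ r) ≤ X := by
    have e1 : (256 : ℝ) ≤ 16 ^ r := by
      calc (256 : ℝ) = 16 ^ (2 : ℝ) := by norm_num
        _ ≤ 16 ^ r := Real.rpow_le_rpow_of_exponent_le (by norm_num) hr
    calc (24 : ℝ) ^ r * (256 * 16 ^ r) ≤ 24 ^ r * (16 ^ r * 16 ^ r) := by gcongr
      _ = 6144 ^ r := by
        rw [← Real.mul_rpow (by norm_num) (by norm_num),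
          ← Real.mul_rpow (by norm_num) (by norm_num)]
        norm_num
      _ ≤ (6144 * C * r) ^ r := by
        apply Real.rpow_le_rpow (by norm_num) _ hr0.le
        nlinarith
      _ ≤ X := by
        rw [hX]
        apply Real.rpow_le_rpow_of_exponent_le
        · nlinarith
        · linarith
  have hX2 : 24 ^ r * (3 * (C * (2 * r)) ^ (3 * (2 * r))) ≤ X := by
    have e1 : (3 : ℝ) ≤ 3 ^ r := by
      calc (3 : ℝ) = 3 ^ (1 : ℝ) := by norm_num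
        _ ≤ 3 ^ r := Real.rpow_le_rpow_of_exponent_le (by norm_num) (by linarith)
    have e2 : (3 : ℝ) * (2 * r) = 6 * r := by ring
    calc (24 : ℝ) ^ r * (3 * (C * (2 * r)) ^ (3 * (2 * r)))
        ≤ 24 ^ r * (3 ^ r * (C * (2 * r)) ^ (3 * (2 * r))) := by gcongr
      _ = 72 ^ r * (C * (2 * r)) ^ (6 * r) := by
        rw [← mul_assoc, ← Real.mul_rpow (by norm_num) (by norm_num), e2]
        norm_num
      _ ≤ 72 ^ (6 * r) * (C * (2 * r)) ^ (6 * r) := by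
        gcongr
        · norm_num
        · linarith
      _ = (72 * (C * (2 * r))) ^ (6 * r) :=
        (Real.mul_rpow (by norm_num : (0 : ℝ) ≤ 72) (by positivity)).symm
      _ ≤ X := by
        rw [hX]
        apply Real.rpow_le_rpow (by positivity) _ (by positivity)
        nlinarith
  have hP' : ∫⁻ z, PH κ1 u g E n s z ^ r ≤ 4 ^ (r - 1) * (ENNReal.ofReal (256 * 16 ^ r) * I +
      ENNReal.ofReal (3 * ((C * (2 * r)) ^ (3 * (2 * r)) * δ ^ (2 * r - 1))) * I) := by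
    refine hP.trans (mul_le_mul' le_rfl ?_)
    have e3 : ENNReal.ofReal (3 * ((C * (2 * r)) ^ (3 * (2 * r)) * δ ^ (2 * r - 1))) * I =
        ENNReal.ofReal ((C * (2 * r)) ^ (3 * (2 * r)) * δ ^ (2 * r - 1)) * I +
        ENNReal.ofReal ((C * (2 * r)) ^ (3 * (2 * r)) * δ ^ (2 * r - 1)) * I +
        ENNReal.ofReal ((C * (2 * r)) ^ (3 * (2 * r)) * δ ^ (2 * r - 1)) * I := by
      rw [ENNReal.ofReal_mul (by norm_num), show ENNReal.ofReal 3 = 3 by norm_num]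
      ring
    rw [e3, ← add_assoc, ← add_assoc]
    exact add_le_add (add_le_add (add_le_add (mul_le_mul' (CM_sq_le hr) le_rfl) le_rfl) le_rfl)
      le_rfl
  calc ∫⁻ z, BB κ1 h u g E n s z ^ r
      ≤ ENNReal.ofReal ((2 * (3 * h)) ^ r) * ∫⁻ z, PH κ1 u g E n s z ^ r := hW
    _ ≤ ENNReal.ofReal ((2 * (3 * h)) ^ r) * (4 ^ (r - 1) * (ENNReal.ofReal (256 * 16 ^ r) * I +
        ENNReal.ofReal (3 * ((C * (2 * r)) ^ (3 * (2 * r)) * δ ^ (2 * r - 1))) * I)) :=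
        mul_le_mul' le_rfl hP'
    _ = ENNReal.ofReal ((6 ^ r * 4 ^ (r - 1)) * h ^ r * (256 * 16 ^ r +
        3 * (C * (2 * r)) ^ (3 * (2 * r)) * δ ^ (2 * r - 1))) * I := by
        have e4 : (4 : ℝ≥0∞) ^ (r - 1) = ENNReal.ofReal (4 ^ (r - 1)) := by
          rw [← ENNReal.ofReal_rpow_of_pos (by norm_num)]; norm_num
        rw [e4, ← add_mul, ← mul_assoc, ← mul_assoc, ← ENNReal.ofReal_add (by positivity)
          (by positivity), ← ENNReal.ofReal_mul (by positivity), ← ENNReal.ofReal_mul (by positivity)]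
        congr 2
        rw [show 2 * (3 * h) = 6 * h by ring, Real.mul_rpow (by norm_num) hh.le]
        ring
    _ ≤ ENNReal.ofReal (X * h ^ r * (1 + δ ^ (2 * r - 1))) * I := by
        refine mul_le_mul' (ENNReal.ofReal_le_ofReal ?_) le_rfl
        have hd : 0 ≤ δ ^ (2 * r - 1) := by positivity
        have hhr : 0 ≤ h ^ r := by positivity
        calc (6 ^ r * 4 ^ (r - 1)) * h ^ r * (256 * 16 ^ r +
              3 * (C * (2 * r)) ^ (3 * (2 * r)) * δ ^ (2 * r - 1))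
            ≤ 24 ^ r * h ^ r * (256 * 16 ^ r +
              3 * (C * (2 * r)) ^ (3 * (2 * r)) * δ ^ (2 * r - 1)) := by
              gcongr
          _ = h ^ r * (24 ^ r * (256 * 16 ^ r) +
              24 ^ r * (3 * (C * (2 * r)) ^ (3 * (2 * r))) * δ ^ (2 * r - 1)) := by ring
          _ ≤ h ^ r * (X + X * δ ^ (2 * r - 1)) := by
              gcongr
          _ = _ := by ring

/-- **(LEAF)**: the profile of a tree whose active offsets have measure `≤ o` in every window -/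
theorem leaf_bound {M : ℕ} (κ1 : Ker M) {A : ℝ} (hA : 1 ≤ A) : ∃ C : ℝ, 1 ≤ C ∧
    ∀ r : ℝ, 3 / 2 ≤ r → ∀ (τ : ℝ) (u : ℝ × ℝ → ℝ), Field u →
    ∀ (n : ℕ) (E : ℕ → Set (ℝ × ℝ)) (s δ : ℝ),
    TreeN 1 A δ τ s u n E → ∀ (ρ : ℝ → ℝ) (L h o : ℝ), Win ρ L → 0 < h → 0 ≤ o →
    ∀ g : ℝ × ℝ → ℝ, Nice g → ∀ Om : Set (ℝ × ℝ), MeasurableSet Om →
    (∀ z ∈ Om, volume {w | w ∈ Icc (-(2 * h)) (2 * h) ∧
      (up κ1).FS u g E n (z.1, z.2 + w) ≠ 0} ≤ ENNReal.ofReal o) →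
      ∫⁻ z in Om, (∫⁻ v, ‖pc ρ h ((up κ1).FS u g E n) z v‖ₑ ^ 2) ^ r ≤
        ENNReal.ofReal (o ^ (r - 1) * (4 * h) * ((C * r) ^ (6 * r) * δ ^ (2 * r - 1))) *
          ∫⁻ z in Un E n, ‖g z‖ₑ ^ (2 * r) := by
  obtain ⟨C, hC, hq⟩ := three_Lq κ1 hA
  refine ⟨2 * C, by linarith, ?_⟩
  intro r hr τ u hu n E s δ hT ρ L h o hρ hh ho g hg Om hOm hocc
  have hδ := hT.pos
  obtain ⟨-, h2, -⟩ := hq (2 * r) (by linarith) τ u hu n E s δ hT g hg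
  set F := (up κ1).FS u g E n with hF
  have hFm : Measurable F := ((up κ1).FS_nice hu hg hT.meas n).meas
  have hvol : volume (Icc (-(2 * h)) (2 * h)) = ENNReal.ofReal (4 * h) := by
    rw [Real.volume_Icc]; congr 1; ring
  have h4 : ∀ z, ∫⁻ v, ‖pc ρ h F z v‖ₑ ^ 2 ≤
      ∫⁻ w in Icc (-(2 * h)) (2 * h), ‖F (z.1, z.2 + w)‖ₑ ^ 2 := by
    intro z
    rw [← lintegral_indicator measurableSet_Icc]
    refine lintegral_mono fun v => ?_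
    by_cases hv : v ∈ Icc (-(2 * h)) (2 * h)
    · rw [indicator_of_mem hv, pc, enorm_ofReal', prof, enorm_mul]
      have h2 : ‖ρ (v / h)‖ₑ ≤ 1 := by
        rw [Real.enorm_eq_ofReal_abs, abs_of_nonneg (hρ.nonneg _)]
        exact ENNReal.ofReal_le_one.2 (hρ.le_one _)
      calc (‖ρ (v / h)‖ₑ * ‖F (z.1, z.2 + v)‖ₑ) ^ 2 ≤ (1 * ‖F (z.1, z.2 + v)‖ₑ) ^ 2 := by gcongr
        _ = _ := by rw [one_mul]
    · rw [indicator_of_notMem hv, pc, H864.prof_zero hρ hh]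
      · simp
      · by_contra hc
        rw [not_le] at hc
        exact hv (abs_le.1 hc.le)
  have hl := win_leaf (r := r) (by linarith) (Φ := fun z => ‖F z‖ₑ ^ 2) (hFm.enorm.pow_const 2)
    (W := Icc (-(2 * h)) (2 * h)) measurableSet_Icc (o := ENNReal.ofReal o) hOm (fun z hz => by
      refine le_trans (measure_mono ?_) (hocc z hz)
      rintro w ⟨hw1, hw2⟩
      refine ⟨hw1, fun hc => hw2 ?_⟩
      simp only [hc, enorm_zero]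
      norm_num)
  rw [hvol] at hl
  have hpow : ∀ x : ℝ≥0∞, (x ^ 2) ^ r = x ^ (2 * r) := fun x => by
    rw [← ENNReal.rpow_natCast, ← ENNReal.rpow_mul]; norm_num
  calc ∫⁻ z in Om, (∫⁻ v, ‖pc ρ h F z v‖ₑ ^ 2) ^ r
      ≤ ∫⁻ z in Om, (∫⁻ w in Icc (-(2 * h)) (2 * h), ‖F (z.1, z.2 + w)‖ₑ ^ 2) ^ r := by
        refine lintegral_mono fun z => ?_
        exact ENNReal.rpow_le_rpow (h4 z) (by linarith)
    _ ≤ ENNReal.ofReal o ^ (r - 1) * ENNReal.ofReal (4 * h) * ∫⁻ z, (‖F z‖ₑ ^ 2) ^ r := hl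
    _ ≤ ENNReal.ofReal o ^ (r - 1) * ENNReal.ofReal (4 * h) *
        (ENNReal.ofReal ((C * (2 * r)) ^ (3 * (2 * r)) * δ ^ (2 * r - 1)) *
          ∫⁻ z in Un E n, ‖g z‖ₑ ^ (2 * r)) := by
        gcongr
        simp only [hpow]
        exact h2
    _ = _ := by
        rw [ENNReal.ofReal_rpow_of_nonneg ho (by linarith), ← ENNReal.ofReal_mul (by positivity),
          ← mul_assoc, ← ENNReal.ofReal_mul (by positivity)]
        congr 3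
        rw [show C * (2 * r) = 2 * C * r by ring, show 3 * (2 * r) = 6 * r by ring]

end Vale.Agent.P112.T580
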