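import Vale.Agent.P112.T580.Amp3
import Vale.Agent.P112.H967.MaxHU
import Vale.Agent.P112.H724.Fin

/-!
# P112, interface (T) - (G): the data (H1)-(H4) of the node inequality for tree functions

`κ1` a kernel, `κ = up κ1`, `κ2 = up κ`; `F1, F, F2` the tree sums of the three kernels; amplitude
`BB z = ∫_{|w| ≤ 3h} (GR² + F1² + F² + F2²)(z.1, z.2 + w) dw`.
-/

open MeasureTheory Set
open scoped ENNReal NNReal FourierTransform ContDiff

namespace Vale.Agent.P112.T580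

open Vale.Agent.P112.T (Ker Nice Field Un)
open Vale.Agent.P112.H864 (prof Win)

/-- the amplitude -/
noncomputable def BB {M : ℕ} (κ1 : Ker M) (h : ℝ) (u : ℝ × ℝ → ℝ) (g : ℝ × ℝ → ℝ)
    (E : ℕ → Set (ℝ × ℝ)) (n : ℕ) (s : ℝ) (z : ℝ × ℝ) : ℝ≥0∞ :=
  ∫⁻ w in Icc (-(3 * h)) (3 * h), (GR s (Un E n) g (z.1, z.2 + w) ^ 2 +
    ‖κ1.FS u g E n (z.1, z.2 + w)‖ₑ ^ 2 + ‖(up κ1).FS u g E n (z.1, z.2 + w)‖ₑ ^ 2 +
    ‖(up (up κ1)).FS u g E n (z.1, z.2 + w)‖ₑ ^ 2)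

/-- the complex profile -/
noncomputable def pc (ρ : ℝ → ℝ) (h : ℝ) (F : ℝ × ℝ → ℝ) (z : ℝ × ℝ) (v : ℝ) : ℂ :=
  ((prof ρ h F z v : ℝ) : ℂ)

variable {ρ : ℝ → ℝ} {L h : ℝ} {M : ℕ} {κ1 : Ker M} {u : ℝ × ℝ → ℝ} {g : ℝ × ℝ → ℝ}
  {E : ℕ → Set (ℝ × ℝ)} {n : ℕ} {s : ℝ}

theorem enorm_ofReal_sub (a b : ℝ) : ‖((a : ℝ) : ℂ) - ((b : ℝ) : ℂ)‖ₑ = ‖a - b‖ₑ := by
  rw [← Complex.ofReal_sub, ← ofReal_norm, ← ofReal_norm, Complex.norm_real]

theorem enorm_ofReal' (a : ℝ) : ‖((a : ℝ) : ℂ)‖ₑ = ‖a‖ₑ := by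
  rw [← ofReal_norm, ← ofReal_norm, Complex.norm_real]

theorem prof_cont (hρ : Win ρ L) (hu : Field u) (hg : Nice g) (hE : ∀ j, MeasurableSet (E j))
    {M' : ℕ} (κ : Ker M') (z : ℝ × ℝ) : Continuous (prof ρ h (κ.FS u g E n) z) :=
  continuous_iff_continuousAt.2 fun v => (prof_hasDeriv hρ h κ hu hg hE n z v).continuousAt

/-- the profiles are profiles -/
theorem pc_prof (hρ : Win ρ L) (hh : 0 < h) (hu : Field u) (hg : Nice g)
    (hE : ∀ j, MeasurableSet (E j)) {M' : ℕ} (κ : Ker M') (z : ℝ × ℝ) :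
    H172.Prof (pc ρ h (κ.FS u g E n) z) :=
  prof_of_cont (R := 2 * h) (Complex.continuous_ofReal.comp (prof_cont hρ hu hg hE κ z))
    fun v hv => by
      rw [pc, H864.prof_zero hρ hh _ z hv.le, Complex.ofReal_zero]

/-- **(H1)** -/
theorem h1_bound (hρ : Win ρ L) (hh : 0 < h) {N C0 A : ℝ} (hκ : (up κ1).Bd N C0) (hA : 0 ≤ A)
    (hu : Field u) (hg : Nice g) (hE : ∀ j, MeasurableSet (E j))
    (hs : ∀ j < n, ∀ z ∈ E j, |u z - s| ≤ A * 2 ^ j / N) {J : ℕ} {z : ℝ × ℝ}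
    (hq : ∀ j, J < j → j < n → ∀ z' ∈ E j, |z'.1 - z.1| ≤ 2 / 2 ^ J →
      |(z'.2 - s * z'.1) - (z.2 - s * z.1)| ≤ 3 * h + 1 + A → False)
    {t σ : ℝ} (ht : |t| ≤ 1 / 2 ^ J) (ha : |t * (s - σ)| ≤ h) :
    ∫⁻ v, ‖pc ρ h ((up κ1).FS u g E n) (z.1 + t, z.2 + t * σ) v -
        pc ρ h ((up κ1).FS u g E n) z (v - t * (s - σ))‖ₑ ^ 2 ≤
      ENNReal.ofReal (2 * (cA A C0 * (|t| * 2 ^ J) + L * (|t * (s - σ)| / h)) ^ 2) *
        BB κ1 h u g E n s z := by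
  have h1 := amp_two hρ hh hκ hA hu hg hE hs hq ht ha
  simp only [pc, enorm_ofReal_sub]
  refine h1.trans ?_
  gcongr
  unfold BB
  refine lintegral_mono fun w => ?_
  calc GR s (Un E n) g (z.1, z.2 + w) ^ 2 + ‖(up κ1).FS u g E n (z.1, z.2 + w)‖ₑ ^ 2
      ≤ (GR s (Un E n) g (z.1, z.2 + w) ^ 2 + ‖κ1.FS u g E n (z.1, z.2 + w)‖ₑ ^ 2) +
        ‖(up κ1).FS u g E n (z.1, z.2 + w)‖ₑ ^ 2 := by gcongr; exact le_self_add
    _ ≤ _ := le_self_add

/-- window integrals of one of the tree sums -/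
theorem win_le_BB {Fn : ℝ × ℝ → ℝ} (z : ℝ × ℝ) (hh : 0 < h)
    (hF : Fn = κ1.FS u g E n ∨ Fn = (up κ1).FS u g E n ∨ Fn = (up (up κ1)).FS u g E n) :
    ∫⁻ w in Icc (-(2 * h)) (2 * h), ‖Fn (z.1, z.2 + w)‖ₑ ^ 2 ≤ BB κ1 h u g E n s z := by
  unfold BB
  refine (lintegral_mono_set (Icc_subset_Icc (show -(3 * h) ≤ -(2 * h) by linarith)
    (show 2 * h ≤ 3 * h by linarith))).trans ?_
  refine lintegral_mono fun w => ?_
  rcases hF with rfl | rfl | rfl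
  · exact (le_add_self.trans le_self_add).trans le_self_add
  · exact le_add_self.trans le_self_add
  · exact le_add_self

/-- **(H4)** -/
theorem h4_bound (hρ : Win ρ L) (hh : 0 < h) (z : ℝ × ℝ) :
    ∫⁻ v, ‖pc ρ h ((up κ1).FS u g E n) z v‖ₑ ^ 2 ≤ BB κ1 h u g E n s z := by
  refine le_trans ?_ (win_le_BB (Fn := (up κ1).FS u g E n) z hh (Or.inr (Or.inl rfl)))
  rw [← lintegral_indicator measurableSet_Icc]
  refine lintegral_mono fun v => ?_
  by_cases hv : v ∈ Icc (-(2 * h)) (2 * h)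
  · rw [indicator_of_mem hv, pc, enorm_ofReal', prof, enorm_mul]
    have h2 : ‖ρ (v / h)‖ₑ ≤ 1 := by
      rw [Real.enorm_eq_ofReal_abs, abs_of_nonneg (hρ.nonneg _)]
      exact ENNReal.ofReal_le_one.2 (hρ.le_one _)
    calc (‖ρ (v / h)‖ₑ * ‖(up κ1).FS u g E n (z.1, z.2 + v)‖ₑ) ^ 2
        ≤ (1 * ‖(up κ1).FS u g E n (z.1, z.2 + v)‖ₑ) ^ 2 := by gcongr
      _ = _ := by rw [one_mul]
  · rw [indicator_of_notMem hv, pc, H864.prof_zero hρ hh]
    · simp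
    · by_contra hc
      rw [not_le] at hc
      exact hv (abs_le.1 hc.le)

/-- the square of a combination `a X - b Y` on the window -/
theorem comb_le {a b X Y cL : ℝ} (ha : |a| ≤ cL) (hb : |b| ≤ 1) (hcL : 0 ≤ cL) :
    ‖a * X - b * Y‖ₑ ^ 2 ≤
      ENNReal.ofReal (2 * cL ^ 2) * ‖X‖ₑ ^ 2 + ENNReal.ofReal 2 * ‖Y‖ₑ ^ 2 := by
  have h1 : ‖a‖ₑ ≤ ENNReal.ofReal cL := by
    rw [Real.enorm_eq_ofReal_abs]; exact ENNReal.ofReal_le_ofReal ha
  have h2 : ‖b‖ₑ ≤ 1 := by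
    rw [Real.enorm_eq_ofReal_abs]; exact ENNReal.ofReal_le_one.2 hb
  calc ‖a * X - b * Y‖ₑ ^ 2 ≤ (‖a * X‖ₑ + ‖b * Y‖ₑ) ^ 2 := by
        gcongr; exact enorm_sub_le
    _ ≤ 2 * (‖a * X‖ₑ ^ 2 + ‖b * Y‖ₑ ^ 2) := add_sq_le2 _ _
    _ ≤ 2 * ((ENNReal.ofReal cL * ‖X‖ₑ) ^ 2 + (1 * ‖Y‖ₑ) ^ 2) := by
        rw [enorm_mul, enorm_mul]; gcongr
    _ = _ := by
        rw [ENNReal.ofReal_mul (by norm_num), ENNReal.ofReal_pow hcL,
          show ENNReal.ofReal 2 = 2 by norm_num]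
        ring

/-- **(H2)** -/
theorem h2_bound (hρ : Win ρ L) (hh : 0 < h) (hu : Field u) (hg : Nice g)
    (hE : ∀ j, MeasurableSet (E j)) (z : ℝ × ℝ) (d : ℝ) :
    ∫⁻ v, ‖pc ρ h ((up κ1).FS u g E n) z (v - d) - pc ρ h ((up κ1).FS u g E n) z v‖ₑ ^ 2 ≤
      ENNReal.ofReal (2 * d ^ 2 * ((L / h) ^ 2 + 1)) * BB κ1 h u g E n s z := by
  simp only [pc, enorm_ofReal_sub]
  have hL := hρ.L0
  set F := (up κ1).FS u g E n with hF
  set F2 := (up (up κ1)).FS u g E n with hF2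
  have hd := prof_hasDeriv hρ h (up κ1) hu hg hE n z
  have hcont : Continuous fun v => deriv ρ (v / h) / h * F (z.1, z.2 + v) -
      ρ (v / h) * F2 (z.1, z.2 + v) := by
    have h1 := (continuous_FS (up κ1) hu hg hE n z.1).comp
      (by fun_prop : Continuous fun v : ℝ => z.2 + v)
    have h2 := (continuous_FS (up (up κ1)) hu hg hE n z.1).comp
      (by fun_prop : Continuous fun v : ℝ => z.2 + v)
    have h3 := (win_deriv_cont hρ).comp (by fun_prop : Continuous fun v : ℝ => v / h)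
    have h4 := hρ.smooth.continuous.comp (by fun_prop : Continuous fun v : ℝ => v / h)
    exact ((h3.div_const h).mul h1).sub (h4.mul h2)
  have h1 := shift_le hd hcont d
  refine h1.trans ?_
  have h2 : ∫⁻ v, ‖deriv ρ (v / h) / h * F (z.1, z.2 + v) - ρ (v / h) * F2 (z.1, z.2 + v)‖ₑ ^ 2 ≤
      ∫⁻ v in Icc (-(2 * h)) (2 * h), (ENNReal.ofReal (2 * (L / h) ^ 2) *
        ‖F (z.1, z.2 + v)‖ₑ ^ 2 + ENNReal.ofReal 2 * ‖F2 (z.1, z.2 + v)‖ₑ ^ 2) := by
    rw [← lintegral_indicator measurableSet_Icc]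
    refine lintegral_mono fun v => ?_
    by_cases hv : v ∈ Icc (-(2 * h)) (2 * h)
    · rw [indicator_of_mem hv]
      refine comb_le ?_ ?_ (by positivity)
      · rw [abs_div, abs_of_pos hh]
        exact div_le_div_of_nonneg_right (win_deriv_le hρ _) hh.le
      · rw [abs_of_nonneg (hρ.nonneg _)]; exact hρ.le_one _
    · have hv2 : 2 < |v / h| := by
        rw [abs_div, abs_of_pos hh, lt_div_iff₀ hh]
        by_contra hc
        rw [not_lt] at hc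
        exact hv (abs_le.1 hc)
      rw [indicator_of_notMem hv, win_deriv_zero hρ hv2, hρ.supp _ hv2.le]
      simp
  have hmF : Measurable fun v => ‖F (z.1, z.2 + v)‖ₑ ^ 2 :=
    ((((up κ1).FS_nice hu hg hE n).meas.comp (by fun_prop)).enorm).pow_const 2
  rw [lintegral_add_left (hmF.const_mul _), lintegral_const_mul' _ _ ENNReal.ofReal_ne_top,
    lintegral_const_mul' _ _ ENNReal.ofReal_ne_top] at h2
  have h3 := win_le_BB (s := s) (Fn := F) (κ1 := κ1) (u := u) (g := g) (E := E) (n := n) z hh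
    (Or.inr (Or.inl rfl))
  have h4 := win_le_BB (s := s) (Fn := F2) (κ1 := κ1) (u := u) (g := g) (E := E) (n := n) z hh
    (Or.inr (Or.inr rfl))
  calc ENNReal.ofReal (d ^ 2) * ∫⁻ v, ‖deriv ρ (v / h) / h * F (z.1, z.2 + v) -
        ρ (v / h) * F2 (z.1, z.2 + v)‖ₑ ^ 2
      ≤ ENNReal.ofReal (d ^ 2) * (ENNReal.ofReal (2 * (L / h) ^ 2) * BB κ1 h u g E n s z +
        ENNReal.ofReal 2 * BB κ1 h u g E n s z) := by
        gcongr
        refine h2.trans ?_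
        gcongr
    _ = _ := by
        rw [← add_mul, ← ENNReal.ofReal_add (by positivity) (by norm_num), ← mul_assoc,
          ← ENNReal.ofReal_mul (by positivity)]
        congr 2
        ring

/-- **(H3)** -/
theorem h3_bound (hρ : Win ρ L) (hh : 0 < h) (hu : Field u) (hg : Nice g)
    (hE : ∀ j, MeasurableSet (E j)) (z : ℝ × ℝ) {θ0 : ℝ} (hθ : 0 < θ0) :
    ∫⁻ θ in Ioo (-θ0) θ0, ‖𝓕 (pc ρ h ((up κ1).FS u g E n) z) θ‖ₑ ^ 2 ≤
      ENNReal.ofReal (2 * (2 * Real.pi * θ0) ^ 2 + 2 * (L / h) ^ 2) * BB κ1 h u g E n s z := by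
  have hL := hρ.L0
  set F1 := κ1.FS u g E n with hF1
  set F := (up κ1).FS u g E n with hF
  have c1 := (continuous_FS κ1 hu hg hE n z.1).comp
      (by fun_prop : Continuous fun v : ℝ => z.2 + v)
  have c2 := (continuous_FS (up κ1) hu hg hE n z.1).comp
      (by fun_prop : Continuous fun v : ℝ => z.2 + v)
  have c3 := (win_deriv_cont hρ).comp (by fun_prop : Continuous fun v : ℝ => v / h)
  have c4 := hρ.smooth.continuous.comp (by fun_prop : Continuous fun v : ℝ => v / h)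
  -- the primitive and the remainder
  set P1 : ℝ → ℂ := fun v => ((-(prof ρ h F1 z v) : ℝ) : ℂ) with hP1
  set r : ℝ → ℂ := fun v => ((deriv ρ (v / h) / h * F1 (z.1, z.2 + v) : ℝ) : ℂ) with hr
  have hd : ∀ v, HasDerivAt P1 (((-(deriv ρ (v / h) / h * F1 (z.1, z.2 + v) -
      ρ (v / h) * F (z.1, z.2 + v)) : ℝ)) : ℂ) v := fun v =>
    ((prof_hasDeriv hρ h κ1 hu hg hE n z v).neg).ofReal_comp
  have hderiv : deriv P1 = fun v => ((-(deriv ρ (v / h) / h * F1 (z.1, z.2 + v) -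
      ρ (v / h) * F (z.1, z.2 + v)) : ℝ) : ℂ) := funext fun v => (hd v).deriv
  have hz1 : ∀ v, 2 * h < |v| → 2 < |v / h| := fun v hv => by
    rw [abs_div, abs_of_pos hh, lt_div_iff₀ hh]; exact hv
  have pP1 : H172.Prof P1 := prof_of_cont (R := 2 * h)
    (Complex.continuous_ofReal.comp (prof_cont hρ hu hg hE κ1 z).neg) fun v hv => by
      simp only [hP1]
      rw [H864.prof_zero hρ hh _ z hv.le, neg_zero, Complex.ofReal_zero]
  have pr : H172.Prof r := prof_of_cont (R := 2 * h)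
    (Complex.continuous_ofReal.comp ((c3.div_const h).mul c1)) fun v hv => by
      simp only [hr]
      rw [win_deriv_zero hρ (hz1 v hv)]
      simp
  have pd : H172.Prof (deriv P1) := by
    rw [hderiv]
    refine prof_of_cont (R := 2 * h)
      (Complex.continuous_ofReal.comp (((c3.div_const h).mul c1).sub (c4.mul c2)).neg) fun v hv => ?_
    rw [win_deriv_zero hρ (hz1 v hv), hρ.supp _ (hz1 v hv).le]
    simp
  have h1 := H172.low_freq pP1 (fun v => (hd v).differentiableAt) pd pr hθ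
  have h2 : (fun v => deriv P1 v + r v) = pc ρ h F z := by
    funext v
    rw [hderiv]
    simp only [hr, pc, prof]
    rw [← Complex.ofReal_add]
    congr 1
    ring
  rw [h2] at h1
  refine h1.trans ?_
  have h3 := win_le_BB (s := s) (Fn := F1) (κ1 := κ1) (u := u) (g := g) (E := E) (n := n) z hh
    (Or.inl rfl)
  have h4 : ∫⁻ v, ‖P1 v‖ₑ ^ 2 ≤ BB κ1 h u g E n s z := by
    refine le_trans ?_ h3
    rw [← lintegral_indicator measurableSet_Icc]
    refine lintegral_mono fun v => ?_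
    simp only [hP1]
    rw [enorm_ofReal', enorm_neg]
    by_cases hv : v ∈ Icc (-(2 * h)) (2 * h)
    · rw [indicator_of_mem hv, prof, enorm_mul]
      have h2 : ‖ρ (v / h)‖ₑ ≤ 1 := by
        rw [Real.enorm_eq_ofReal_abs, abs_of_nonneg (hρ.nonneg _)]
        exact ENNReal.ofReal_le_one.2 (hρ.le_one _)
      calc (‖ρ (v / h)‖ₑ * ‖F1 (z.1, z.2 + v)‖ₑ) ^ 2
          ≤ (1 * ‖F1 (z.1, z.2 + v)‖ₑ) ^ 2 := by gcongr
        _ = _ := by rw [one_mul]
    · rw [indicator_of_notMem hv, H864.prof_zero hρ hh]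
      · simp
      · by_contra hc
        rw [not_le] at hc
        exact hv (abs_le.1 hc.le)
  have h5 : ∫⁻ v, ‖r v‖ₑ ^ 2 ≤ ENNReal.ofReal ((L / h) ^ 2) * BB κ1 h u g E n s z := by
    refine le_trans ?_ (mul_le_mul' le_rfl h3)
    rw [← lintegral_const_mul' _ _ ENNReal.ofReal_ne_top, ← lintegral_indicator measurableSet_Icc]
    refine lintegral_mono fun v => ?_
    simp only [hr]
    rw [enorm_ofReal']
    by_cases hv : v ∈ Icc (-(2 * h)) (2 * h)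
    · rw [indicator_of_mem hv, enorm_mul, mul_pow, ENNReal.ofReal_pow (by positivity)]
      gcongr
      rw [Real.enorm_eq_ofReal_abs, abs_div, abs_of_pos hh]
      exact ENNReal.ofReal_le_ofReal (div_le_div_of_nonneg_right (win_deriv_le hρ _) hh.le)
    · have hv2 : 2 < |v / h| := hz1 v (by
        by_contra hc
        rw [not_lt] at hc
        exact hv (abs_le.1 hc))
      rw [indicator_of_notMem hv, win_deriv_zero hρ hv2]
      simp
  calc 2 * ENNReal.ofReal ((2 * Real.pi * θ0) ^ 2) * (∫⁻ v, ‖P1 v‖ₑ ^ 2) +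
        2 * (∫⁻ v, ‖r v‖ₑ ^ 2)
      ≤ 2 * ENNReal.ofReal ((2 * Real.pi * θ0) ^ 2) * BB κ1 h u g E n s z +
        2 * (ENNReal.ofReal ((L / h) ^ 2) * BB κ1 h u g E n s z) := by gcongr
    _ = _ := by
        rw [ENNReal.ofReal_add (by positivity) (by positivity), ENNReal.ofReal_mul (by norm_num),
          ENNReal.ofReal_mul (by norm_num), show ENNReal.ofReal 2 = 2 by norm_num]
        ring

end Vale.Agent.P112.T580
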