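import Vale.Agent.P112.T580.Ana

/-!
# P112 [ANA-CORE], part 2: one level
-/

open MeasureTheory Set
open scoped ENNReal Real

noncomputable section

namespace Vale.Agent.P112.T580.Ana

open Vale.Agent.P112.H371 (Gb Wa Gb_meas Wa_meas lint_Wa_all Wa_eq)
open Vale.Agent.P112.H646 (Sys Arc)
open Vale.Agent.P112.H8 (Bxs)
open Lev

variable {ι κ : Type} [Fintype ι] [Fintype κ]

theorem meas_mem_act (X : Bxs ι κ) (i : ι) : MeasurableSet {z | i ∈ act X z} := by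
  have : {z | i ∈ act X z} = Ri X i := by
    ext z
    exact mem_act
  rw [this]
  exact Ri_meas X i

theorem meas_card (X : Bxs ι κ) : Measurable fun z => ((act X z).card : ℝ≥0∞) :=
  H586.Exc.meas_card (meas_mem_act X)

omit [Fintype κ] in
/-- occupancy in the plane -/
theorem occ_tilt {X : Bxs ι κ} {H : ℝ} {g : ι → ℝ × ℝ → ℂ} {a : ℝ} (ha : 0 ≤ a)
    (ho : ∀ i, ∀ w ∈ X.reg i, volume {t | t ∈ Ioc w.2 (w.2 + H) ∧ g i (w.1, t) ≠ 0} ≤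
      ENNReal.ofReal (a * H)) (T : Set (ℝ × ℝ)) :
    H586.Exc.Occ H (ENNReal.ofReal a) (act X) (fun i w => ‖g i (X.tilt i w)‖ₑ) T := by
  intro z _ i hi
  rw [mem_act] at hi
  have h1 := ho i (X.tilt i z) hi
  rw [ENNReal.ofReal_mul ha] at h1
  refine le_trans (le_of_eq ?_) h1
  rw [← measure_preimage_add_right volume (-(X.s i * z.1))
    {t | t ∈ Ioc (X.tilt i z).2 ((X.tilt i z).2 + H) ∧ g i ((X.tilt i z).1, t) ≠ 0}]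
  congr 1
  ext t
  simp only [mem_ofPred_eq, mem_preimage, Bxs.tilt, mem_Ioc, ne_eq, enorm_eq_zero]
  constructor
  · rintro ⟨⟨h1, h2⟩, h3⟩
    refine ⟨⟨by linarith, by linarith⟩, ?_⟩
    rwa [← sub_eq_add_neg]
  · rintro ⟨⟨h1, h2⟩, h3⟩
    refine ⟨⟨by linarith, by linarith⟩, ?_⟩
    rwa [← sub_eq_add_neg] at h3

omit [Fintype κ] in
theorem lint_tilt4 (X : Bxs ι κ) {g : ι → ℝ × ℝ → ℂ} (hg : ∀ i, Measurable (g i)) :
    ∑ i, ∫⁻ w, ‖g i (X.tilt i w)‖ₑ ^ 4 = ∑ i, ∫⁻ w, ‖g i w‖ₑ ^ 4 := by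
  refine Finset.sum_congr rfl fun i _ => ?_
  exact Bxs.lint_tilt (X.s i) (f := fun w => ‖g i w‖ₑ ^ 4) ((hg i).enorm.pow_const 4)

/-- the good set of one level -/
def Good (X : Bxs ι κ) (M0 K : ℕ) (θ : ℝ) (D : Set (ℝ × ℝ)) : Set (ℝ × ℝ) :=
  {z | (M0 : ℝ≥0∞) ≤ ((act X z).card : ℝ≥0∞)} ∩ {z | ((act X z).card : ℝ≥0∞) ≤ K} ∩
    (Uns X θ)ᶜ ∩ Dᶜ

theorem good_meas (X : Bxs ι κ) (M0 K : ℕ) (θ : ℝ) {D : Set (ℝ × ℝ)} (hD : MeasurableSet D) :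
    MeasurableSet (Good X M0 K θ D) :=
  (((measurableSet_le measurable_const (meas_card X)).inter
    (measurableSet_le (meas_card X) measurable_const)).inter (uns_meas X θ).compl).inter hD.compl

/-- **one level: the exceptional windows and the good windows** -/
theorem level_split {X : Bxs ι κ} (hX : X.Disj) {H : ℝ} (hH : 0 < H) {g : ι → ℝ × ℝ → ℂ}
    (hg : ∀ i, Measurable (g i)) {C : ℝ} (hC : ∀ i z, ‖g i z‖ ≤ C) {f : ℝ × ℝ → ℂ}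
    (hf : Measurable f) (hf1 : ∀ z, ‖f z‖ ≤ 1) {a : ℝ} (ha : 0 ≤ a)
    (ho : ∀ i, ∀ w ∈ X.reg i, volume {t | t ∈ Ioc w.2 (w.2 + H) ∧ g i (w.1, t) ≠ 0} ≤
      ENNReal.ofReal (a * H)) {M0 K : ℕ} (hK : 1 ≤ K) {θ : ℝ} (hθ0 : 0 ≤ θ) (hθ1 : θ ≤ 1 / 2)
    {D : Set (ℝ × ℝ)} (hD : MeasurableSet D) :
    ∫⁻ z, Wa H (fun w => ‖f w‖ₑ * ‖Gz X g z w‖ₑ) z ≤
      volume {z | f z ≠ 0} ^ (1 / 2 : ℝ) *
        (∫⁻ z in Good X M0 K θ D, Wa H (fun w => ‖Gz X g z w‖ₑ ^ 2) z) ^ (1 / 2 : ℝ) +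
      ((M0 * volume {z | f z ≠ 0}) ^ (3 / 4 : ℝ) +
        ((K : ℝ≥0∞)⁻¹ * (ENNReal.ofReal a * ∫⁻ z, ((act X z).card : ℝ≥0∞) ^ 2)) ^ (3 / 4 : ℝ) +
        (ENNReal.ofReal (8 * θ) ^ (1 / 2 : ℝ) *
          (ENNReal.ofReal a * ∫⁻ z, ((act X z).card : ℝ≥0∞) ^ 2)) ^ (3 / 4 : ℝ) +
        ((ENNReal.ofReal a * volume D) ^ (1 / 2 : ℝ) *
          (ENNReal.ofReal a * ∫⁻ z, ((act X z).card : ℝ≥0∞) ^ 2) ^ (1 / 2 : ℝ)) ^ (3 / 4 : ℝ)) *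
        (∑ i, ∫⁻ w, ‖g i w‖ₑ ^ 4) ^ (1 / 4 : ℝ) := by
  set n2 : ℝ≥0∞ := ∫⁻ z, ((act X z).card : ℝ≥0∞) ^ 2 with hn2
  set Φ : ℝ × ℝ → ℝ≥0∞ := fun z => Wa H (fun w => ‖f w‖ₑ * ‖Gz X g z w‖ₑ) z with hΦ
  set Ψ : ℝ × ℝ → ℝ≥0∞ := fun z => Wa H (fun w => ‖f w‖ₑ * ∑ i ∈ act X z, ‖g i (X.tilt i w)‖ₑ) z
    with hΨ
  have hΦΨ : ∀ z, Φ z ≤ Ψ z := fun z =>
    H371.Wa_mono (fun w => mul_le_mul_right (enorm_sum_le _ _) _) z
  set q : ℝ≥0∞ := (∑ i, ∫⁻ w, ‖g i w‖ₑ ^ 4) ^ (1 / 4 : ℝ) with hq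
  have hact := meas_mem_act X
  have hG : ∀ i, Measurable fun w => ‖g i (X.tilt i w)‖ₑ := fun i =>
    ((hg i).comp (tilt_meas X i)).enorm
  have hfe : Measurable fun w => ‖f w‖ₑ := hf.enorm
  have hfe1 : ∀ w, ‖f w‖ₑ ≤ 1 := by
    intro w
    rw [← ofReal_norm]
    exact ENNReal.ofReal_le_one.2 (hf1 w)
  have hocc := occ_tilt ha ho
  have hsupp : {w | ‖f w‖ₑ ≠ 0} = {w | f w ≠ 0} := by
    ext w
    simp
  -- few
  have h1 : ∫⁻ z in {z | ((act X z).card : ℝ≥0∞) ≤ M0}, Ψ z ≤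
      (M0 * volume {z | f z ≠ 0}) ^ (3 / 4 : ℝ) * q := by
    have h := H586.Exc.exc_low hH hact hG hfe hfe1
      (X := {z | ((act X z).card : ℝ≥0∞) ≤ M0}) (measurableSet_le (meas_card X) measurable_const)
      (M0 := M0) (fun z hz => hz)
    rw [lint_tilt4 X hg, hsupp] at h
    exact h
  -- many
  have h2 : ∫⁻ z in {z | (K : ℝ≥0∞) ≤ ((act X z).card : ℝ≥0∞)}, Ψ z ≤
      ((K : ℝ≥0∞)⁻¹ * (ENNReal.ofReal a * n2)) ^ (3 / 4 : ℝ) * q := by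
    have h := H586.Exc.exc_big hH hact hG hfe hfe1
      (X := {z | (K : ℝ≥0∞) ≤ ((act X z).card : ℝ≥0∞)})
      (measurableSet_le measurable_const (meas_card X)) (hocc _) (K := K)
      (by exact_mod_cast (by omega : K ≠ 0)) (ENNReal.natCast_ne_top K) (fun z hz => hz)
    rw [lint_tilt4 X hg, mul_left_comm] at h
    exact h
  -- small sets
  have h3 : ∀ T : Set (ℝ × ℝ), MeasurableSet T → ∫⁻ z in T, Ψ z ≤
      (ENNReal.ofReal a * (volume T ^ (1 / 2 : ℝ) * n2 ^ (1 / 2 : ℝ))) ^ (3 / 4 : ℝ) * q := by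
    intro T hT
    have h := H586.Exc.exc_small hH hact hG hfe hfe1 (X := T) hT (hocc T)
    rw [lint_tilt4 X hg] at h
    refine h.trans ?_
    gcongr
    exact setLIntegral_le_lintegral _ _
  have h4 : ∫⁻ z in Uns X θ, Ψ z ≤
      (ENNReal.ofReal (8 * θ) ^ (1 / 2 : ℝ) * (ENNReal.ofReal a * n2)) ^ (3 / 4 : ℝ) * q := by
    refine (h3 _ (uns_meas X θ)).trans ?_
    gcongr ?_ ^ (3 / 4 : ℝ) * _
    have hv := uns_vol hX hθ0 hθ1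
    calc ENNReal.ofReal a * (volume (Uns X θ) ^ (1 / 2 : ℝ) * n2 ^ (1 / 2 : ℝ))
        ≤ ENNReal.ofReal a * ((ENNReal.ofReal (8 * θ) * n2) ^ (1 / 2 : ℝ) * n2 ^ (1 / 2 : ℝ)) := by
          gcongr
      _ = ENNReal.ofReal (8 * θ) ^ (1 / 2 : ℝ) *
          (ENNReal.ofReal a * (n2 ^ (1 / 2 : ℝ) * n2 ^ (1 / 2 : ℝ))) := by
          rw [ENNReal.mul_rpow_of_nonneg _ _ (by norm_num)]
          ring
      _ = _ := by
          rw [← ENNReal.rpow_add_of_nonneg _ _ (by norm_num) (by norm_num)]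
          norm_num
  have h5 : ∫⁻ z in D, Ψ z ≤
      ((ENNReal.ofReal a * volume D) ^ (1 / 2 : ℝ) *
          (ENNReal.ofReal a * n2) ^ (1 / 2 : ℝ)) ^ (3 / 4 : ℝ) * q := by
    refine (h3 _ hD).trans (le_of_eq ?_)
    congr 2
    rw [ENNReal.mul_rpow_of_nonneg _ _ (by norm_num), ENNReal.mul_rpow_of_nonneg _ _ (by norm_num),
      mul_mul_mul_comm, ← ENNReal.rpow_add_of_nonneg _ _ (by norm_num) (by norm_num)]
    norm_num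
  have hcov : (univ : Set (ℝ × ℝ)) ⊆ Good X M0 K θ D ∪ ({z | ((act X z).card : ℝ≥0∞) ≤ M0} ∪
      ({z | (K : ℝ≥0∞) ≤ ((act X z).card : ℝ≥0∞)} ∪ (Uns X θ ∪ D))) := by
    intro z _
    by_cases c1 : ((act X z).card : ℝ≥0∞) ≤ M0
    · exact Or.inr (Or.inl c1)
    by_cases c2 : (K : ℝ≥0∞) ≤ ((act X z).card : ℝ≥0∞)
    · exact Or.inr (Or.inr (Or.inl c2))
    by_cases c3 : z ∈ Uns X θ
    · exact Or.inr (Or.inr (Or.inr (Or.inl c3)))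
    by_cases c4 : z ∈ D
    · exact Or.inr (Or.inr (Or.inr (Or.inr c4)))
    · exact Or.inl ⟨⟨⟨(not_le.1 c1).le, (not_le.1 c2).le⟩, c3⟩, c4⟩
  calc ∫⁻ z, Φ z = ∫⁻ z in univ, Φ z := by rw [Measure.restrict_univ]
    _ ≤ ∫⁻ z in Good X M0 K θ D ∪ ({z | ((act X z).card : ℝ≥0∞) ≤ M0} ∪
      ({z | (K : ℝ≥0∞) ≤ ((act X z).card : ℝ≥0∞)} ∪ (Uns X θ ∪ D))), Φ z := lintegral_mono_set hcov
    _ ≤ (∫⁻ z in Good X M0 K θ D, Φ z) + ((∫⁻ z in {z | ((act X z).card : ℝ≥0∞) ≤ M0}, Φ z) +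
        ((∫⁻ z in {z | (K : ℝ≥0∞) ≤ ((act X z).card : ℝ≥0∞)}, Φ z) +
          ((∫⁻ z in Uns X θ, Φ z) + ∫⁻ z in D, Φ z))) := by
        refine (lintegral_union_le _ _ _).trans (add_le_add le_rfl ?_)
        refine (lintegral_union_le _ _ _).trans (add_le_add le_rfl ?_)
        refine (lintegral_union_le _ _ _).trans (add_le_add le_rfl ?_)
        exact lintegral_union_le _ _ _
    _ ≤ volume {z | f z ≠ 0} ^ (1 / 2 : ℝ) *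
        (∫⁻ z in Good X M0 K θ D, Wa H (fun w => ‖Gz X g z w‖ₑ ^ 2) z) ^ (1 / 2 : ℝ) +
        ((M0 * volume {z | f z ≠ 0}) ^ (3 / 4 : ℝ) * q +
        (((K : ℝ≥0∞)⁻¹ * (ENNReal.ofReal a * n2)) ^ (3 / 4 : ℝ) * q +
        ((ENNReal.ofReal (8 * θ) ^ (1 / 2 : ℝ) * (ENNReal.ofReal a * n2)) ^ (3 / 4 : ℝ) * q +
        ((ENNReal.ofReal a * volume D) ^ (1 / 2 : ℝ) *
          (ENNReal.ofReal a * n2) ^ (1 / 2 : ℝ)) ^ (3 / 4 : ℝ) * q))) := by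
        refine add_le_add (good_CS hH hg hC hf hf1 _) (add_le_add ?_ (add_le_add ?_
          (add_le_add ?_ ?_)))
        · exact (lintegral_mono hΦΨ).trans h1
        · exact (lintegral_mono hΦΨ).trans h2
        · exact (lintegral_mono hΦΨ).trans h4
        · exact (lintegral_mono hΦΨ).trans h5
    _ = _ := by ring

end Vale.Agent.P112.T580.Ana
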