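import Vale.Agent.P112.T580.Ana2

/-!
# P112 [ANA-CORE], part 3: the explicit inequality from `Out`
-/

open MeasureTheory Set
open scoped ENNReal Real

noncomputable section

namespace Vale.Agent.P112.T580.Ana

open Vale.Agent.P112.H371 (Gb Wa Gb_meas Wa_meas lint_Wa_all Wa_eq)
open Vale.Agent.P112.H646 (Sys Arc)
open Vale.Agent.P112.H646.Gain (Out Osc big)
open Vale.Agent.P112.H8 (Bxs)
open Lev

theorem act_eq {ι κ : Type} [Fintype ι] (X : Bxs ι κ) (z : ℝ × ℝ) :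
    H646.Gain.act X z = act X z := rfl

/-- the bound of the energy of the good windows, divided by `V` -/
def TT (K M0 : ℕ) (R H0 θ e k0 p β : ℝ) : ℝ :=
  K * ((8 * k0 / H0 + 8 / H0 ^ 2 + 2 * k0 ^ 2) * R) +
  2 * (K * (8 * θ * (8 * R) ^ 2 + 2 * e)) +
  2 * ((2 * (8 * R) ^ 2) ^ (1 / 2 : ℝ) * ((R * (2 * p) ^ 3) ^ (2 : ℝ) *
    ((M0 : ℝ) ^ (-((2 * p * (1 - β) - 1) / (p - 1))) * (2 * R)) ^ (1 - 1 / p)) ^ (1 / 2 : ℝ))

theorem TT_nonneg {K M0 : ℕ} {R H0 θ e k0 p β : ℝ} (hR : 0 ≤ R) (hH : 0 < H0) (hθ : 0 ≤ θ)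
    (he : 0 ≤ e) (hk : 0 ≤ k0) (hp : 0 ≤ p) : 0 ≤ TT K M0 R H0 θ e k0 p β := by
  unfold TT
  positivity

/-- real exponents -/
theorem rp {x p : ℝ} (hx : 0 ≤ x) (hp : 0 ≤ p) : ENNReal.ofReal x ^ p = ENNReal.ofReal (x ^ p) :=
  ENNReal.ofReal_rpow_of_nonneg hx hp

/-- the conclusion of `level` in numbers -/
theorem level_num {K M0 : ℕ} {R H0 θ e k0 p β V Cc a : ℝ} {S1 S2 Sgs S2p n2 : ℝ≥0∞}
    (hV : 0 < V) (hR : 1 ≤ R) (hH : 0 < H0) (hθ : 0 ≤ θ) (he : 0 ≤ e) (hk : 0 < k0) (hp : 1 < p)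
    (hM0 : 1 ≤ M0) (hCc : Cc ≤ 2)
    (h1 : S1 ≤ ENNReal.ofReal R * ENNReal.ofReal V)
    (h2 : S2 ≤ ENNReal.ofReal ((8 * R) ^ 2 * V))
    (hgs : Sgs ≤ ENNReal.ofReal e * ENNReal.ofReal V)
    (h2p : S2p ≤ ENNReal.ofReal ((R * (2 * p) ^ 3) ^ (2 * p)) * ENNReal.ofReal V)
    (hn2 : ENNReal.ofReal a * n2 ≤ ENNReal.ofReal (2 * R * V)) :
    K * (ENNReal.ofReal (8 * k0 / H0 + 8 / H0 ^ 2 + 2 * k0 ^ 2) * S1) +
      2 * (K * (ENNReal.ofReal (8 * θ) * S2 + 2 * Sgs)) +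
      2 * ((ENNReal.ofReal Cc * S2) ^ (1 / 2 : ℝ) *
        (S2p ^ (1 / p) *
          ((M0 : ℝ≥0∞) ^ (-((2 * p * (1 - β) - 1) / (p - 1))) *
            (ENNReal.ofReal a * n2)) ^ (1 - 1 / p)) ^ (1 / 2 : ℝ)) ≤
      ENNReal.ofReal (TT K M0 R H0 θ e k0 p β * V) := by
  have hp0 : 0 < p := by linarith
  have hR0 : 0 ≤ R := by linarith
  have hM0' : (0 : ℝ) < M0 := by exact_mod_cast hM0
  have hpp : 0 ≤ 1 - 1 / p := by rw [sub_nonneg, div_le_one hp0]; exact hp.le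
  have hM : (M0 : ℝ≥0∞) ^ (-((2 * p * (1 - β) - 1) / (p - 1))) =
      ENNReal.ofReal ((M0 : ℝ) ^ (-((2 * p * (1 - β) - 1) / (p - 1)))) := by
    rw [← ENNReal.ofReal_rpow_of_pos hM0', ENNReal.ofReal_natCast]
  set x0 : ℝ := (M0 : ℝ) ^ (-((2 * p * (1 - β) - 1) / (p - 1))) with hx0
  have hx0n : 0 ≤ x0 := by positivity
  -- first term
  have t1 : (K : ℝ≥0∞) * (ENNReal.ofReal (8 * k0 / H0 + 8 / H0 ^ 2 + 2 * k0 ^ 2) * S1) ≤
      ENNReal.ofReal (K * ((8 * k0 / H0 + 8 / H0 ^ 2 + 2 * k0 ^ 2) * R) * V) := by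
    calc (K : ℝ≥0∞) * (ENNReal.ofReal (8 * k0 / H0 + 8 / H0 ^ 2 + 2 * k0 ^ 2) * S1)
        ≤ ENNReal.ofReal K * (ENNReal.ofReal (8 * k0 / H0 + 8 / H0 ^ 2 + 2 * k0 ^ 2) *
          (ENNReal.ofReal R * ENNReal.ofReal V)) := by
          rw [ENNReal.ofReal_natCast]
          gcongr
      _ = _ := by
          rw [← ENNReal.ofReal_mul hR0, ← ENNReal.ofReal_mul (by positivity),
            ← ENNReal.ofReal_mul (by positivity)]
          congr 1
          ring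
  have two : (2 : ℝ≥0∞) = ENNReal.ofReal 2 := by norm_num
  -- second term
  have t2 : 2 * ((K : ℝ≥0∞) * (ENNReal.ofReal (8 * θ) * S2 + 2 * Sgs)) ≤
      ENNReal.ofReal (2 * (K * (8 * θ * (8 * R) ^ 2 + 2 * e)) * V) := by
    calc 2 * ((K : ℝ≥0∞) * (ENNReal.ofReal (8 * θ) * S2 + 2 * Sgs))
        ≤ ENNReal.ofReal 2 * (ENNReal.ofReal K * (ENNReal.ofReal (8 * θ) *
          ENNReal.ofReal ((8 * R) ^ 2 * V) +
          ENNReal.ofReal 2 * (ENNReal.ofReal e * ENNReal.ofReal V))) := by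
          rw [ENNReal.ofReal_natCast, ← two]
          gcongr
      _ = _ := by
          rw [← ENNReal.ofReal_mul he, ← ENNReal.ofReal_mul (by positivity),
            ← ENNReal.ofReal_mul (by positivity), ← ENNReal.ofReal_add (by positivity)
              (by positivity), ← ENNReal.ofReal_mul (by positivity),
            ← ENNReal.ofReal_mul (by positivity)]
          congr 1
          ring
  -- third term
  have t3 : 2 * ((ENNReal.ofReal Cc * S2) ^ (1 / 2 : ℝ) *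
        (S2p ^ (1 / p) * (ENNReal.ofReal x0 * (ENNReal.ofReal a * n2)) ^ (1 - 1 / p)) ^
          (1 / 2 : ℝ)) ≤
      ENNReal.ofReal (2 * ((2 * (8 * R) ^ 2) ^ (1 / 2 : ℝ) * ((R * (2 * p) ^ 3) ^ (2 : ℝ) *
        (x0 * (2 * R)) ^ (1 - 1 / p)) ^ (1 / 2 : ℝ)) * V) := by
    have a1 : (ENNReal.ofReal Cc * S2) ^ (1 / 2 : ℝ) ≤
        ENNReal.ofReal ((2 * (8 * R) ^ 2) ^ (1 / 2 : ℝ) * V ^ (1 / 2 : ℝ)) := by
      calc (ENNReal.ofReal Cc * S2) ^ (1 / 2 : ℝ)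
          ≤ (ENNReal.ofReal 2 * ENNReal.ofReal ((8 * R) ^ 2 * V)) ^ (1 / 2 : ℝ) := by gcongr
        _ = _ := by
            rw [← ENNReal.ofReal_mul (by norm_num), rp (by positivity) (by norm_num),
              ← mul_assoc, Real.mul_rpow (by positivity) hV.le]
    have a2 : S2p ^ (1 / p) ≤ ENNReal.ofReal ((R * (2 * p) ^ 3) ^ (2 : ℝ) * V ^ (1 / p)) := by
      calc S2p ^ (1 / p) ≤ (ENNReal.ofReal ((R * (2 * p) ^ 3) ^ (2 * p)) *
            ENNReal.ofReal V) ^ (1 / p) := by gcongr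
        _ = _ := by
            rw [← ENNReal.ofReal_mul (by positivity), rp (by positivity) (by positivity),
              Real.mul_rpow (by positivity) hV.le, ← Real.rpow_mul (by positivity)]
            congr 3
            field_simp
    have a3 : (ENNReal.ofReal x0 * (ENNReal.ofReal a * n2)) ^ (1 - 1 / p) ≤
        ENNReal.ofReal ((x0 * (2 * R)) ^ (1 - 1 / p) * V ^ (1 - 1 / p)) := by
      calc (ENNReal.ofReal x0 * (ENNReal.ofReal a * n2)) ^ (1 - 1 / p)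
          ≤ (ENNReal.ofReal x0 * ENNReal.ofReal (2 * R * V)) ^ (1 - 1 / p) := by gcongr
        _ = _ := by
            rw [← ENNReal.ofReal_mul hx0n, rp (by positivity) hpp, ← Real.mul_rpow (by positivity)
              hV.le]
            congr 2
            ring
    calc 2 * ((ENNReal.ofReal Cc * S2) ^ (1 / 2 : ℝ) *
        (S2p ^ (1 / p) * (ENNReal.ofReal x0 * (ENNReal.ofReal a * n2)) ^ (1 - 1 / p)) ^
          (1 / 2 : ℝ))
        ≤ ENNReal.ofReal 2 * (ENNReal.ofReal ((2 * (8 * R) ^ 2) ^ (1 / 2 : ℝ) * V ^ (1 / 2 : ℝ)) *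
          (ENNReal.ofReal ((R * (2 * p) ^ 3) ^ (2 : ℝ) * V ^ (1 / p)) *
            ENNReal.ofReal ((x0 * (2 * R)) ^ (1 - 1 / p) * V ^ (1 - 1 / p))) ^ (1 / 2 : ℝ)) := by
          rw [← two]
          gcongr
      _ = _ := by
          rw [← ENNReal.ofReal_mul (by positivity), rp (by positivity) (by norm_num),
            ← ENNReal.ofReal_mul (by positivity), ← ENNReal.ofReal_mul (by norm_num)]
          congr 1
          have e1 : (R * (2 * p) ^ 3) ^ (2 : ℝ) * V ^ (1 / p) *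
              ((x0 * (2 * R)) ^ (1 - 1 / p) * V ^ (1 - 1 / p)) =
              (R * (2 * p) ^ 3) ^ (2 : ℝ) * (x0 * (2 * R)) ^ (1 - 1 / p) * V := by
            have : V ^ (1 / p) * V ^ (1 - 1 / p) = V := by
              rw [← Real.rpow_add hV]
              simp
            calc _ = (R * (2 * p) ^ 3) ^ (2 : ℝ) * (x0 * (2 * R)) ^ (1 - 1 / p) *
                  (V ^ (1 / p) * V ^ (1 - 1 / p)) := by ring
              _ = _ := by rw [this]
          have e2 : V ^ (1 / 2 : ℝ) * V ^ (1 / 2 : ℝ) = V := by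
            rw [← Real.rpow_add hV]
            norm_num
          rw [e1, Real.mul_rpow (by positivity) hV.le]
          calc _ = 2 * ((2 * (8 * R) ^ 2) ^ (1 / 2 : ℝ) * ((R * (2 * p) ^ 3) ^ (2 : ℝ) *
                (x0 * (2 * R)) ^ (1 - 1 / p)) ^ (1 / 2 : ℝ)) *
                (V ^ (1 / 2 : ℝ) * V ^ (1 / 2 : ℝ)) := by ring
            _ = _ := by rw [e2]
  rw [hM]
  refine (add_le_add (add_le_add t1 t2) t3).trans (le_of_eq ?_)
  rw [← ENNReal.ofReal_add (by positivity) (by positivity), ← ENNReal.ofReal_add (by positivity)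
    (by positivity)]
  congr 1
  unfold TT
  rw [← hx0]
  ring

/-- the exceptional windows in numbers -/
theorem exc_num {K M0 : ℕ} {R V y θ D : ℝ} {v n4 an vD : ℝ≥0∞}
    (hV : 0 < V) (hR : 1 ≤ R) (hy : 0 ≤ y) (hθ : 0 ≤ θ) (hD : 0 ≤ D) (hK : 1 ≤ K)
    (hv : v = ENNReal.ofReal (y * V))
    (h4 : n4 ≤ ENNReal.ofReal ((64 * R) ^ 4 * V))
    (han : an ≤ ENNReal.ofReal (2 * R * V))
    (hvD : vD ≤ ENNReal.ofReal (2 * R * D * V)) :
    ((M0 * v) ^ (3 / 4 : ℝ) + ((K : ℝ≥0∞)⁻¹ * an) ^ (3 / 4 : ℝ) +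
        (ENNReal.ofReal (8 * θ) ^ (1 / 2 : ℝ) * an) ^ (3 / 4 : ℝ) +
        (vD ^ (1 / 2 : ℝ) * an ^ (1 / 2 : ℝ)) ^ (3 / 4 : ℝ)) * n4 ^ (1 / 4 : ℝ) ≤
      ENNReal.ofReal (64 * R * ((M0 * y) ^ (3 / 4 : ℝ) + (2 * R / K) ^ (3 / 4 : ℝ) +
        ((8 * θ) ^ (1 / 2 : ℝ) * (2 * R)) ^ (3 / 4 : ℝ) +
        (2 * R * D ^ (1 / 2 : ℝ)) ^ (3 / 4 : ℝ)) * V) := by
  have hR0 : 0 < R := by linarith
  have hK' : (0 : ℝ) < K := by exact_mod_cast hK
  have hKi : (K : ℝ≥0∞)⁻¹ = ENNReal.ofReal ((K : ℝ)⁻¹) := by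
    rw [ENNReal.ofReal_inv_of_pos hK', ENNReal.ofReal_natCast]
  have b1 : ((M0 : ℝ≥0∞) * v) ^ (3 / 4 : ℝ) ≤
      ENNReal.ofReal ((M0 * y) ^ (3 / 4 : ℝ) * V ^ (3 / 4 : ℝ)) := by
    rw [hv, ← ENNReal.ofReal_natCast, ← ENNReal.ofReal_mul (by positivity),
      rp (by positivity) (by norm_num), ← mul_assoc, Real.mul_rpow (by positivity) hV.le]
  have b2 : ((K : ℝ≥0∞)⁻¹ * an) ^ (3 / 4 : ℝ) ≤
      ENNReal.ofReal ((2 * R / K) ^ (3 / 4 : ℝ) * V ^ (3 / 4 : ℝ)) := by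
    calc ((K : ℝ≥0∞)⁻¹ * an) ^ (3 / 4 : ℝ)
        ≤ (ENNReal.ofReal ((K : ℝ)⁻¹) * ENNReal.ofReal (2 * R * V)) ^ (3 / 4 : ℝ) := by
          rw [hKi]
          gcongr
      _ = _ := by
          rw [← ENNReal.ofReal_mul (by positivity), rp (by positivity) (by norm_num),
            ← Real.mul_rpow (by positivity) hV.le]
          congr 2
          ring
  have b3 : (ENNReal.ofReal (8 * θ) ^ (1 / 2 : ℝ) * an) ^ (3 / 4 : ℝ) ≤
      ENNReal.ofReal (((8 * θ) ^ (1 / 2 : ℝ) * (2 * R)) ^ (3 / 4 : ℝ) * V ^ (3 / 4 : ℝ)) := by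
    calc (ENNReal.ofReal (8 * θ) ^ (1 / 2 : ℝ) * an) ^ (3 / 4 : ℝ)
        ≤ (ENNReal.ofReal ((8 * θ) ^ (1 / 2 : ℝ)) * ENNReal.ofReal (2 * R * V)) ^ (3 / 4 : ℝ) := by
          rw [rp (by positivity) (by norm_num)]
          gcongr
      _ = _ := by
          rw [← ENNReal.ofReal_mul (by positivity), rp (by positivity) (by norm_num),
            ← Real.mul_rpow (by positivity) hV.le]
          congr 2
          ring
  have b4 : (vD ^ (1 / 2 : ℝ) * an ^ (1 / 2 : ℝ)) ^ (3 / 4 : ℝ) ≤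
      ENNReal.ofReal ((2 * R * D ^ (1 / 2 : ℝ)) ^ (3 / 4 : ℝ) * V ^ (3 / 4 : ℝ)) := by
    calc (vD ^ (1 / 2 : ℝ) * an ^ (1 / 2 : ℝ)) ^ (3 / 4 : ℝ)
        ≤ (ENNReal.ofReal (2 * R * D * V) ^ (1 / 2 : ℝ) *
          ENNReal.ofReal (2 * R * V) ^ (1 / 2 : ℝ)) ^ (3 / 4 : ℝ) := by gcongr
      _ = _ := by
          rw [rp (by positivity) (by norm_num), rp (by positivity) (by norm_num),
            ← ENNReal.ofReal_mul (by positivity), rp (by positivity) (by norm_num),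
            ← Real.mul_rpow (by positivity) hV.le]
          congr 2
          have e1 : (2 * R * D * V) ^ (1 / 2 : ℝ) = D ^ (1 / 2 : ℝ) * (2 * R * V) ^ (1 / 2 : ℝ) := by
            rw [← Real.mul_rpow hD (by positivity)]
            congr 1
            ring
          have e2 : (2 * R * V) ^ (1 / 2 : ℝ) * (2 * R * V) ^ (1 / 2 : ℝ) = 2 * R * V := by
            rw [← Real.rpow_add (by positivity)]
            norm_num
          rw [e1, mul_assoc, e2]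
          ring
  have b5 : n4 ^ (1 / 4 : ℝ) ≤ ENNReal.ofReal (64 * R * V ^ (1 / 4 : ℝ)) := by
    calc n4 ^ (1 / 4 : ℝ) ≤ ENNReal.ofReal ((64 * R) ^ 4 * V) ^ (1 / 4 : ℝ) := by gcongr
      _ = _ := by
          rw [rp (by positivity) (by norm_num), Real.mul_rpow (by positivity) hV.le]
          congr 2
          rw [← Real.rpow_natCast, ← Real.rpow_mul (by positivity)]
          norm_num
  have e3 : V ^ (3 / 4 : ℝ) * V ^ (1 / 4 : ℝ) = V := by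
    rw [← Real.rpow_add hV]
    norm_num
  refine (mul_le_mul' (add_le_add (add_le_add (add_le_add b1 b2) b3) b4) b5).trans (le_of_eq ?_)
  rw [← ENNReal.ofReal_add (by positivity) (by positivity), ← ENNReal.ofReal_add (by positivity)
    (by positivity), ← ENNReal.ofReal_add (by positivity) (by positivity),
    ← ENNReal.ofReal_mul (by positivity)]
  congr 1
  calc _ = 64 * R * ((M0 * y) ^ (3 / 4 : ℝ) + (2 * R / K) ^ (3 / 4 : ℝ) +
        ((8 * θ) ^ (1 / 2 : ℝ) * (2 * R)) ^ (3 / 4 : ℝ) +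
        (2 * R * D ^ (1 / 2 : ℝ)) ^ (3 / 4 : ℝ)) * (V ^ (3 / 4 : ℝ) * V ^ (1 / 4 : ℝ)) := by ring
    _ = _ := by rw [e3]

end Vale.Agent.P112.T580.Ana
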