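import Vale.Agent.P112.T580.Ana4
import Vale.Agent.P112.H646.AnaNum

/-!
# P112: the analytic side, numbers (insurance)
-/

open MeasureTheory Set Filter
open scoped ENNReal Real

noncomputable section

namespace Vale.Agent.P112.T580.AnaN

open Vale.Agent.P112.T580.Ana
open Vale.Agent.P112.H172

/-- the third term of `TT` -/
theorem third_le {R p : ℝ} {M0 : ℕ} {g : ℝ} (hR : 1 ≤ R) (hp : 1 < p) (hM0 : 1 ≤ M0)
    (hg : g = 1 / (p - 1)) :
    2 * ((2 * (8 * R) ^ 2) ^ (1 / 2 : ℝ) * ((R * (2 * p) ^ 3) ^ (2 : ℝ) *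
      ((M0 : ℝ) ^ (-g) * (2 * R)) ^ (1 - 1 / p)) ^ (1 / 2 : ℝ)) ≤
      384 * R ^ 3 * p ^ 3 * (M0 : ℝ) ^ (-(1 / (2 * p))) := by
  have hR0 : 0 < R := by linarith
  have hp0 : 0 < p := by linarith
  have hp1 : 0 < p - 1 := by linarith
  have hM : (0 : ℝ) < M0 := by exact_mod_cast hM0
  have e1 : (2 * (8 * R) ^ 2) ^ (1 / 2 : ℝ) ≤ 12 * R := by
    rw [← Real.sqrt_eq_rpow]
    apply Real.sqrt_le_iff.2
    refine ⟨by positivity, ?_⟩
    nlinarith
  have e2 : ((R * (2 * p) ^ 3) ^ (2 : ℝ) * ((M0 : ℝ) ^ (-g) * (2 * R)) ^ (1 - 1 / p)) ^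
      (1 / 2 : ℝ) ≤ 16 * R ^ 2 * p ^ 3 * (M0 : ℝ) ^ (-(1 / (2 * p))) := by
    have h0 : ((M0 : ℝ) ^ (-g) * (2 * R)) ^ ((1 - 1 / p) * (1 / 2)) =
        (M0 : ℝ) ^ (-g * ((1 - 1 / p) * (1 / 2))) * (2 * R) ^ ((1 - 1 / p) * (1 / 2)) := by
      rw [Real.mul_rpow (Real.rpow_nonneg hM.le _) (by positivity), ← Real.rpow_mul hM.le]
    rw [Real.mul_rpow (Real.rpow_nonneg (by positivity) _) (Real.rpow_nonneg (by positivity) _),
      ← Real.rpow_mul (by positivity), ← Real.rpow_mul (by positivity), h0]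
    have h1 : (R * (2 * p) ^ 3) ^ ((2 : ℝ) * (1 / 2)) = 8 * R * p ^ 3 := by
      rw [show (2 : ℝ) * (1 / 2) = 1 by norm_num, Real.rpow_one]
      ring
    have h2 : -g * ((1 - 1 / p) * (1 / 2)) = -(1 / (2 * p)) := by
      rw [hg]
      field_simp
    have h3 : (2 * R) ^ ((1 - 1 / p) * (1 / 2)) ≤ 2 * R := by
      calc (2 * R) ^ ((1 - 1 / p) * (1 / 2)) ≤ (2 * R) ^ (1 : ℝ) := by
            apply Real.rpow_le_rpow_of_exponent_le (by linarith)
            have : 0 < 1 / p := by positivity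
            linarith
        _ = _ := Real.rpow_one _
    rw [h1, h2]
    calc 8 * R * p ^ 3 * ((M0 : ℝ) ^ (-(1 / (2 * p))) * (2 * R) ^ ((1 - 1 / p) * (1 / 2)))
        ≤ 8 * R * p ^ 3 * ((M0 : ℝ) ^ (-(1 / (2 * p))) * (2 * R)) := by gcongr
      _ = _ := by ring
  calc _ ≤ 2 * (12 * R * (16 * R ^ 2 * p ^ 3 * (M0 : ℝ) ^ (-(1 / (2 * p))))) := by gcongr
    _ = _ := by ring

/-- `TT` is small -/
theorem TT_le {K M0 : ℕ} {R H0 t e p β L : ℝ} (hL : 1 ≤ L) (hR : 1 ≤ R) (hp : 1 < p)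
    (hpβ : 2 * p * (1 - β) = 2) (hM0 : 1 ≤ M0) (hM : Real.exp (L / 10) ≤ M0)
    (hK : (K : ℝ) ≤ Real.exp (3 * L)) (ht0 : 0 ≤ t) (ht : t ≤ Real.exp (-(8 * L)))
    (hH0 : Real.exp (8 * L) ≤ H0) (he : e ≤ R ^ 2 * Real.exp (-(8 * L))) :
    TT K M0 R H0 t e t p β ≤ 2000 * R ^ 3 * p ^ 3 * Real.exp (-(L / (20 * p))) := by
  have hR0 : 0 < R := by linarith
  have hp0 : 0 < p := by linarith
  have hH : 0 < H0 := (Real.exp_pos _).trans_le hH0
  have hM1 : (0 : ℝ) < M0 := by exact_mod_cast hM0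
  set X := Real.exp (-(8 * L)) with hX
  have hX0 : 0 < X := Real.exp_pos _
  have hX1 : X ≤ 1 := Real.exp_le_one_iff.2 (by linarith)
  have h1H : 1 / H0 ≤ X := by
    rw [hX, Real.exp_neg, ← one_div]
    exact one_div_le_one_div_of_le (Real.exp_pos _) hH0
  have ht1 : t ≤ 1 := ht.trans hX1
  have hH1 : 1 / H0 ≤ 1 := h1H.trans hX1
  have hHn : 0 ≤ 1 / H0 := by positivity
  have a1 : 8 * t / H0 + 8 / H0 ^ 2 + 2 * t ^ 2 ≤ 18 * X := by
    have b1 : 8 * t / H0 = 8 * (t * (1 / H0)) := by ring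
    have b2 : 8 / H0 ^ 2 = 8 * ((1 / H0) * (1 / H0)) := by field_simp
    have b3 : t * (1 / H0) ≤ X := by nlinarith
    have b4 : (1 / H0) * (1 / H0) ≤ X := by nlinarith
    have b5 : t ^ 2 ≤ X := by nlinarith
    rw [b1, b2]
    linarith
  have hKX : (K : ℝ) * X ≤ Real.exp (-(L / (20 * p))) := by
    calc (K : ℝ) * X ≤ Real.exp (3 * L) * X := by gcongr
      _ = Real.exp (-(5 * L)) := by
          rw [hX, ← Real.exp_add]
          congr 1
          ring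
      _ ≤ _ := by
          apply Real.exp_le_exp.2
          rw [neg_le_neg_iff, div_le_iff₀ (by positivity)]
          nlinarith
  set E := Real.exp (-(L / (20 * p))) with hE
  have hE0 : 0 < E := Real.exp_pos _
  have hR3 : R ≤ R ^ 3 := le_self_pow₀ hR (by norm_num)
  have hR23 : R ^ 2 ≤ R ^ 3 := pow_le_pow_right₀ hR (by norm_num)
  have hp3 : 1 ≤ p ^ 3 := one_le_pow₀ hp.le
  have t1 : K * ((8 * t / H0 + 8 / H0 ^ 2 + 2 * t ^ 2) * R) ≤ 18 * (R ^ 3 * p ^ 3 * E) := by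
    calc K * ((8 * t / H0 + 8 / H0 ^ 2 + 2 * t ^ 2) * R) ≤ K * ((18 * X) * R) := by gcongr
      _ = 18 * (R * (K * X)) := by ring
      _ ≤ 18 * (R ^ 3 * E) := by gcongr
      _ ≤ _ := by
          have : R ^ 3 * 1 * E ≤ R ^ 3 * p ^ 3 * E := by gcongr
          linarith
  have t2 : 2 * (K * (8 * t * (8 * R) ^ 2 + 2 * e)) ≤ 1028 * (R ^ 3 * p ^ 3 * E) := by
    calc 2 * (K * (8 * t * (8 * R) ^ 2 + 2 * e)) ≤ 2 * (K * (8 * X * (8 * R) ^ 2 +
          2 * (R ^ 2 * X))) := by gcongr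
      _ = 1028 * (R ^ 2 * (K * X)) := by ring
      _ ≤ 1028 * (R ^ 3 * E) := by gcongr
      _ ≤ _ := by
          have : R ^ 3 * 1 * E ≤ R ^ 3 * p ^ 3 * E := by gcongr
          linarith
  have t3 := third_le (R := R) (p := p) (M0 := M0) (g := (2 * p * (1 - β) - 1) / (p - 1)) hR hp hM0
    (by rw [hpβ]; norm_num)
  have t4 : (M0 : ℝ) ^ (-(1 / (2 * p))) ≤ E := by
    calc (M0 : ℝ) ^ (-(1 / (2 * p))) ≤ Real.exp (L / 10) ^ (-(1 / (2 * p))) :=
          Real.rpow_le_rpow_of_nonpos (Real.exp_pos _) hM (by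
            have : 0 < 1 / (2 * p) := by positivity
            linarith)
      _ = E := by
          rw [← Real.exp_mul, hE]
          congr 1
          field_simp
          norm_num
  have t5 : 384 * R ^ 3 * p ^ 3 * (M0 : ℝ) ^ (-(1 / (2 * p))) ≤ 384 * (R ^ 3 * p ^ 3 * E) := by
    calc _ ≤ 384 * R ^ 3 * p ^ 3 * E := by gcongr
      _ = _ := by ring
  unfold TT
  have : 0 ≤ R ^ 3 * p ^ 3 * E := by positivity
  linarith

theorem tq_le {a b : ℝ} (ha : 1 ≤ a) : (a * Real.exp (-b)) ^ (3 / 4 : ℝ) ≤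
    a * Real.exp (-(3 / 4 * b)) := by
  rw [Real.mul_rpow (by linarith) (Real.exp_pos _).le, ← Real.exp_mul]
  have h1 : a ^ (3 / 4 : ℝ) ≤ a := by
    calc a ^ (3 / 4 : ℝ) ≤ a ^ (1 : ℝ) := Real.rpow_le_rpow_of_exponent_le ha (by norm_num)
      _ = a := Real.rpow_one _
  have h2 : -b * (3 / 4) = -(3 / 4 * b) := by ring
  rw [h2]
  gcongr

/-- `EE` is small -/
theorem EE_le {K M0 : ℕ} {R θ D L : ℝ} (hL : 1 ≤ L) (hR : 1 ≤ R)
    (hM : (M0 : ℝ) ≤ 2 * Real.exp (L / 10)) (hK : Real.exp (2 * L) ≤ K)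
    (hθ0 : 0 ≤ θ) (hθ : θ ≤ Real.exp (-(8 * L)) / 2) (hD0 : 0 ≤ D)
    (hD : D ≤ Real.exp (-(8 * L))) :
    EE K M0 R (Real.exp (-L)) θ D ≤ Real.exp (-L / 2) * (640 * R ^ 2 * Real.exp (-(L / 8))) := by
  have hR0 : 0 < R := by linarith
  have hK0 : (0 : ℝ) < K := (Real.exp_pos _).trans_le hK
  have hX : Real.exp (-(8 * L)) = Real.exp (-(4 * L)) ^ 2 := by
    rw [← Real.exp_nat_mul]
    congr 1
    push_cast
    ring
  set E := Real.exp (-L / 2) * Real.exp (-(L / 8)) with hE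
  have hE' : E = Real.exp (-(5 / 8 * L)) := by
    rw [hE, ← Real.exp_add]
    congr 1
    ring
  have c1 : ((M0 : ℝ) * Real.exp (-L)) ^ (3 / 4 : ℝ) ≤ 2 * E := by
    calc ((M0 : ℝ) * Real.exp (-L)) ^ (3 / 4 : ℝ)
        ≤ (2 * Real.exp (-(9 / 10 * L))) ^ (3 / 4 : ℝ) := by
          apply Real.rpow_le_rpow (by positivity) _ (by norm_num)
          calc (M0 : ℝ) * Real.exp (-L) ≤ 2 * Real.exp (L / 10) * Real.exp (-L) := by gcongr
            _ = 2 * Real.exp (-(9 / 10 * L)) := by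
                rw [mul_assoc, ← Real.exp_add]
                congr 2
                ring
      _ ≤ 2 * Real.exp (-(3 / 4 * (9 / 10 * L))) := tq_le (by norm_num)
      _ ≤ 2 * E := by
          rw [hE']
          exact mul_le_mul_of_nonneg_left (Real.exp_le_exp.2 (by linarith)) (by norm_num)
  have c2 : (2 * R / K) ^ (3 / 4 : ℝ) ≤ 2 * R * E := by
    calc (2 * R / K) ^ (3 / 4 : ℝ) ≤ (2 * R * Real.exp (-(2 * L))) ^ (3 / 4 : ℝ) := by
          apply Real.rpow_le_rpow (by positivity) _ (by norm_num)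
          rw [Real.exp_neg, ← div_eq_mul_inv]
          gcongr
      _ ≤ 2 * R * Real.exp (-(3 / 4 * (2 * L))) := tq_le (by linarith)
      _ ≤ _ := by
          rw [hE']
          exact mul_le_mul_of_nonneg_left (Real.exp_le_exp.2 (by linarith)) (by positivity)
  have c3 : ((8 * θ) ^ (1 / 2 : ℝ) * (2 * R)) ^ (3 / 4 : ℝ) ≤ 4 * R * E := by
    calc ((8 * θ) ^ (1 / 2 : ℝ) * (2 * R)) ^ (3 / 4 : ℝ)
        ≤ (4 * R * Real.exp (-(4 * L))) ^ (3 / 4 : ℝ) := by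
          apply Real.rpow_le_rpow (by positivity) _ (by norm_num)
          have h1 : (8 * θ) ^ (1 / 2 : ℝ) ≤ 2 * Real.exp (-(4 * L)) := by
            rw [← Real.sqrt_eq_rpow]
            apply Real.sqrt_le_iff.2
            refine ⟨by positivity, ?_⟩
            rw [mul_pow, ← hX]
            linarith
          calc (8 * θ) ^ (1 / 2 : ℝ) * (2 * R) ≤ 2 * Real.exp (-(4 * L)) * (2 * R) := by gcongr
            _ = _ := by ring
      _ ≤ 4 * R * Real.exp (-(3 / 4 * (4 * L))) := tq_le (by linarith)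
      _ ≤ _ := by
          rw [hE']
          exact mul_le_mul_of_nonneg_left (Real.exp_le_exp.2 (by linarith)) (by positivity)
  have c4 : (2 * R * D ^ (1 / 2 : ℝ)) ^ (3 / 4 : ℝ) ≤ 2 * R * E := by
    calc (2 * R * D ^ (1 / 2 : ℝ)) ^ (3 / 4 : ℝ)
        ≤ (2 * R * Real.exp (-(4 * L))) ^ (3 / 4 : ℝ) := by
          apply Real.rpow_le_rpow (by positivity) _ (by norm_num)
          have h1 : D ^ (1 / 2 : ℝ) ≤ Real.exp (-(4 * L)) := by
            rw [← Real.sqrt_eq_rpow]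
            apply Real.sqrt_le_iff.2
            refine ⟨by positivity, ?_⟩
            rw [← hX]
            exact hD
          gcongr
      _ ≤ 2 * R * Real.exp (-(3 / 4 * (4 * L))) := tq_le (by linarith)
      _ ≤ _ := by
          rw [hE']
          exact mul_le_mul_of_nonneg_left (Real.exp_le_exp.2 (by linarith)) (by positivity)
  have hE0 : 0 < E := by rw [hE']; exact Real.exp_pos _
  unfold EE
  calc 64 * R * (((M0 : ℝ) * Real.exp (-L)) ^ (3 / 4 : ℝ) + (2 * R / K) ^ (3 / 4 : ℝ) +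
        ((8 * θ) ^ (1 / 2 : ℝ) * (2 * R)) ^ (3 / 4 : ℝ) + (2 * R * D ^ (1 / 2 : ℝ)) ^ (3 / 4 : ℝ))
      ≤ 64 * R * (2 * E + 2 * R * E + 4 * R * E + 2 * R * E) := by gcongr
    _ ≤ 64 * R * (2 * R * E + 2 * R * E + 4 * R * E + 2 * R * E) := by
        gcongr
        nlinarith
    _ = Real.exp (-L / 2) * (640 * R ^ 2 * Real.exp (-(L / 8))) := by
        rw [hE]
        ring

theorem root_le {T R p L : ℝ} (hR : 1 ≤ R) (hp : 1 < p)
    (hT : T ≤ 2000 * R ^ 3 * p ^ 3 * Real.exp (-(L / (20 * p)))) :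
    (Real.exp (-L) * T) ^ (1 / 2 : ℝ) ≤
      Real.exp (-L / 2) * (45 * R ^ 2 * p ^ 2 * Real.exp (-(L / (40 * p)))) := by
  have hR0 : 0 < R := by linarith
  have hp0 : 0 < p := by linarith
  rw [← Real.sqrt_eq_rpow]
  apply Real.sqrt_le_iff.2
  refine ⟨by positivity, ?_⟩
  have e1 : (Real.exp (-L / 2)) ^ 2 = Real.exp (-L) := by
    rw [← Real.exp_nat_mul]
    congr 1
    push_cast
    ring
  have e2 : (Real.exp (-(L / (40 * p)))) ^ 2 = Real.exp (-(L / (20 * p))) := by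
    rw [← Real.exp_nat_mul]
    congr 1
    push_cast
    field_simp
    ring
  rw [mul_pow, e1, mul_pow, e2]
  refine mul_le_mul_of_nonneg_left (hT.trans ?_) (Real.exp_pos _).le
  refine mul_le_mul_of_nonneg_right ?_ (Real.exp_pos _).le
  have h3 : R ^ 3 ≤ R ^ 4 := pow_le_pow_right₀ hR (by norm_num)
  have h4 : p ^ 3 ≤ p ^ 4 := pow_le_pow_right₀ hp.le (by norm_num)
  calc 2000 * R ^ 3 * p ^ 3 ≤ 2025 * R ^ 4 * p ^ 4 := by
        have h5 : R ^ 3 * p ^ 3 ≤ R ^ 4 * p ^ 4 := mul_le_mul h3 h4 (by positivity) (by positivity)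
        have h6 : 0 ≤ R ^ 4 * p ^ 4 := by positivity
        linarith
    _ = _ := by ring

theorem gain1 {C0 c0 lg L P : ℝ} {k0 B : ℕ} (hC : 40 / c0 ≤ C0) (hc0 : 0 < c0) (hC0 : 1 ≤ C0)
    (hlg : 1 ≤ lg) (hL : 0 < L) (hP : 1 ≤ P) (hk : 2 ≤ k0)
    (h : P * lg ^ k0 * Real.exp (-(L / C0 / lg)) * L ^ B ≤ 1) :
    L ^ B * lg ^ 2 * Real.exp (-(L / (40 * (lg / c0)))) ≤ 1 := by
  have hlg0 : 0 < lg := by linarith
  have hC00 : 0 < C0 := by linarith
  refine le_trans ?_ h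
  have h1 : Real.exp (-(L / (40 * (lg / c0)))) ≤ Real.exp (-(L / C0 / lg)) := by
    apply Real.exp_le_exp.2
    rw [neg_le_neg_iff]
    have h2 : L / (40 * (lg / c0)) = L * (c0 / 40) / lg := by field_simp
    rw [h2, div_eq_mul_inv L C0]
    have h3 : C0⁻¹ ≤ c0 / 40 := by
      rw [inv_le_comm₀ hC00 (by positivity), inv_div]
      exact hC
    exact div_le_div_of_nonneg_right (mul_le_mul_of_nonneg_left h3 hL.le) hlg0.le
  have h3 : lg ^ 2 ≤ lg ^ k0 := pow_le_pow_right₀ hlg hk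
  calc L ^ B * lg ^ 2 * Real.exp (-(L / (40 * (lg / c0))))
      ≤ L ^ B * lg ^ k0 * Real.exp (-(L / C0 / lg)) := by gcongr
    _ = 1 * lg ^ k0 * Real.exp (-(L / C0 / lg)) * L ^ B := by ring
    _ ≤ _ := by gcongr

theorem gain2 {C0 L P : ℝ} {B : ℕ} (hC0 : 8 ≤ C0) (hL : 0 < L) (hP : 1 ≤ P)
    (h : P * Real.exp (-(L / C0)) * L ^ B ≤ 1) : L ^ B * Real.exp (-(L / 8)) ≤ 1 := by
  refine le_trans ?_ h
  have h1 : Real.exp (-(L / 8)) ≤ Real.exp (-(L / C0)) := by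
    apply Real.exp_le_exp.2
    rw [neg_le_neg_iff]
    exact div_le_div_of_nonneg_left hL.le (by norm_num) hC0
  calc L ^ B * Real.exp (-(L / 8)) ≤ L ^ B * Real.exp (-(L / C0)) := by gcongr
    _ = 1 * Real.exp (-(L / C0)) * L ^ B := by ring
    _ ≤ _ := by gcongr

theorem final_real {I n T1 E1 R p c0 lg L V Cc : ℝ} {a c B B' : ℕ} (hp : p = lg / c0)
    (hL : 1 ≤ L) (hV : 0 < V) (hc0 : 0 < c0) (hlg : 0 < lg) (hR : 1 ≤ R) (hT1 : 0 ≤ T1)
    (hE1 : 0 ≤ E1)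
    (hI : I ≤ n * (T1 + E1) * V) (hn : n ≤ 5 * L ^ a) (hRL : R ≤ L ^ c)
    (hB : B' = a + 2 * c + B)
    (h1 : T1 ≤ Real.exp (-L / 2) * (45 * R ^ 2 * p ^ 2 * Real.exp (-(L / (40 * p)))))
    (h2 : E1 ≤ Real.exp (-L / 2) * (640 * R ^ 2 * Real.exp (-(L / 8))))
    (g1 : L ^ B' * lg ^ 2 * Real.exp (-(L / (40 * (lg / c0)))) ≤ 1)
    (g2 : L ^ B' * Real.exp (-(L / 8)) ≤ 1) (hC : 225 / c0 ^ 2 + 3200 ≤ Cc) :
    I * L ^ B ≤ Cc * Real.exp (-L / 2) * V := by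
  have hR0 : 0 < R := by linarith
  have hL0 : 0 < L := by linarith
  have hR2 : R ^ 2 ≤ L ^ (2 * c) := by
    calc R ^ 2 ≤ (L ^ c) ^ 2 := pow_le_pow_left₀ hR0.le hRL 2
      _ = _ := by rw [← pow_mul]; congr 1; ring
  have hLB : L ^ a * L ^ (2 * c) * L ^ B = L ^ B' := by
    rw [hB, pow_add, pow_add]
  have hX : L ^ a * R ^ 2 * L ^ B ≤ L ^ B' := by
    rw [← hLB]
    gcongr
  have hp0 : 0 < p := by rw [hp]; positivity
  calc I * L ^ B ≤ (n * (T1 + E1) * V) * L ^ B := by gcongr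
    _ ≤ ((5 * L ^ a) * (Real.exp (-L / 2) * (45 * R ^ 2 * p ^ 2 * Real.exp (-(L / (40 * p)))) +
        Real.exp (-L / 2) * (640 * R ^ 2 * Real.exp (-(L / 8)))) * V) * L ^ B := by gcongr
    _ = (225 * (L ^ a * R ^ 2 * L ^ B) * p ^ 2 * Real.exp (-(L / (40 * p))) +
        3200 * (L ^ a * R ^ 2 * L ^ B) * Real.exp (-(L / 8))) * (Real.exp (-L / 2) * V) := by
        ring
    _ ≤ (225 * L ^ B' * p ^ 2 * Real.exp (-(L / (40 * p))) +
        3200 * L ^ B' * Real.exp (-(L / 8))) * (Real.exp (-L / 2) * V) := by gcongr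
    _ = (225 / c0 ^ 2 * (L ^ B' * lg ^ 2 * Real.exp (-(L / (40 * (lg / c0))))) +
        3200 * (L ^ B' * Real.exp (-(L / 8)))) * (Real.exp (-L / 2) * V) := by
        rw [hp]
        ring
    _ ≤ (225 / c0 ^ 2 * 1 + 3200 * 1) * (Real.exp (-L / 2) * V) := by gcongr
    _ ≤ Cc * (Real.exp (-L / 2) * V) := by
        gcongr
        linarith
    _ = _ := by ring

theorem lam_le {m : ℕ} {R L : ℝ} {c k0 : ℕ} (hR : 0 < R) (hL : 30 ≤ L) (hRL : R ≤ L ^ c)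
    (hk : k0 = c + 2) (hm : L ^ (2 * k0 + 2) ≤ m) :
    (2 : ℝ) ^ (-((m : ℝ) / R)) ≤ Real.exp (-(8 * L)) := by
  have hL0 : 0 < L := by linarith
  have h1 : 12 * L ≤ m / R := by
    rw [le_div_iff₀ hR]
    calc 12 * L * R ≤ 12 * L * L ^ c := by gcongr
      _ ≤ L * L * L ^ c := by gcongr; linarith
      _ = L ^ (c + 2) := by ring
      _ ≤ L ^ (2 * k0 + 2) := pow_le_pow_right₀ (by linarith) (by omega)
      _ ≤ m := hm
  rw [Real.rpow_def_of_pos (by norm_num)]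
  apply Real.exp_le_exp.2
  have h2 : (2 / 3 : ℝ) ≤ Real.log 2 := by linarith [Real.log_two_gt_d9]
  have h3 : (2 / 3) * (12 * L) ≤ Real.log 2 * (m / R) :=
    mul_le_mul h2 h1 (by positivity) (by linarith)
  linarith

theorem ee_le {e R L : ℝ} (hL : 3 ≤ L) (he : e = (R / 2 ^ H646.Gain.rr L) ^ 2) :
    e ≤ R ^ 2 * Real.exp (-(8 * L)) := by
  rw [he, div_pow, div_eq_mul_inv]
  refine mul_le_mul_of_nonneg_left ?_ (sq_nonneg _)
  have h1 := H646.Gain.le_rr hL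
  have h2 : Real.exp (8 * L) ≤ (2 ^ H646.Gain.rr L) ^ 2 := by
    calc Real.exp (8 * L) = Real.exp (4 * L) ^ 2 := by
          rw [← Real.exp_nat_mul]
          congr 1
          push_cast
          ring
      _ ≤ _ := pow_le_pow_left₀ (Real.exp_pos _).le h1 2
  rw [Real.exp_neg]
  exact inv_anti₀ (Real.exp_pos _) h2

theorem Qs_le {t Qn Qs L : ℝ} (hL : 3 ≤ L) (ht : t ≤ Real.exp (-(8 * L))) (hQn : 0 < Qn)
    (h : Qn / 2 ^ (H646.Gain.rr L + 4) ≤ Qs) : t * Qn ≤ Qs := by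
  refine le_trans ?_ h
  rw [le_div_iff₀ (by positivity)]
  have h1 := H646.Gain.rr_le hL
  calc t * Qn * 2 ^ (H646.Gain.rr L + 4) ≤ Real.exp (-(8 * L)) * Qn * Real.exp (8 * L) := by
        gcongr
    _ = Qn * (Real.exp (-(8 * L)) * Real.exp (8 * L)) := by ring
    _ = Qn := by rw [← Real.exp_add, neg_add_cancel, Real.exp_zero, mul_one]

/-- the parameters of the windows -/
theorem par_le {C0 L : ℝ} {k0 c B : ℕ} (hk : k0 = c + 2) (hC0 : 1 ≤ C0) (hL : 1 ≤ L)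
    (ok : Num.OK C0 2 k0 B L) :
    L ^ c * Num.H0 k0 L * Num.H1 2 k0 L ≤ Num.Q k0 L := by
  have hLc : L ^ c ≤ Num.P C0 k0 L := by
    unfold Num.P
    calc L ^ c ≤ L ^ k0 := pow_le_pow_right₀ hL (by omega)
      _ = 1 * L ^ k0 := (one_mul _).symm
      _ ≤ C0 * L ^ k0 := by gcongr
  refine le_trans ?_ ok.win
  have h1 : 1 ≤ Real.exp (C0 * L) := Real.one_le_exp (by positivity)
  have h2 : 1 ≤ Num.H0 k0 L := ok.H0_1
  have h3 : 0 < Num.H0 k0 L := by linarith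
  have h4 : 0 < Num.H1 2 k0 L := by linarith [ok.H1_4]
  have hP0 : 0 ≤ Num.P C0 k0 L := by linarith [ok.P1]
  calc L ^ c * Num.H0 k0 L * Num.H1 2 k0 L
      ≤ Num.P C0 k0 L * Num.H0 k0 L * Num.H1 2 k0 L := by gcongr
    _ = Num.P C0 k0 L * 1 * Num.H1 2 k0 L * (Num.H0 k0 L * 1) := by ring
    _ ≤ Num.P C0 k0 L * Real.exp (C0 * L) * Num.H1 2 k0 L *
        (Num.H0 k0 L * Num.H0 k0 L) := by gcongr
    _ = _ := by ring

open Vale.Agent.P112.H646.Gain in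
/-- **[ANA]** -/
theorem stAna : StAna := by
  intro c
  obtain ⟨c0, hc0, hcore⟩ := ana_core
  obtain ⟨k0, hk0⟩ : ∃ k0 : ℕ, k0 = c + 2 := ⟨_, rfl⟩
  obtain ⟨C0, hC8, hC40⟩ : ∃ C0 : ℝ, 8 ≤ C0 ∧ 40 / c0 ≤ C0 :=
    ⟨max 8 (40 / c0), le_max_left _ _, le_max_right _ _⟩
  have hC01 : 1 ≤ C0 := by linarith
  refine ⟨4 * k0 + 13, fun B => ?_⟩
  obtain ⟨B', hB'⟩ : ∃ B' : ℕ, B' = (4 * k0 + 12) + 2 * c + B := ⟨_, rfl⟩
  have hev := (Num.ok C0 2 hC01 (by norm_num) k0 B').and (eventually_ge_atTop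
    (max 30 (Real.exp (2 * c0 + 1))))
  obtain ⟨T, hT⟩ := eventually_atTop.1 hev
  refine ⟨max (max T 1) (225 / c0 ^ 2 + 3200), (le_max_right _ _).trans (le_max_left _ _), ?_⟩
  intro L hL
  have hTL : T ≤ L := ((le_max_left _ _).trans (le_max_left _ _)).trans hL
  have hCC : 225 / c0 ^ 2 + 3200 ≤ max (max T 1) (225 / c0 ^ 2 + 3200) := le_max_right _ _
  generalize max (max T 1) (225 / c0 ^ 2 + 3200) = Cc at hCC
  obtain ⟨ok, hLL⟩ := hT L hTL
  have hL30 : 30 ≤ L := (le_max_left _ _).trans hLL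
  have hLe : Real.exp (2 * c0 + 1) ≤ L := (le_max_right _ _).trans hLL
  clear hev hT hTL hL hLL
  have hL0 : 0 < L := by linarith
  have hL1 : 1 ≤ L := by linarith
  have hL3 : 3 ≤ L := by linarith
  have hCL : 8 * L ≤ C0 * L := mul_le_mul_of_nonneg_right hC8 hL0.le
  obtain ⟨t, ht⟩ : ∃ t : ℝ, t = Real.exp (-(C0 * L)) := ⟨_, rfl⟩
  have ht0 : 0 < t := by rw [ht]; exact Real.exp_pos _
  have ht8 : t ≤ Real.exp (-(8 * L)) := by rw [ht]; exact Real.exp_le_exp.2 (by linarith)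
  have ht1 : t ≤ 1 := ht8.trans (Real.exp_le_one_iff.2 (by linarith))
  have hH0p : 0 < Num.H0 k0 L := Real.exp_pos _
  have hH0e : Real.exp (8 * L) ≤ Num.H0 k0 L := le_trans (Real.exp_le_exp.2 hCL) ok.H0_ge
  have hLc : L ^ c ≤ Num.P C0 k0 L := by
    unfold Num.P
    calc L ^ c ≤ L ^ k0 := pow_le_pow_right₀ hL1 (by omega)
      _ = 1 * L ^ k0 := (one_mul _).symm
      _ ≤ C0 * L ^ k0 := by gcongr
  have hmR : (1 : ℝ) ≤ Num.m k0 L := by exact_mod_cast ok.m1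
  obtain ⟨lg, hlg⟩ : ∃ lg : ℝ, lg = Real.log (Num.m k0 L + 3) := ⟨_, rfl⟩
  have hlgL : 2 * c0 + 1 ≤ lg := by
    rw [hlg, Real.le_log_iff_exp_le (by linarith)]
    refine hLe.trans ?_
    have h1 : L ≤ L ^ (2 * k0 + 2) := le_self_pow₀ hL1 (by omega)
    have := ok.m_ge
    linarith
  have hlg0 : 0 < lg := by linarith
  have hlg1 : 1 ≤ lg := by linarith
  have hH1 := ok.H1_4
  refine ⟨Num.H0 k0 L, t, Num.H1 2 k0 L, rr L, Num.m k0 L, ?_, ?_, ht0, ht1, L_le_rr hL3,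
    by linarith, ok.m1, par_le hk0 hC01 hL1 ok, ?_⟩
  · exact lt_of_lt_of_le (Real.one_lt_exp_iff.2 (by linarith)) hH0e
  · exact hLc.trans (ok.P_exp.trans (le_trans (Real.exp_le_exp.2 (by linarith)) hH0e))
  · intro ι _ s G V R Qs e N0 K _ X hV hR hRL hQs he o f hf hf1 hv
    have hR0 : 0 < R := by linarith
    obtain ⟨p, hp⟩ : ∃ p : ℝ, p = lg / c0 := ⟨_, rfl⟩
    have hp1 : 1 < p := by
      rw [hp, lt_div_iff₀ hc0]
      linarith
    obtain ⟨β, hβ⟩ : ∃ β : ℝ, β = 1 - c0 / lg := ⟨_, rfl⟩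
    have hpβ : 2 * p * (1 - β) = 2 := by
      rw [hp, hβ]
      field_simp
      ring
    have hcl : c0 / lg ≤ 1 / 2 := by
      rw [div_le_iff₀ hlg0]
      linarith
    have hcl0 : 0 < c0 / lg := by positivity
    have hKn1 : 1 ≤ Num.K 2 L := by
      have h1 : (1 : ℝ) ≤ Num.K 2 L := (Real.one_le_exp (by positivity)).trans ok.K_ge
      exact_mod_cast h1
    have hKn3 : (Num.K 2 L : ℝ) ≤ Real.exp (3 * L) := by
      refine ok.K_le.trans (le_of_eq ?_)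
      congr 1
      ring
    have hM01 : 1 ≤ MM L := by
      have h1 : (1 : ℝ) ≤ MM L := (Real.one_le_exp (by positivity)).trans (le_MM L)
      exact_mod_cast h1
    have hδ0 := ok.del_pos
    have hθs := ok.del_le
    rw [← ht] at hθs
    have hX1 : Num.X 2 k0 L ≤ Num.X 2 k0 L * Num.P C0 k0 L :=
      le_mul_of_one_le_right ok.X_pos.le ok.P1
    have he0 : 0 ≤ e := by rw [he]; positivity
    have hee := ee_le hL3 he
    have hQs2 : t * Num.Q k0 L ≤ Qs := Qs_le hL3 ht8 (Real.exp_pos _) hQs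
    have hQsp : 0 < Qs := lt_of_lt_of_le (mul_pos ht0 (Real.exp_pos _)) hQs2
    have hbox := ok.box
    rw [← ht] at hbox
    have hsep := ok.sep
    rw [← ht] at hsep
    have hX2 : Num.X 2 k0 L ≤ Num.del C0 2 k0 L * (t * Qs) :=
      hX1.trans (hsep.trans (mul_le_mul_of_nonneg_left
        (mul_le_mul_of_nonneg_left hQs2 ht0.le) hδ0.le))
    -- the conclusion of the core
    have hmain := hcore ι s G V R (Num.H0 k0 L) t Qs e (Num.H1 2 k0 L) (Num.m k0 L) N0 K X o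
      (Num.K 2 L) (MM L) β p (Num.Ac 2 k0 L) (Num.A2 2 L)
      (t * Qs) (Num.del C0 2 k0 L) t (Real.exp (-L)) f hV hR hH0p ht0 ht1 he0 ht0
      (by rw [hβ, hlg]) (by linarith) (by linarith)
      hp1 (by linarith) ok.m1 ok.A21 le_rfl le_rfl (mul_pos ht0 hQsp) le_rfl hδ0.le
      (hθs.trans (by linarith)) (hX1.trans hbox) hX2 hM01 hKn1 ok.err hf hf1 (Real.exp_pos _).le hv
    have hlam := lam_le (m := Num.m k0 L) hR0 hL30 hRL hk0 ok.m_ge
    have hTT := TT_le (K := Num.K 2 L) (M0 := MM L) (R := R) (H0 := Num.H0 k0 L) (t := t)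
      (e := e) (p := p) (β := β) hL1 hR hp1 hpβ hM01 (le_MM L) hKn3 ht0.le ht8 hH0e hee
    have hEE := EE_le (K := Num.K 2 L) (M0 := MM L) (R := R)
      (θ := 2 * Num.m k0 L * Num.K 2 L * Num.del C0 2 k0 L)
      (D := (2 : ℝ) ^ (-((Num.m k0 L : ℝ) / R))) hL1 hR (MM_le hL0.le) ok.K_ge (by positivity)
      (hθs.trans (by linarith)) (by positivity) hlam
    have hN0 : (N0 : ℝ) ≤ 5 * L ^ (4 * k0 + 12) := by
      refine o.num.trans ?_
      have h1 : Real.log (Num.H0 k0 L) = L ^ (4 * k0 + 12) := by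
        unfold Num.H0
        rw [Real.log_exp]
      rw [h1]
      have h2 : 1 ≤ L ^ (4 * k0 + 12) := one_le_pow₀ hL1
      linarith
    have hg1 := ok.gain_log
    rw [← hlg] at hg1
    refine final_real hp hL1 hV hc0 hlg0 hR ?_ ?_ hmain hN0 hRL hB'
      (root_le hR hp1 hTT) hEE
      (gain1 hC40 hc0 hC01 hlg1 hL0 ok.P1 (by omega) hg1) (gain2 hC8 hL0 ok.P1 ok.gain_exp) hCC
    · exact Real.rpow_nonneg (mul_nonneg (Real.exp_pos _).le
        (TT_nonneg hR0.le hH0p ht0.le he0 ht0.le (by linarith))) _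
    · unfold EE
      positivity

end Vale.Agent.P112.T580.AnaN
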