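import Vale.Agent.P112.T.Basic
import Mathlib.MeasureTheory.Integral.MeanInequalities

/-!
# P112, chapter (T): from the operators `T_j` to the tree function `FS` (duality)
-/

namespace Vale.Agent.P112.T580

open MeasureTheory Set
open scoped ENNReal NNReal

open Vale.Agent.P112.T (Ker Nice Field Un)

variable {M : ℕ}

/-- `∑ j < n, 1_{E j} T_j f` -/
noncomputable def TU (κ : Ker M) (u : ℝ × ℝ → ℝ) (E : ℕ → Set (ℝ × ℝ)) (n : ℕ)
    (f : ℝ × ℝ → ℝ) (z : ℝ × ℝ) : ℝ :=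
  ∑ j ∈ Finset.range n, (E j).indicator (fun z => κ.T u j f z) z

/-- `∫ FS f = ∫ g TU f` -/
theorem integral_FS_mul (κ : Ker M) {u : ℝ × ℝ → ℝ} (hu : Field u) {E : ℕ → Set (ℝ × ℝ)}
    (hE : ∀ j, MeasurableSet (E j)) (n : ℕ) {g f : ℝ × ℝ → ℝ} (hg : Nice g) (hf : Nice f) :
    ∫ ζ, κ.FS u g E n ζ * f ζ = ∫ z, g z * TU κ u E n f z := by
  have h1 : ∀ j ∈ Finset.range n, Integrable fun ζ => κ.S u j ((E j).indicator g) ζ * f ζ :=
    fun j _ => ((κ.S_nice hu j (hg.indicator (hE j))).mul hf).integrable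
  have h0 : ∫ ζ, κ.FS u g E n ζ * f ζ =
      ∑ j ∈ Finset.range n, ∫ z, (E j).indicator g z * κ.T u j f z := by
    have : ∀ ζ, κ.FS u g E n ζ * f ζ =
        ∑ j ∈ Finset.range n, κ.S u j ((E j).indicator g) ζ * f ζ := fun ζ => by
      unfold Ker.FS
      rw [Finset.sum_mul]
    simp_rw [this]
    rw [integral_finsetSum _ h1]
    exact Finset.sum_congr rfl fun j _ => κ.integral_S_mul' hu j (hg.indicator (hE j)) hf
  have h2 : ∀ j ∈ Finset.range n, Integrable fun z => (E j).indicator g z * κ.T u j f z := by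
    intro j _
    have hint : Integrable (fun p : (ℝ × ℝ) × (ℝ × ℝ) =>
        κ.k j (u p.1) p.1 p.2 * (E j).indicator g p.1 * f p.2) (volume.prod volume) := by
      obtain ⟨C, hC⟩ := hf.bdd
      refine (κ.integrable_k hu j (hg.indicator (hE j))).mul_bdd (c := C) ?_ ?_
      · exact (hf.meas.comp measurable_snd).aestronglyMeasurable
      · exact Filter.Eventually.of_forall fun p => by simpa using hC p.2
    refine (hint.integral_prod_left).congr (Filter.Eventually.of_forall fun z => ?_)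
    simp only
    unfold Ker.T
    rw [← integral_const_mul]
    congr 1
    ext ζ
    ring
  rw [h0, ← integral_finsetSum _ h2]
  refine integral_congr_ae (Filter.Eventually.of_forall fun z => ?_)
  simp only [TU]
  rw [Finset.mul_sum]
  refine Finset.sum_congr rfl fun j _ => ?_
  by_cases h : z ∈ E j
  · rw [indicator_of_mem h, indicator_of_mem h]
  · rw [indicator_of_notMem h, indicator_of_notMem h, zero_mul, mul_zero]

lemma TU_eq_zero (κ : Ker M) (u : ℝ × ℝ → ℝ) (E : ℕ → Set (ℝ × ℝ)) (n : ℕ)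
    (f : ℝ × ℝ → ℝ) {z : ℝ × ℝ} (h : z ∉ Un E n) : TU κ u E n f z = 0 := by
  refine Finset.sum_eq_zero fun j hj => indicator_of_notMem (fun hz => h ?_) _
  exact ⟨j, Finset.mem_range.1 hj, hz⟩

/-- powers of a nice function -/
lemma nice_rpow {F : ℝ × ℝ → ℝ} (hF : Nice F) {a : ℝ} (ha : 0 < a) :
    Nice fun z => SignType.sign (F z) * |F z| ^ a := by
  obtain ⟨C, hC⟩ := hF.bdd
  obtain ⟨r, hr⟩ := hF.supp
  have hsm : Measurable fun x : ℝ => ((SignType.sign x : SignType) : ℝ) := by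
    have : (fun x : ℝ => ((SignType.sign x : SignType) : ℝ)) =
        fun x => if 0 < x then 1 else if x < 0 then -1 else 0 := by
      funext x
      rcases lt_trichotomy x 0 with h | h | h
      · rw [sign_neg h, if_neg (by linarith), if_pos h]; simp
      · rw [h, sign_zero]; simp
      · rw [sign_pos h, if_pos h]; simp
    rw [this]
    exact Measurable.ite measurableSet_Ioi measurable_const
      (Measurable.ite measurableSet_Iio measurable_const measurable_const)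
  refine ⟨(hsm.comp hF.meas).mul (hF.meas.abs.pow_const a), ⟨|C| ^ a, fun z => ?_⟩,
    ⟨r, fun z hz => ?_⟩⟩
  · rw [abs_mul]
    have h1 : |((SignType.sign (F z) : SignType) : ℝ)| ≤ 1 := by
      rcases lt_trichotomy (F z) 0 with h | h | h
      · rw [sign_neg h]; simp
      · rw [h, sign_zero]; simp
      · rw [sign_pos h]; simp
    have h2 : 0 ≤ |F z| ^ a := by positivity
    calc |((SignType.sign (F z) : SignType) : ℝ)| * |(|F z| ^ a)| ≤ 1 * |(|F z| ^ a)| := by gcongr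
      _ = |F z| ^ a := by rw [one_mul, abs_of_nonneg h2]
      _ ≤ |C| ^ a := Real.rpow_le_rpow (abs_nonneg _) ((hC z).trans (le_abs_self C)) ha.le
  · rw [hr z hz]
    simp [Real.zero_rpow ha.ne']

/-- **Duality.** A bound of `∑ 1_{E j} T_j` on `L^p` gives the bound of the tree function on
`L^q`, `1/p + 1/q = 1`. -/
theorem dual_bound (κ : Ker M) {u : ℝ × ℝ → ℝ} (hu : Field u) {E : ℕ → Set (ℝ × ℝ)}
    (hE : ∀ j, MeasurableSet (E j)) (n : ℕ) {p q : ℝ} (hpq : p.HolderConjugate q) {D : ℝ≥0∞}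
    (hOP : ∀ f : ℝ × ℝ → ℝ, Nice f →
      ∫⁻ z in Un E n, ‖TU κ u E n f z‖ₑ ^ p ≤ D * ∫⁻ z, ‖f z‖ₑ ^ p)
    {g : ℝ × ℝ → ℝ} (hg : Nice g) :
    ∫⁻ ζ, ‖κ.FS u g E n ζ‖ₑ ^ q ≤ D ^ (q - 1) * ∫⁻ z in Un E n, ‖g z‖ₑ ^ q := by
  have hq1 : 1 < q := hpq.symm.lt
  have hp1 : 1 < p := hpq.lt
  have hq0 : 0 < q := by linarith
  have hp0 : 0 < p := by linarith
  set F := κ.FS u g E n with hFdef
  have hF : Nice F := κ.FS_nice hu hg hE n
  set h : ℝ × ℝ → ℝ := fun z => SignType.sign (F z) * |F z| ^ (q - 1) with hh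
  have hhn : Nice h := nice_rpow hF (by linarith)
  -- the pairing
  have hFh : ∀ z, F z * h z = |F z| ^ q := by
    intro z
    show F z * (SignType.sign (F z) * |F z| ^ (q - 1)) = |F z| ^ q
    have h1 : F z * SignType.sign (F z) = |F z| := self_mul_sign (F z)
    rw [← mul_assoc, h1]
    rcases (abs_nonneg (F z)).eq_or_lt with h2 | h2
    · rw [← h2, Real.zero_rpow hq0.ne', zero_mul]
    · rw [← Real.rpow_one_add' h2.le (by linarith)]
      congr 1
      ring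
  have hen : ∀ z, ‖F z‖ₑ ^ q = ENNReal.ofReal (F z * h z) := by
    intro z
    rw [hFh, ← ENNReal.ofReal_rpow_of_nonneg (abs_nonneg _) hq0.le, ← ofReal_norm,
      Real.norm_eq_abs]
  have hhp : ∀ z, ‖h z‖ₑ ^ p = ‖F z‖ₑ ^ q := by
    intro z
    rcases eq_or_ne (F z) 0 with h0 | h0
    · have : h z = 0 := by
        show SignType.sign (F z) * |F z| ^ (q - 1) = 0
        rw [h0]; simp
      rw [this, h0, enorm_zero, ENNReal.zero_rpow_of_pos hp0, ENNReal.zero_rpow_of_pos hq0]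
    · have h1 : ‖h z‖ₑ = ‖F z‖ₑ ^ (q - 1) := by
        rw [← ofReal_norm, ← ofReal_norm, Real.norm_eq_abs, Real.norm_eq_abs,
          ENNReal.ofReal_rpow_of_nonneg (abs_nonneg _) (by linarith)]
        congr 1
        show |(SignType.sign (F z) : ℝ) * |F z| ^ (q - 1)| = |F z| ^ (q - 1)
        rw [abs_mul]
        have h2 : |((SignType.sign (F z) : SignType) : ℝ)| = 1 := by
          rcases lt_or_gt_of_ne h0 with h | h
          · rw [sign_neg h]; simp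
          · rw [sign_pos h]; simp
        rw [h2, one_mul, abs_of_nonneg (by positivity)]
      rw [h1, ← ENNReal.rpow_mul]
      congr 1
      have := hpq.symm.mul_eq_add
      linarith
  set I : ℝ≥0∞ := ∫⁻ ζ, ‖F ζ‖ₑ ^ q with hI
  set G : ℝ≥0∞ := ∫⁻ z in Un E n, ‖g z‖ₑ ^ q with hG
  have hFhint : Integrable fun z => F z * h z := (hF.mul hhn).integrable
  have hI1 : I = ENNReal.ofReal (∫ z, F z * h z) := by
    rw [hI, ofReal_integral_eq_lintegral_ofReal hFhint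
      (Filter.Eventually.of_forall fun z => by
        show (0 : ℝ) ≤ F z * h z
        rw [hFh]; positivity)]
    exact lintegral_congr hen
  have hItop : I ≠ ∞ := by rw [hI1]; exact ENNReal.ofReal_ne_top
  have hI2 : I ≤ ∫⁻ z in Un E n, ‖g z‖ₑ * ‖TU κ u E n h z‖ₑ := by
    rw [hI1, integral_FS_mul κ hu hE n hg hhn]
    calc ENNReal.ofReal (∫ z, g z * TU κ u E n h z) ≤ ‖∫ z, g z * TU κ u E n h z‖ₑ := by
          rw [← ofReal_norm]
          exact ENNReal.ofReal_le_ofReal (le_abs_self _)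
      _ ≤ ∫⁻ z, ‖g z * TU κ u E n h z‖ₑ := enorm_integral_le_lintegral_enorm _
      _ = ∫⁻ z in Un E n, ‖g z‖ₑ * ‖TU κ u E n h z‖ₑ := by
          rw [← lintegral_indicator (T.measurableSet_Un hE n)]
          refine lintegral_congr fun z => ?_
          by_cases hz : z ∈ Un E n
          · rw [indicator_of_mem hz, enorm_mul]
          · rw [indicator_of_notMem hz, TU_eq_zero κ u E n h hz, mul_zero, enorm_zero]
  have hTm : AEMeasurable (fun z => ‖TU κ u E n h z‖ₑ) (volume.restrict (Un E n)) := by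
    refine Measurable.aemeasurable (Measurable.enorm ?_)
    unfold TU
    refine Finset.measurable_fun_sum _ fun j _ => Measurable.indicator ?_ (hE j)
    have h3 : StronglyMeasurable fun p : (ℝ × ℝ) × (ℝ × ℝ) => κ.k j (u p.1) p.1 p.2 * h p.2 :=
      ((κ.k_measurable hu.meas j).mul (hhn.meas.comp measurable_snd)).stronglyMeasurable
    exact h3.integral_prod_right'.measurable
  have hI3 : I ≤ G ^ (1 / q) * (D * I) ^ (1 / p) := by
    refine hI2.trans ((ENNReal.lintegral_mul_le_Lp_mul_Lq _ hpq.symm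
      hg.meas.enorm.aemeasurable hTm).trans ?_)
    gcongr
    refine (hOP h hhn).trans (le_of_eq ?_)
    rw [hI]
    congr 1
    exact lintegral_congr hhp
  -- conclusion
  rcases eq_or_ne I 0 with h0 | h0
  · rw [h0]; exact zero_le
  · have hsum : 1 / q + 1 / p = 1 := by
      have := hpq.inv_add_inv_eq_one
      rw [one_div, one_div]; linarith
    have h4 : I ^ (1 / q) ≤ G ^ (1 / q) * D ^ (1 / p) := by
      have h5 : I = I ^ (1 / q) * I ^ (1 / p) := by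
        rw [← ENNReal.rpow_add _ _ h0 hItop, hsum, ENNReal.rpow_one]
      have h6 : I ^ (1 / q) * I ^ (1 / p) ≤ G ^ (1 / q) * D ^ (1 / p) * I ^ (1 / p) := by
        rw [← h5, mul_assoc, ← ENNReal.mul_rpow_of_nonneg _ _ (by positivity)]
        exact hI3
      have h7 : I ^ (1 / p) ≠ 0 := by
        rw [Ne, ENNReal.rpow_eq_zero_iff]
        push Not
        exact ⟨fun h => absurd h h0, fun h => absurd h hItop⟩
      have h8 : I ^ (1 / p) ≠ ∞ := ENNReal.rpow_ne_top_of_nonneg (by positivity) hItop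
      exact (ENNReal.mul_le_mul_iff_left h7 h8).1 h6
    have h9 : I = (I ^ (1 / q)) ^ q := by
      rw [← ENNReal.rpow_mul, one_div_mul_cancel hq0.ne', ENNReal.rpow_one]
    rw [h9]
    refine (ENNReal.rpow_le_rpow h4 hq0.le).trans (le_of_eq ?_)
    rw [ENNReal.mul_rpow_of_nonneg _ _ hq0.le, ← ENNReal.rpow_mul, ← ENNReal.rpow_mul,
      one_div_mul_cancel hq0.ne', ENNReal.rpow_one, mul_comm]
    congr 2
    have h10 := hpq.symm.div_conj_eq_sub_one
    rw [one_div, inv_mul_eq_div]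
    exact h10

/-- the shape of the `L^p` bound of the operators on a tree (owner helper724) -/
def OpB (p : ℝ) (κ : Ker M) (A : ℝ) : Prop := ∃ C : ℝ, 0 < C ∧
  ∀ (τ : ℝ) (u : ℝ × ℝ → ℝ), Field u → ∀ (n : ℕ) (E : ℕ → Set (ℝ × ℝ)),
    (∀ j, MeasurableSet (E j)) → ∀ s : ℝ,
    (∀ j < n, ∀ z ∈ E j, |u z - s| ≤ A * 2 ^ j) →
    (∀ z, ∀ i j k : ℕ, i ≤ j → j ≤ k → k < n → z ∈ E i → z ∈ E k → z ∈ E j) →
    ∀ δ : ℝ, 0 < δ →
    (∀ j1 < n, ∀ z1 ∈ E j1, ∀ i ≤ j1,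
      volume {z : ℝ × ℝ | z ∈ Un E n ∧ T.q τ i z.1 = T.q τ i z1.1 ∧
        |(z.2 - s * z.1) - (z1.2 - s * z1.1)| ≤ 1 ∧ |u z - s| ≤ 2 * A * 2 ^ i} ≤
        ENNReal.ofReal (δ / 2 ^ i)) →
    ∀ f : ℝ × ℝ → ℝ, Nice f →
      ∫⁻ z in Un E n, ‖TU κ u E n f z‖ₑ ^ p ≤ ENNReal.ofReal (C * δ) * ∫⁻ z, ‖f z‖ₑ ^ p

/-- the tree function in `L^q` -/
def TqB (q : ℝ) (κ : Ker M) (A : ℝ) : Prop := ∃ C : ℝ, 0 < C ∧
  ∀ (τ : ℝ) (u : ℝ × ℝ → ℝ), Field u → ∀ (n : ℕ) (E : ℕ → Set (ℝ × ℝ)),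
    (∀ j, MeasurableSet (E j)) → ∀ s : ℝ,
    (∀ j < n, ∀ z ∈ E j, |u z - s| ≤ A * 2 ^ j) →
    (∀ z, ∀ i j k : ℕ, i ≤ j → j ≤ k → k < n → z ∈ E i → z ∈ E k → z ∈ E j) →
    ∀ δ : ℝ, 0 < δ →
    (∀ j1 < n, ∀ z1 ∈ E j1, ∀ i ≤ j1,
      volume {z : ℝ × ℝ | z ∈ Un E n ∧ T.q τ i z.1 = T.q τ i z1.1 ∧
        |(z.2 - s * z.1) - (z1.2 - s * z1.1)| ≤ 1 ∧ |u z - s| ≤ 2 * A * 2 ^ i} ≤
        ENNReal.ofReal (δ / 2 ^ i)) →
    ∀ g : ℝ × ℝ → ℝ, Nice g →
      ∫⁻ ζ, ‖κ.FS u g E n ζ‖ₑ ^ q ≤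
        ENNReal.ofReal (C * δ ^ (q - 1)) * ∫⁻ z in Un E n, ‖g z‖ₑ ^ q

theorem tqB_of_opB {κ : Ker M} {A p q : ℝ} (hpq : p.HolderConjugate q) (h : OpB p κ A) :
    TqB q κ A := by
  obtain ⟨C, hC, hop⟩ := h
  have hq1 : 1 < q := hpq.symm.lt
  refine ⟨C ^ (q - 1), by positivity, ?_⟩
  intro τ u hu n E hE s hs hconv δ hδ hd g hg
  refine (dual_bound κ hu hE n hpq (hop τ u hu n E hE s hs hconv δ hδ hd) hg).trans (le_of_eq ?_)
  rw [ENNReal.ofReal_rpow_of_nonneg (by positivity) (by linarith),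
    Real.mul_rpow hC.le hδ.le]

/-- real integrals of even powers -/
theorem real_of_enn {F g : ℝ × ℝ → ℝ} (hF : Nice F) (hg : Nice g) {U : Set (ℝ × ℝ)}
    {m : ℕ} {D : ℝ} (hD : 0 ≤ D)
    (h : ∫⁻ ζ, ‖F ζ‖ₑ ^ ((2 * (m + 1) : ℕ) : ℝ) ≤
      ENNReal.ofReal D * ∫⁻ z in U, ‖g z‖ₑ ^ ((2 * (m + 1) : ℕ) : ℝ)) :
    ∫ ζ, F ζ ^ (2 * (m + 1)) ≤ D * ∫ z in U, g z ^ (2 * (m + 1)) := by
  have hpow : ∀ {f : ℝ × ℝ → ℝ}, Nice f → Nice fun z => f z ^ (2 * (m + 1)) := by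
    intro f hf
    have key : ∀ k : ℕ, Nice fun z => f z ^ (k + 1) := by
      intro k
      induction k with
      | zero => simpa using hf
      | succ k ih =>
        have := ih.mul hf
        simpa [pow_succ] using this
    exact key (2 * m + 1)
  have hen : ∀ (f : ℝ × ℝ → ℝ) (z : ℝ × ℝ),
      ‖f z‖ₑ ^ ((2 * (m + 1) : ℕ) : ℝ) = ENNReal.ofReal (f z ^ (2 * (m + 1))) := by
    intro f z
    rw [ENNReal.rpow_natCast, ← ofReal_norm, Real.norm_eq_abs, ← ENNReal.ofReal_pow (abs_nonneg _),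
      (even_two_mul _).pow_abs]
  have hnn : ∀ (f : ℝ × ℝ → ℝ) (z : ℝ × ℝ), 0 ≤ f z ^ (2 * (m + 1)) := fun f z =>
    (even_two_mul _).pow_nonneg _
  simp only [hen] at h
  rw [← ofReal_integral_eq_lintegral_ofReal (hpow hF).integrable
    (Filter.Eventually.of_forall fun z => hnn F z),
    ← ofReal_integral_eq_lintegral_ofReal (hpow hg).integrable.integrableOn
    (Filter.Eventually.of_forall fun z => hnn g z), ← ENNReal.ofReal_mul hD] at h
  exact (ENNReal.ofReal_le_ofReal_iff (mul_nonneg hD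
    (integral_nonneg fun z => hnn g z))).1 h

/-- helper3's single tree estimate from the `L²` bound of the operators -/
theorem stT2_of_opB {κ : Ker M} {A : ℝ} (h : OpB 2 κ A) : T.StT2 κ A := by
  obtain ⟨C, hC, hq⟩ := tqB_of_opB (q := 2) Real.HolderConjugate.two_two h
  refine ⟨C, hC, ?_⟩
  intro τ u hu n E hE s hs hconv δ hδ hd g hg
  have h1 := hq τ u hu n E hE s hs hconv δ hδ hd g hg
  have h2 := real_of_enn (m := 0) (D := C * δ) (κ.FS_nice hu hg hE n) hg (U := Un E n)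
    (by positivity) (by
      have e1 : ((2 * (0 + 1) : ℕ) : ℝ) = 2 := by norm_num
      rw [e1]
      rw [show (2 : ℝ) - 1 = 1 by norm_num, Real.rpow_one] at h1
      exact h1)
  simpa using h2

/-- the fourth moment of a tree function -/
theorem four_of_opB {κ : Ker M} {A : ℝ} (h : OpB (4 / 3) κ A) : ∃ C : ℝ, 0 < C ∧
  ∀ (τ : ℝ) (u : ℝ × ℝ → ℝ), Field u → ∀ (n : ℕ) (E : ℕ → Set (ℝ × ℝ)),
    (∀ j, MeasurableSet (E j)) → ∀ s : ℝ,
    (∀ j < n, ∀ z ∈ E j, |u z - s| ≤ A * 2 ^ j) →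
    (∀ z, ∀ i j k : ℕ, i ≤ j → j ≤ k → k < n → z ∈ E i → z ∈ E k → z ∈ E j) →
    ∀ δ : ℝ, 0 < δ →
    (∀ j1 < n, ∀ z1 ∈ E j1, ∀ i ≤ j1,
      volume {z : ℝ × ℝ | z ∈ Un E n ∧ T.q τ i z.1 = T.q τ i z1.1 ∧
        |(z.2 - s * z.1) - (z1.2 - s * z1.1)| ≤ 1 ∧ |u z - s| ≤ 2 * A * 2 ^ i} ≤
        ENNReal.ofReal (δ / 2 ^ i)) →
    ∀ g : ℝ × ℝ → ℝ, Nice g →
      ∫ ζ, (κ.FS u g E n ζ) ^ 4 ≤ C * δ ^ 3 * ∫ z in Un E n, g z ^ 4 := by
  have hpq : (4 / 3 : ℝ).HolderConjugate 4 := by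
    rw [Real.holderConjugate_iff]; norm_num
  obtain ⟨C, hC, hq⟩ := tqB_of_opB hpq h
  refine ⟨C, hC, ?_⟩
  intro τ u hu n E hE s hs hconv δ hδ hd g hg
  have h1 := hq τ u hu n E hE s hs hconv δ hδ hd g hg
  have h2 := real_of_enn (m := 1) (D := C * δ ^ 3) (κ.FS_nice hu hg hE n) hg (U := Un E n)
    (by positivity) (by
      have e1 : ((2 * (1 + 1) : ℕ) : ℝ) = 4 := by norm_num
      rw [e1]
      rw [show (4 : ℝ) - 1 = ((3 : ℕ) : ℝ) by norm_num, Real.rpow_natCast] at h1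
      exact h1)
  simpa using h2

end Vale.Agent.P112.T580
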