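import Vale.Agent.P112.T580.DualN
import Vale.Agent.P112.H724.OpN
import Vale.Agent.P112.H967.MaxH

/-!
# P112, chapter (T), single tree: `StN2` and the fourth moments from the maximal theorem

helper724's operator form + helper967's maximal truncated singular integrals + duality.
-/

open MeasureTheory Set
open scoped ENNReal NNReal

namespace Vale.Agent.P112.T580

open Vale.Agent.P112.T (Ker Nice Field Un)
open Vale.Agent.P112.TreeT2 (OpN MaxH LK Hs cj Kj)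
open Vale.Agent.P112.HL (HK MK SK)
open Vale.Agent.P112.H158 (cv)

theorem hk_of_lk {L : ℝ} {K : ℝ → ℝ} (hK : LK L K) (hodd : ∀ t, K (-t) = -K t) : HK K L :=
  ⟨hodd, hK.lip, hK.zero⟩

/-- the partial sums are the convolutions with the sums of the dilates -/
theorem sum_cj_eq_cv {L : ℝ} {K : ℝ → ℝ} (hK : LK L K) {φ : ℝ → ℝ} (hφ : Measurable φ)
    (hM : ∃ M, ∀ t, |φ t| ≤ M) (hr : ∃ r, ∀ t, r ≤ |t| → φ t = 0) (a b : ℕ) (x : ℝ) :
    ∑ j ∈ Finset.Ico a b, cj K φ j x = cv (SK K a b) φ x := by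
  obtain ⟨M, hM⟩ := hM
  obtain ⟨r, hr⟩ := hr
  have hint : Integrable φ := by
    refine (Measure.integrableOn_of_bounded (s := Icc (-r) r) (M := M)
      (by rw [Real.volume_Icc]; exact ENNReal.ofReal_ne_top) hφ.aestronglyMeasurable
      (Filter.Eventually.of_forall fun t => by rw [Real.norm_eq_abs]; exact hM t)).integrable_of_forall_notMem_eq_zero ?_
    intro t ht
    apply hr
    by_contra h
    rw [not_le, abs_lt] at h
    exact ht ⟨h.1.le, h.2.le⟩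
  rw [cv]
  simp only [SK, Finset.sum_mul]
  rw [integral_finsetSum]
  · rfl
  · intro j _
    refine hint.bdd_mul (c := L * 2 ^ j)
      ((TreeT2.Kj_cont hK j).comp (by fun_prop)).aestronglyMeasurable ?_
    exact Filter.Eventually.of_forall fun t => by
      rw [Real.norm_eq_abs]; exact TreeT2.Kj_bd hK j _

/-- the maximal theorem in the form `MaxH` -/
theorem maxH_of_MK {p L : ℝ} (hp : 0 ≤ p) {C₁ : ℝ≥0∞}
    (h : ∀ K : ℝ → ℝ, HK K L → ∀ f : ℝ → ℝ, Measurable f →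
      ∫⁻ x, MK K f x ^ p ≤ C₁ * ∫⁻ x, ‖f x‖ₑ ^ p) : MaxH p L C₁ := by
  intro K hK hodd n φ hφ hM hr
  refine le_trans (lintegral_mono fun x => ?_) (h K (hk_of_lk hK hodd) φ hφ)
  refine ENNReal.rpow_le_rpow ?_ hp
  refine iSup_le fun a => iSup_le fun b => iSup_le fun _ => ?_
  rw [sum_cj_eq_cv hK hφ hM hr a b x]
  exact le_iSup_of_le a (le_iSup_of_le b le_rfl)

theorem maxH_two (L : ℝ) : MaxH 2 L (HL.CH2 L) :=
  maxH_of_MK (by norm_num) fun K hK f hf => by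
    have := HL.MK_L2 hK hf
    simpa only [ENNReal.rpow_two] using this

theorem opN_two (M : ℕ) {A : ℝ} (C0 : ℝ) (hA : 1 ≤ A) : OpN 2 M A C0 :=
  TreeT2.opN_of_maxH (by norm_num) M hA (HL.CH2_ne_top C0) (maxH_two C0)

theorem opBN_of_opN {p : ℝ} {M : ℕ} {A C0 : ℝ} (h : OpN p M A C0) : OpBN p M A C0 := by
  obtain ⟨C, hC, h⟩ := h
  refine ⟨C, hC, ?_⟩
  intro N κ hκ τ u hu n E s δ hT f hf
  exact h N κ hκ τ u hu n E hT.meas s hT.slope hT.conv δ hT.pos hT.dens f hf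

/-- **T2** -/
theorem stN2 (M : ℕ) {A : ℝ} (C0 : ℝ) (hA : 1 ≤ A) : T.StN2 M A C0 :=
  stN2_of_opBN (opBN_of_opN (opN_two M C0 hA))

/-- the `L^q` version, from the maximal theorem in the dual exponent -/
theorem tqBN_of_maxH {p q : ℝ} (hpq : p.HolderConjugate q) (M : ℕ) {A C0 : ℝ} (hA : 1 ≤ A)
    {C₁ : ℝ≥0∞} (hC₁ : C₁ ≠ ⊤) (hmax : MaxH p C0 C₁) : TqBN q M A C0 :=
  tqBN_of_opBN hpq (opBN_of_opN (TreeT2.opN_of_maxH hpq.lt M hA hC₁ hmax))

/-- the fourth moment, from the maximal theorem in `L^{4/3}` -/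
theorem stN2four_of_maxH (M : ℕ) {A C0 : ℝ} (hA : 1 ≤ A)
    {C₁ : ℝ≥0∞} (hC₁ : C₁ ≠ ⊤) (hmax : MaxH (4 / 3) C0 C₁) : StN2four M A C0 :=
  stN2four_of_opBN (opBN_of_opN (TreeT2.opN_of_maxH (by norm_num) M hA hC₁ hmax))

end Vale.Agent.P112.T580
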