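import Vale.Agent.P112.H8.StepD
import Vale.Agent.P112.H540.Low

/-!
# P112 [GAIN-LEV]: one occupancy level, part 1: windows with the active set of the base point

`X : Bxs ι κ` are the boxes of one level; `act X z` are the tubes whose box of this level contains
`z`, `Gz X g z` is the sum of the tube functions over `act X z`, as a function on the window above
`z`.
-/

open MeasureTheory Set
open scoped ENNReal Real

noncomputable section

namespace Vale.Agent.P112.T580.Lev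

open Vale.Agent.P112.H371 (eb Gb Wa Gb_meas tsum_Gb_bdd Gb_sum Gb_tube Wa_meas lint_Wa_all lint_shift)
open Vale.Agent.P112.H646 (Sys ff gg)
open Vale.Agent.P112.H8 (Bxs)
open Vale.Agent.P112.H8.Bxs (at'_eq at'_zero err_one)

variable {ι κ : Type}

theorem reg_meas [Finite κ] (X : Bxs ι κ) (i : ι) : MeasurableSet (X.reg i) := by
  have : X.reg i = ⋃ k, ⋃ (_ : X.tb k = i), X.box k := by
    ext w
    simp [Bxs.reg]
  rw [this]
  exact MeasurableSet.iUnion fun k => MeasurableSet.iUnion fun _ => X.measurableSet_box k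

theorem tilt_meas (X : Bxs ι κ) (i : ι) : Measurable (X.tilt i) := by
  unfold Bxs.tilt
  fun_prop

/-- the set of the base points at which `i` is active -/
def Ri (X : Bxs ι κ) (i : ι) : Set (ℝ × ℝ) := {z | X.tilt i z ∈ X.reg i}

theorem Ri_meas [Finite κ] (X : Bxs ι κ) (i : ι) : MeasurableSet (Ri X i) :=
  tilt_meas X i (reg_meas X i)

open Classical in
/-- the active tubes -/
def act [Fintype ι] (X : Bxs ι κ) (z : ℝ × ℝ) : Finset ι := Finset.univ.filter fun i => z ∈ Ri X i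

theorem mem_act [Fintype ι] {X : Bxs ι κ} {z : ℝ × ℝ} {i : ι} : i ∈ act X z ↔ z ∈ Ri X i := by
  classical
  simp [act]

/-- the sum of the active tubes, a function on the window above `z` -/
def Gz [Fintype ι] (X : Bxs ι κ) (g : ι → ℝ × ℝ → ℂ) (z w : ℝ × ℝ) : ℂ :=
  ∑ i ∈ act X z, g i (X.tilt i w)

/-- steps, one tube, restricted to the region of the tube (no hypothesis outside) -/
theorem err_reg [Fintype κ] {X : Bxs ι κ} (hX : X.Disj) {H θ : ℝ} (hH : 0 < H)
    (hθ : ∀ k, X.h k ≤ θ * H) (hθ1 : θ ≤ 1) {g : ι → ℝ × ℝ → ℂ} {i : ι}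
    (hg : Measurable (g i)) {C : ℝ} (hb : ∀ z, ‖g i z‖ ≤ C) {gs : ℝ × ℝ → ℝ≥0∞}
    (hgs : Measurable gs)
    (hosc : ∀ k, X.tb k = i → ∀ x ∈ Ico (X.x0 k) (X.x0 k + X.lam k),
      ∀ x' ∈ Ico (X.x0 k) (X.x0 k + X.lam k), ∀ t ∈ Ioo (X.y0 k) (X.y0 k + X.h k + H),
      ‖g i (x, t) - g i (x', t)‖ₑ ≤ gs (x, t)) :
    ∫⁻ w in X.reg i, ∑' b : ℤ, ‖Gb H b (g i) w - X.at' H g b i w‖ₑ ^ 2 ≤
      ENNReal.ofReal (8 * θ) * (∫⁻ w, ‖g i w‖ₑ ^ 2) + 2 * ∫⁻ w, gs w ^ 2 := by
  classical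
  set S := Finset.univ.filter (fun k => X.tb k = i) with hS
  have hreg : X.reg i = ⋃ k ∈ S, X.box k := by
    ext w
    simp [Bxs.reg, hS]
  have hpd : Set.PairwiseDisjoint (↑S : Set κ) X.box := by
    intro k hk k' hk' hne
    simp only [hS, Finset.coe_filter, Finset.mem_univ, true_and, mem_ofPred_eq] at hk hk'
    exact hX k k' (hk.trans hk'.symm) hne
  have hθ0 : S.Nonempty → 0 ≤ θ := by
    rintro ⟨k, _⟩
    by_contra hc
    have h1 := hθ k
    have h2 := X.h_pos k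
    nlinarith
  rcases S.eq_empty_or_nonempty with hSe | hSn
  · rw [hreg, hSe]
    simp
  replace hθ0 := hθ0 hSn
  calc ∫⁻ w in X.reg i, ∑' b : ℤ, ‖Gb H b (g i) w - X.at' H g b i w‖ₑ ^ 2
      ≤ ∑ k ∈ S, ∫⁻ w in X.box k, ∑' b : ℤ, ‖Gb H b (g i) w - X.at' H g b i w‖ₑ ^ 2 := by
        rw [hreg, lintegral_biUnion_finset hpd fun k _ => X.measurableSet_box k]
    _ ≤ ∑ k ∈ S, (ENNReal.ofReal (4 * θ) * ((∫⁻ w in X.box k, ‖g i w‖ₑ ^ 2) +
          ∫⁻ w in Ico (X.x0 k) (X.x0 k + X.lam k) ×ˢ Ico (X.y0 k + H) (X.y0 k + H + X.h k),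
            ‖g i w‖ₑ ^ 2) + 2 * ∫⁻ w in X.box k, Wa H (fun w => gs w ^ 2) w) := by
        apply Finset.sum_le_sum
        intro k hk
        have hki : X.tb k = i := by simpa [hS] using hk
        have hhk : X.h k ≤ H := (hθ k).trans (by nlinarith)
        have h1 := H8.box_avg (x0 := X.x0 k) (y0 := X.y0 k) hH (X.lam_pos k) (X.h_pos k) hhk hg hb
          hgs (hosc k hki)
        have h2 : ∫⁻ w in X.box k, ∑' b : ℤ, ‖Gb H b (g i) w - X.at' H g b i w‖ₑ ^ 2 =
            ∑' b : ℤ, ∫⁻ w in X.box k, ‖Gb H b (g i) w - ⨍ w in X.box k, Gb H b (g i) w‖ₑ ^ 2 := by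
          rw [← lintegral_tsum]
          · apply setLIntegral_congr_fun (X.measurableSet_box k)
            intro w hw
            simp only
            congr 1
            funext b
            have := at'_eq hX H g b hw
            rw [hki] at this
            rw [this, Bxs.val, hki]
          · intro b
            exact (((Gb_meas hH b hg).sub measurable_const).enorm.pow_const 2).aemeasurable
        rw [h2]
        refine h1.trans (add_le_add (mul_le_mul_left ?_ _) le_rfl)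
        apply ENNReal.ofReal_le_ofReal
        rw [div_le_iff₀ hH]
        linarith [hθ k]
    _ = ENNReal.ofReal (4 * θ) * ((∑ k ∈ S, ∫⁻ w in X.box k, ‖g i w‖ₑ ^ 2) +
          ∑ k ∈ S, ∫⁻ w in Ico (X.x0 k) (X.x0 k + X.lam k) ×ˢ
            Ico (X.y0 k + H) (X.y0 k + H + X.h k), ‖g i w‖ₑ ^ 2) +
          2 * ∑ k ∈ S, ∫⁻ w in X.box k, Wa H (fun w => gs w ^ 2) w := by
        rw [Finset.sum_add_distrib, ← Finset.mul_sum, ← Finset.mul_sum, Finset.sum_add_distrib]
    _ ≤ ENNReal.ofReal (4 * θ) * ((∫⁻ w, ‖g i w‖ₑ ^ 2) + ∫⁻ w, ‖g i w‖ₑ ^ 2) +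
          2 * ∫⁻ w, Wa H (fun w => gs w ^ 2) w := by
        gcongr
        · exact Bxs.sum_box_le hX i _
        · exact Bxs.sum_box_shift_le hX i H _
        · exact Bxs.sum_box_le hX i _
    _ = _ := by
        rw [lint_Wa_all hH (hgs.pow_const 2), ← two_mul, ← mul_assoc,
          show (8 * θ : ℝ) = (4 * θ) * 2 by ring,
          ENNReal.ofReal_mul (p := 4 * θ) (by positivity)]
        norm_num

variable [Fintype ι]

omit [Fintype ι] in
/-- local integrability on windows -/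
theorem int_win {X : Bxs ι κ} {g : ι → ℝ × ℝ → ℂ} (hg : ∀ i, Measurable (g i)) {C : ℝ}
    (hC : ∀ i z, ‖g i z‖ ≤ C) (i : ι) (x a b : ℝ) :
    IntegrableOn (fun t => g i (X.tilt i (x, t))) (Ioc a b) := by
  have hm : Measurable fun t => g i (X.tilt i (x, t)) :=
    (hg i).comp ((tilt_meas X i).comp (measurable_const.prodMk measurable_id))
  have : IsFiniteMeasure ((volume : Measure ℝ).restrict (Ioc a b)) :=
    ⟨by rw [Measure.restrict_apply_univ, Real.volume_Ioc]; exact ENNReal.ofReal_lt_top⟩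
  exact (MemLp.of_bound (p := 1) hm.aestronglyMeasurable C
    (Filter.Eventually.of_forall fun t => hC i _)).integrable le_rfl

/-- the window coefficient of the sum of the active tubes -/
theorem Gb_Gz (X : Bxs ι κ) {H : ℝ} (hH : 0 < H) {g : ι → ℝ × ℝ → ℂ}
    (hg : ∀ i, Measurable (g i)) {C : ℝ} (hC : ∀ i z, ‖g i z‖ ≤ C) (b : ℤ) (z : ℝ × ℝ) :
    Gb H b (Gz X g z) z = ∑ i ∈ act X z,
      Complex.exp (-(Complex.I * (eb H b * (X.s i * z.1) : ℝ))) * Gb H b (g i) (X.tilt i z) := by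
  unfold Gz
  rw [Gb_sum hH b (act X z) z fun i _ => int_win hg hC i _ _ _]
  refine Finset.sum_congr rfl fun i _ => ?_
  rw [show (fun z => g i (X.tilt i z)) = fun z : ℝ × ℝ => g i (z.1, z.2 - X.s i * z.1) from rfl,
    Gb_tube]
  rfl

variable [Fintype κ]

/-- the step sum -/
theorem sys_G (X : Bxs ι κ) {H : ℝ} (hH : 0 < H) (g : ι → ℝ × ℝ → ℂ) {b : ℤ} (hb : b ≠ 0)
    (z : ℝ × ℝ) : (X.sys hH g hb).G Finset.univ z = ∑ i ∈ act X z,
      Complex.exp (-(Complex.I * (eb H b * (X.s i * z.1) : ℝ))) *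
        X.at' H g b i (X.tilt i z) := by
  classical
  rw [Sys.G, ff]
  have h1 : ∀ i : ι, (X.sys hH g hb).a i z *
      Complex.exp (Complex.I * (((X.sys hH g hb).η * (X.sys hH g hb).s i * z.1 : ℝ) : ℂ)) =
      Complex.exp (-(Complex.I * (eb H b * (X.s i * z.1) : ℝ))) *
        X.at' H g b i (X.tilt i z) := by
    intro i
    rw [Bxs.sys_a, mul_comm]
    congr 2
    simp only [Bxs.sys]
    push_cast
    ring
  simp_rw [h1]
  symm
  refine Finset.sum_subset (Finset.subset_univ _) fun i _ hi => ?_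
  rw [mem_act] at hi
  rw [X.at'_zero H g b hi, mul_zero]

theorem phase (t : ℝ) : ‖Complex.exp (-(Complex.I * (t : ℂ)))‖ₑ = 1 := by
  rw [show -(Complex.I * (t : ℂ)) = ((-t : ℝ) : ℂ) * Complex.I by push_cast; ring]
  rw [← ofReal_norm, Complex.norm_exp_ofReal_mul_I]
  simp

omit [Fintype κ] in
/-- Cauchy–Schwarz over the active tubes -/
theorem act_sq_le {X : Bxs ι κ} {z : ℝ × ℝ} {K : ℕ} (hK : (act X z).card ≤ K) (c : ι → ℂ) :
    ‖∑ i ∈ act X z, c i‖ₑ ^ 2 ≤ K * ∑ i ∈ act X z, ‖c i‖ₑ ^ 2 := by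
  classical
  have h := H8.Bxs.sq_sum_le (fun i => if i ∈ act X z then c i else 0) K (act X z) hK
    (fun i hi => by simp [hi])
  rw [Finset.sum_ite_mem, Finset.univ_inter] at h
  refine h.trans (le_of_eq ?_)
  congr 1
  rw [← Finset.sum_subset (Finset.subset_univ (act X z))]
  · refine Finset.sum_congr rfl fun i hi => ?_
    simp [hi]
  · intro i _ hi
    simp [hi]

/-- **steps, one level, all bands**: no hypothesis outside the boxes -/
theorem err_level {X : Bxs ι κ} (hX : X.Disj) {H θ : ℝ} (hH : 0 < H)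
    (hθ : ∀ k, X.h k ≤ θ * H) (hθ1 : θ ≤ 1) {g : ι → ℝ × ℝ → ℂ}
    (hg : ∀ i, Measurable (g i)) {C : ℝ} (hC : ∀ i z, ‖g i z‖ ≤ C)
    {gs : ι → ℝ × ℝ → ℝ≥0∞} (hgs : ∀ i, Measurable (gs i))
    (hosc : ∀ k, ∀ x ∈ Ico (X.x0 k) (X.x0 k + X.lam k),
      ∀ x' ∈ Ico (X.x0 k) (X.x0 k + X.lam k), ∀ t ∈ Ioo (X.y0 k) (X.y0 k + X.h k + H),
      ‖g (X.tb k) (x, t) - g (X.tb k) (x', t)‖ₑ ≤ gs (X.tb k) (x, t))
    {F : Set (ℝ × ℝ)} {K : ℕ} (hK : ∀ z ∈ F, (act X z).card ≤ K) (hF : MeasurableSet F)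
    {B : Type} (φ : B → ℤ) (hφ : Function.Injective φ) (h0 : ∀ b, φ b ≠ 0) :
    ∫⁻ z in F, ∑' b : B, ‖Gb H (φ b) (Gz X g z) z -
        (X.sys hH g (h0 b)).G Finset.univ z‖ₑ ^ 2 ≤
      K * ∑ i, (ENNReal.ofReal (8 * θ) * (∫⁻ w, ‖g i w‖ₑ ^ 2) + 2 * ∫⁻ w, gs i w ^ 2) := by
  classical
  set e : ι → ℤ → ℝ × ℝ → ℂ := fun i b w => Gb H b (g i) w - X.at' H g b i w with he
  have hem : ∀ i b, Measurable (e i b) := fun i b =>
    (Gb_meas hH b (hg i)).sub (X.measurable_at' H g b i)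
  have hm : ∀ i, Measurable fun w => ∑' b : ℤ, ‖e i b w‖ₑ ^ 2 := fun i =>
    Measurable.tsum fun b => (hem i b).enorm.pow_const 2
  have hm2 : ∀ i, Measurable fun w => (X.reg i).indicator
      (fun w => ∑' b : ℤ, ‖e i b w‖ₑ ^ 2) w := fun i => (hm i).indicator (reg_meas X i)
  calc ∫⁻ z in F, ∑' b : B, ‖Gb H (φ b) (Gz X g z) z -
        (X.sys hH g (h0 b)).G Finset.univ z‖ₑ ^ 2
      ≤ ∫⁻ z in F, K * ∑ i, (X.reg i).indicator
          (fun w => ∑' b : ℤ, ‖e i b w‖ₑ ^ 2) (X.tilt i z) := by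
        apply setLIntegral_mono' hF
        intro z hz
        calc ∑' b : B, ‖Gb H (φ b) (Gz X g z) z - (X.sys hH g (h0 b)).G Finset.univ z‖ₑ ^ 2
            ≤ ∑' b : B, (K * ∑ i ∈ act X z, ‖e i (φ b) (X.tilt i z)‖ₑ ^ 2) := by
              refine ENNReal.tsum_le_tsum fun b => ?_
              rw [Gb_Gz X hH hg hC, sys_G, ← Finset.sum_sub_distrib]
              refine (act_sq_le (hK z hz) _).trans (le_of_eq ?_)
              congr 1
              refine Finset.sum_congr rfl fun i _ => ?_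
              rw [← mul_sub, enorm_mul, phase, one_mul]
          _ = K * ∑ i ∈ act X z, ∑' b : B, ‖e i (φ b) (X.tilt i z)‖ₑ ^ 2 := by
              rw [ENNReal.tsum_mul_left, Summable.tsum_finsetSum (fun i _ => ENNReal.summable)]
          _ ≤ K * ∑ i ∈ act X z, ∑' b : ℤ, ‖e i b (X.tilt i z)‖ₑ ^ 2 := by
              gcongr with i _
              exact ENNReal.tsum_comp_le_tsum_of_injective hφ
                (fun b => ‖e i b (X.tilt i z)‖ₑ ^ 2)
          _ = K * ∑ i ∈ act X z, (X.reg i).indicator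
                (fun w => ∑' b : ℤ, ‖e i b w‖ₑ ^ 2) (X.tilt i z) := by
              congr 1
              refine Finset.sum_congr rfl fun i hi => ?_
              have hi' : z ∈ Ri X i := mem_act.1 hi
              rw [indicator_of_mem (show X.tilt i z ∈ X.reg i from hi')]
          _ ≤ _ := mul_le_mul' le_rfl (Finset.sum_le_sum_of_subset (Finset.subset_univ _))
    _ ≤ ∫⁻ z, K * ∑ i, (X.reg i).indicator
          (fun w => ∑' b : ℤ, ‖e i b w‖ₑ ^ 2) (X.tilt i z) := setLIntegral_le_lintegral _ _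
    _ = K * ∑ i, ∫⁻ z, (X.reg i).indicator
          (fun w => ∑' b : ℤ, ‖e i b w‖ₑ ^ 2) (X.tilt i z) := by
        have hm3 : ∀ i, Measurable fun z => (X.reg i).indicator
            (fun w => ∑' b : ℤ, ‖e i b w‖ₑ ^ 2) (X.tilt i z) := fun i =>
          (hm2 i).comp (tilt_meas X i)
        rw [lintegral_const_mul _ (Finset.measurable_sum _ fun i _ => hm3 i),
          lintegral_finsetSum _ fun i _ => hm3 i]
    _ = K * ∑ i, ∫⁻ w in X.reg i, ∑' b : ℤ, ‖e i b w‖ₑ ^ 2 := by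
        congr 1
        refine Finset.sum_congr rfl fun i _ => ?_
        rw [← lintegral_indicator (reg_meas X i)]
        exact Bxs.lint_tilt (X.s i) (hm2 i)
    _ ≤ _ := by
        gcongr with i _
        apply err_reg hX hH hθ hθ1 (hg i) (hC i) (hgs i)
        intro k hk
        subst hk
        exact hosc k

end Vale.Agent.P112.T580.Lev
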