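import Vale.Agent.P112.T580.Lev
import Vale.Agent.P112.T580.Amp2

/-!
# P112 [GAIN-LEV]: one occupancy level, part 2: Parseval, low bands, energies
-/

open MeasureTheory Set
open scoped ENNReal Real

noncomputable section

namespace Vale.Agent.P112.T580.Lev

open Vale.Agent.P112.H371 (eb Gb Wa Gb_meas tsum_Gb_bdd Wa_meas lint_Wa_all lint_shift Wa_eq)
open Vale.Agent.P112.H646 (Sys ff gg)
open Vale.Agent.P112.H8 (Bxs)
open Vale.Agent.P112.H8.Bxs (at'_eq at'_zero)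
open Vale.Agent.P112.H22.Use (Den Nt)

variable {ι κ : Type} [Fintype ι] [Fintype κ]

omit [Fintype κ] in
theorem Gz_meas2 {X : Bxs ι κ} {g : ι → ℝ × ℝ → ℂ} (hg : ∀ i, Measurable (g i)) (z : ℝ × ℝ) :
    Measurable (Gz X g z) := by
  unfold Gz
  exact Finset.measurable_sum _ fun i _ => (hg i).comp (tilt_meas X i)

omit [Fintype κ] in
theorem Gz_bdd {X : Bxs ι κ} {g : ι → ℝ × ℝ → ℂ} {C : ℝ} (hC : ∀ i z, ‖g i z‖ ≤ C) (z w : ℝ × ℝ) :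
    ‖Gz X g z w‖ ≤ Fintype.card ι * |C| := by
  unfold Gz
  refine (norm_sum_le _ _).trans ((Finset.sum_le_sum fun i _ => (hC i _).trans (le_abs_self C)).trans ?_)
  rw [Finset.sum_const, nsmul_eq_mul]
  have : ((act X z).card : ℝ) ≤ Fintype.card ι := by
    exact_mod_cast Finset.card_le_univ _
  exact mul_le_mul_of_nonneg_right this (abs_nonneg C)

omit [Fintype ι] [Fintype κ] in
/-- a shear of the argument -/
theorem Wa_tilt (X : Bxs ι κ) {H : ℝ} {f : ℝ × ℝ → ℝ≥0∞} (i : ι) (z : ℝ × ℝ) :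
    Wa H (fun w => f (X.tilt i w)) z = Wa H f (X.tilt i z) := by
  rw [Wa_eq, Wa_eq]
  congr 1
  refine lintegral_congr fun v => ?_
  congr 1
  unfold Bxs.tilt
  ext <;> simp
  ring

omit [Fintype κ] in
/-- Parseval for the sum of the active tubes -/
theorem parseval {X : Bxs ι κ} {H : ℝ} (hH : 0 < H) {g : ι → ℝ × ℝ → ℂ}
    (hg : ∀ i, Measurable (g i)) {C : ℝ} (hC : ∀ i z, ‖g i z‖ ≤ C) (z : ℝ × ℝ) :
    ∑' b : ℤ, ‖Gb H b (Gz X g z) z‖ₑ ^ 2 = Wa H (fun w => ‖Gz X g z w‖ₑ ^ 2) z :=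
  tsum_Gb_bdd hH (Gz_meas2 hg z) (Gz_bdd hC z) z

omit [Fintype κ] in
/-- the low bands at one point -/
theorem low_at {X : Bxs ι κ} {H k0 : ℝ} (hH : 0 < H) (hk : 0 ≤ k0) {g g1 : ι → ℝ × ℝ → ℂ}
    (hg : ∀ i, Measurable (g i)) (hg1 : ∀ i, Measurable (g1 i)) {C : ℝ}
    (hC : ∀ i z, ‖g i z‖ ≤ C) (hC1 : ∀ i z, ‖g1 i z‖ ≤ C)
    (hd : ∀ i x t, HasDerivAt (fun t => g1 i (x, t)) (g i (x, t)) t) {K : ℕ} {z : ℝ × ℝ}
    (hK : (act X z).card ≤ K) :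
    ∑ b ∈ H540.low H k0, ‖Gb H b (Gz X g z) z‖ₑ ^ 2 ≤ K * ∑ i,
      (ENNReal.ofReal (2 * (k0 * H + 1) / H ^ 2) *
        (2 * ‖g1 i (X.tilt i (z.1, z.2 + H))‖ₑ ^ 2 + 2 * ‖g1 i (X.tilt i z)‖ₑ ^ 2) +
      ENNReal.ofReal (2 * k0 ^ 2) * Wa H (fun w => ‖g1 i (X.tilt i w)‖ₑ ^ 2) z) := by
  classical
  have hder : ∀ t ∈ Icc z.2 (z.2 + H), HasDerivAt (fun t => Gz X g1 z (z.1, t))
      (Gz X g z (z.1, t)) t := by
    intro t _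
    unfold Gz
    have h1 : ∀ i ∈ act X z, HasDerivAt (fun t => g1 i (X.tilt i (z.1, t)))
        (g i (X.tilt i (z.1, t))) t := by
      intro i _
      exact (hd i z.1 (t - X.s i * z.1)).comp_sub_const t (X.s i * z.1)
    exact HasDerivAt.fun_sum h1
  have hi : IntegrableOn (fun t => Gz X g z (z.1, t)) (Ioc z.2 (z.2 + H)) := by
    unfold Gz
    exact integrable_finsetSum _ fun i _ => int_win hg hC i _ _ _
  have h1 := H540.low_pt (k0 := k0) hH (Gz_meas2 (X := X) hg1 z) (Gz_bdd hC1 z) (H540.low H k0)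
    (fun b hb => (H540.mem_low hH).1 hb) z hder hi
  have hcard : 2 * ((H540.low H k0).card : ℝ) / H ^ 2 ≤ 2 * (k0 * H + 1) / H ^ 2 := by
    gcongr
    exact H540.card_low_le hH hk
  have hsq : ∀ w : ℝ × ℝ, ‖Gz X g1 z w‖ₑ ^ 2 ≤ K * ∑ i ∈ act X z, ‖g1 i (X.tilt i w)‖ₑ ^ 2 :=
    fun w => act_sq_le hK fun i => g1 i (X.tilt i w)
  have hdiff : ‖Gz X g1 z (z.1, z.2 + H) - Gz X g1 z (z.1, z.2)‖ₑ ^ 2 ≤
      K * ∑ i ∈ act X z, (2 * ‖g1 i (X.tilt i (z.1, z.2 + H))‖ₑ ^ 2 +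
        2 * ‖g1 i (X.tilt i z)‖ₑ ^ 2) := by
    unfold Gz
    rw [← Finset.sum_sub_distrib]
    refine (act_sq_le hK fun i => g1 i (X.tilt i (z.1, z.2 + H)) - g1 i (X.tilt i (z.1, z.2))).trans ?_
    gcongr with i _
    exact H540.norm_sq_sub_le _ _
  have hWa : Wa H (fun w => ‖Gz X g1 z w‖ₑ ^ 2) z ≤
      K * ∑ i ∈ act X z, Wa H (fun w => ‖g1 i (X.tilt i w)‖ₑ ^ 2) z := by
    have hm : ∀ i, Measurable fun t => ‖g1 i (X.tilt i (z.1, t))‖ₑ ^ 2 := fun i =>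
      ((hg1 i).comp ((tilt_meas X i).comp (measurable_const.prodMk measurable_id))).enorm.pow_const 2
    calc Wa H (fun w => ‖Gz X g1 z w‖ₑ ^ 2) z
        ≤ Wa H (fun w => K * ∑ i ∈ act X z, ‖g1 i (X.tilt i w)‖ₑ ^ 2) z :=
          H371.Wa_mono (fun w => hsq w) z
      _ = K * ∑ i ∈ act X z, Wa H (fun w => ‖g1 i (X.tilt i w)‖ₑ ^ 2) z := by
          unfold Wa
          rw [lintegral_const_mul _ (Finset.measurable_sum _ fun i _ => hm i),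
            lintegral_finsetSum _ fun i _ => hm i, mul_left_comm, Finset.mul_sum]
  calc ∑ b ∈ H540.low H k0, ‖Gb H b (Gz X g z) z‖ₑ ^ 2
      ≤ ENNReal.ofReal (2 * (H540.low H k0).card / H ^ 2) *
        ‖Gz X g1 z (z.1, z.2 + H) - Gz X g1 z (z.1, z.2)‖ₑ ^ 2 +
        ENNReal.ofReal (2 * k0 ^ 2) * Wa H (fun w => ‖Gz X g1 z w‖ₑ ^ 2) z := h1
    _ ≤ ENNReal.ofReal (2 * (k0 * H + 1) / H ^ 2) *
        (K * ∑ i ∈ act X z, (2 * ‖g1 i (X.tilt i (z.1, z.2 + H))‖ₑ ^ 2 +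
        2 * ‖g1 i (X.tilt i z)‖ₑ ^ 2)) +
        ENNReal.ofReal (2 * k0 ^ 2) *
        (K * ∑ i ∈ act X z, Wa H (fun w => ‖g1 i (X.tilt i w)‖ₑ ^ 2) z) :=
        add_le_add (mul_le_mul' (ENNReal.ofReal_le_ofReal hcard) hdiff) (mul_le_mul' le_rfl hWa)
    _ = K * ∑ i ∈ act X z, (ENNReal.ofReal (2 * (k0 * H + 1) / H ^ 2) *
        (2 * ‖g1 i (X.tilt i (z.1, z.2 + H))‖ₑ ^ 2 + 2 * ‖g1 i (X.tilt i z)‖ₑ ^ 2) +
      ENNReal.ofReal (2 * k0 ^ 2) * Wa H (fun w => ‖g1 i (X.tilt i w)‖ₑ ^ 2) z) := by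
        rw [mul_left_comm (ENNReal.ofReal (2 * (k0 * H + 1) / H ^ 2)) (K : ℝ≥0∞),
          mul_left_comm (ENNReal.ofReal (2 * k0 ^ 2)) (K : ℝ≥0∞), ← mul_add]
        congr 1
        simp only [Finset.mul_sum, Finset.sum_add_distrib, mul_add]
    _ ≤ _ := mul_le_mul' le_rfl (Finset.sum_le_sum_of_subset (Finset.subset_univ _))

omit [Fintype κ] in
/-- **the low bands of one level** -/
theorem low_level {X : Bxs ι κ} {H k0 : ℝ} (hH : 0 < H) (hk : 0 ≤ k0) {g g1 : ι → ℝ × ℝ → ℂ}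
    (hg : ∀ i, Measurable (g i)) (hg1 : ∀ i, Measurable (g1 i)) {C : ℝ}
    (hC : ∀ i z, ‖g i z‖ ≤ C) (hC1 : ∀ i z, ‖g1 i z‖ ≤ C)
    (hd : ∀ i x t, HasDerivAt (fun t => g1 i (x, t)) (g i (x, t)) t)
    {F : Set (ℝ × ℝ)} {K : ℕ} (hK : ∀ z ∈ F, (act X z).card ≤ K) (hF : MeasurableSet F) :
    ∫⁻ z in F, ∑ b ∈ H540.low H k0, ‖Gb H b (Gz X g z) z‖ₑ ^ 2 ≤
      K * (ENNReal.ofReal (8 * k0 / H + 8 / H ^ 2 + 2 * k0 ^ 2) * ∑ i, ∫⁻ w, ‖g1 i w‖ₑ ^ 2) := by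
  have m1 : ∀ i, Measurable fun w => ‖g1 i (X.tilt i w)‖ₑ ^ 2 := fun i =>
    ((hg1 i).comp (tilt_meas X i)).enorm.pow_const 2
  have m2 : ∀ i, Measurable fun z : ℝ × ℝ => ‖g1 i (X.tilt i (z.1, z.2 + H))‖ₑ ^ 2 := fun i =>
    (m1 i).comp (measurable_fst.prodMk (measurable_snd.add_const H))
  have m3 : ∀ i, Measurable fun z : ℝ × ℝ =>
      (2 * ‖g1 i (X.tilt i (z.1, z.2 + H))‖ₑ ^ 2 + 2 * ‖g1 i (X.tilt i z)‖ₑ ^ 2) := fun i =>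
    ((m2 i).const_mul 2).add ((m1 i).const_mul 2)
  have m4 : ∀ i, Measurable fun z : ℝ × ℝ =>
      (ENNReal.ofReal (2 * (k0 * H + 1) / H ^ 2) *
        (2 * ‖g1 i (X.tilt i (z.1, z.2 + H))‖ₑ ^ 2 + 2 * ‖g1 i (X.tilt i z)‖ₑ ^ 2) +
      ENNReal.ofReal (2 * k0 ^ 2) * Wa H (fun w => ‖g1 i (X.tilt i w)‖ₑ ^ 2) z) := fun i =>
    ((m3 i).const_mul _).add ((Wa_meas (m1 i)).const_mul _)
  have t1 : ∀ i, ∫⁻ z : ℝ × ℝ, ‖g1 i (X.tilt i z)‖ₑ ^ 2 = ∫⁻ w, ‖g1 i w‖ₑ ^ 2 := fun i =>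
    Bxs.lint_tilt (X.s i) (f := fun w => ‖g1 i w‖ₑ ^ 2) ((hg1 i).enorm.pow_const 2)
  calc ∫⁻ z in F, ∑ b ∈ H540.low H k0, ‖Gb H b (Gz X g z) z‖ₑ ^ 2
      ≤ ∫⁻ z in F, K * ∑ i, (ENNReal.ofReal (2 * (k0 * H + 1) / H ^ 2) *
        (2 * ‖g1 i (X.tilt i (z.1, z.2 + H))‖ₑ ^ 2 + 2 * ‖g1 i (X.tilt i z)‖ₑ ^ 2) +
      ENNReal.ofReal (2 * k0 ^ 2) * Wa H (fun w => ‖g1 i (X.tilt i w)‖ₑ ^ 2) z) :=
        setLIntegral_mono' hF fun z hz => low_at hH hk hg hg1 hC hC1 hd (hK z hz)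
    _ ≤ ∫⁻ z, K * ∑ i, (ENNReal.ofReal (2 * (k0 * H + 1) / H ^ 2) *
        (2 * ‖g1 i (X.tilt i (z.1, z.2 + H))‖ₑ ^ 2 + 2 * ‖g1 i (X.tilt i z)‖ₑ ^ 2) +
      ENNReal.ofReal (2 * k0 ^ 2) * Wa H (fun w => ‖g1 i (X.tilt i w)‖ₑ ^ 2) z) :=
        setLIntegral_le_lintegral _ _
    _ = K * ∑ i, (ENNReal.ofReal (2 * (k0 * H + 1) / H ^ 2) *
        (2 * (∫⁻ w, ‖g1 i w‖ₑ ^ 2) + 2 * ∫⁻ w, ‖g1 i w‖ₑ ^ 2) +
        ENNReal.ofReal (2 * k0 ^ 2) * ∫⁻ w, ‖g1 i w‖ₑ ^ 2) := by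
        rw [lintegral_const_mul _ (Finset.measurable_sum _ fun i _ => m4 i),
          lintegral_finsetSum _ fun i _ => m4 i]
        congr 1
        refine Finset.sum_congr rfl fun i _ => ?_
        rw [lintegral_add_left ((m3 i).const_mul _), lintegral_const_mul _ (m3 i),
          lintegral_add_left ((m2 i).const_mul 2), lintegral_const_mul _ (m2 i),
          lintegral_const_mul _ (m1 i), lintegral_const_mul _ (Wa_meas (m1 i)),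
          lint_Wa_all hH (m1 i), lint_shift (fun z => ‖g1 i (X.tilt i z)‖ₑ ^ 2) H, t1]
    _ = K * (ENNReal.ofReal (8 * k0 / H + 8 / H ^ 2 + 2 * k0 ^ 2) *
          ∑ i, ∫⁻ w, ‖g1 i w‖ₑ ^ 2) := by
        have h4 : ENNReal.ofReal (8 * k0 / H + 8 / H ^ 2 + 2 * k0 ^ 2) =
            ENNReal.ofReal (2 * (k0 * H + 1) / H ^ 2) * 4 + ENNReal.ofReal (2 * k0 ^ 2) := by
          have h5 : (4 : ℝ≥0∞) = ENNReal.ofReal 4 := by norm_num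
          rw [h5, ← ENNReal.ofReal_mul (by positivity), ← ENNReal.ofReal_add (by positivity)
            (by positivity)]
          congr 1
          field_simp
          ring
        have h6 : ∀ x : ℝ≥0∞, ENNReal.ofReal (2 * (k0 * H + 1) / H ^ 2) * (2 * x + 2 * x) +
            ENNReal.ofReal (2 * k0 ^ 2) * x =
            ENNReal.ofReal (8 * k0 / H + 8 / H ^ 2 + 2 * k0 ^ 2) * x := by
          intro x
          rw [h4]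
          ring
        simp_rw [h6, ← Finset.mul_sum]

end Vale.Agent.P112.T580.Lev
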