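import Vale.Agent.P112.T580.Lev2
import Vale.Agent.P112.H646.Main

/-!
# P112 [GAIN-LEV]: one occupancy level, part 3: energies
-/

open MeasureTheory Set
open scoped ENNReal Real

noncomputable section

namespace Vale.Agent.P112.T580.Lev

open Vale.Agent.P112.H371 (eb Gb Wa Gb_meas tsum_Gb_bdd Wa_meas lint_Wa_all lint_shift Wa_eq)
open Vale.Agent.P112.H646 (Sys ff gg)
open Vale.Agent.P112.H8 (Bxs)
open Vale.Agent.P112.H8.Bxs (at'_eq at'_zero)
open Vale.Agent.P112.H22.Use (Den Nt)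

/-- Hölder with the measure of the support -/
theorem holder_supp {α : Type*} [MeasurableSpace α] {r : ℝ} (hr : 1 ≤ r) {μ : Measure α}
    {φ : α → ℝ≥0∞} (hφ : Measurable φ) {o : ℝ≥0∞} (ho : μ {w | φ w ≠ 0} ≤ o) :
    (∫⁻ w, φ w ∂μ) ^ r ≤ o ^ (r - 1) * ∫⁻ w, φ w ^ r ∂μ := by
  rcases hr.eq_or_lt with rfl | hr1
  · simp
  have hr0 : 0 < r := by linarith
  set S : Set α := {w | φ w ≠ 0} with hS
  have hSm : MeasurableSet S := hφ (measurableSet_singleton 0).compl
  have hpq : r.HolderConjugate (r / (r - 1)) := by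
    rw [Real.holderConjugate_iff]
    refine ⟨hr1, ?_⟩
    have : r - 1 ≠ 0 := by linarith
    field_simp
    ring
  have h1 : ∫⁻ w, φ w ∂μ = ∫⁻ w, (φ * S.indicator fun _ => (1 : ℝ≥0∞)) w ∂μ := by
    refine lintegral_congr fun w => ?_
    by_cases hw : w ∈ S
    · simp [indicator_of_mem hw]
    · have : φ w = 0 := by simpa [hS] using hw
      simp [this]
  have h2 := ENNReal.lintegral_mul_le_Lp_mul_Lq μ hpq hφ.aemeasurable
    ((measurable_const (a := (1 : ℝ≥0∞))).indicator hSm).aemeasurable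
  rw [← h1] at h2
  have h3 : ∫⁻ w, (S.indicator fun _ => (1 : ℝ≥0∞)) w ^ (r / (r - 1)) ∂μ = μ S := by
    have : ∀ w, (S.indicator fun _ => (1 : ℝ≥0∞)) w ^ (r / (r - 1)) =
        S.indicator (fun _ => (1 : ℝ≥0∞)) w := by
      intro w
      have hpos : 0 < r / (r - 1) := by
        have : 0 < r - 1 := by linarith
        positivity
      by_cases hw : w ∈ S
      · simp [indicator_of_mem hw]
      · simp [indicator_of_notMem hw, hpos]
    simp_rw [this]
    rw [lintegral_indicator hSm]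
    simp
  rw [h3] at h2
  calc (∫⁻ w, φ w ∂μ) ^ r
      ≤ ((∫⁻ w, φ w ^ r ∂μ) ^ (1 / r) * μ S ^ (1 / (r / (r - 1)))) ^ r :=
        ENNReal.rpow_le_rpow h2 hr0.le
    _ = (∫⁻ w, φ w ^ r ∂μ) * μ S ^ (r - 1) := by
        rw [ENNReal.mul_rpow_of_nonneg _ _ hr0.le, ← ENNReal.rpow_mul, ← ENNReal.rpow_mul,
          one_div_mul_cancel hr0.ne', ENNReal.rpow_one]
        congr 2
        have : r - 1 ≠ 0 := by linarith
        field_simp
    _ ≤ _ := by
        rw [mul_comm]
        gcongr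

/-- the `p`-th power of a window average, with the occupancy -/
theorem Wa_pow {H a p : ℝ} (hH : 0 < H) (ha : 0 ≤ a) (hp : 1 ≤ p) {f : ℝ × ℝ → ℝ≥0∞}
    (hf : Measurable f) {w : ℝ × ℝ}
    (ho : volume {t | t ∈ Ioc w.2 (w.2 + H) ∧ f (w.1, t) ≠ 0} ≤ ENNReal.ofReal (a * H)) :
    Wa H f w ^ p ≤ ENNReal.ofReal a ^ (p - 1) * Wa H (fun w => f w ^ p) w := by
  unfold Wa
  have hm : Measurable fun t => f (w.1, t) := hf.comp (measurable_const.prodMk measurable_id)
  have hS : MeasurableSet {t | f (w.1, t) ≠ 0} := hm (measurableSet_singleton 0).compl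
  have h1 := holder_supp hp (μ := (volume : Measure ℝ).restrict (Ioc w.2 (w.2 + H))) hm
    (o := ENNReal.ofReal (a * H)) (by
      rw [Measure.restrict_apply hS]
      refine (measure_mono ?_).trans ho
      rintro t ⟨h1, h2⟩
      exact ⟨h2, h1⟩)
  have h0 : ENNReal.ofReal (1 / H) ^ p * ENNReal.ofReal (a * H) ^ (p - 1) =
      ENNReal.ofReal a ^ (p - 1) * ENNReal.ofReal (1 / H) := by
    rw [ENNReal.ofReal_mul ha, ENNReal.mul_rpow_of_nonneg _ _ (by linarith)]
    have hc0 : ENNReal.ofReal (1 / H) ≠ 0 := by simpa using hH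
    have hct : ENNReal.ofReal (1 / H) ≠ ⊤ := ENNReal.ofReal_ne_top
    have h2 : ENNReal.ofReal (1 / H) ^ p =
        ENNReal.ofReal (1 / H) ^ (p - 1) * ENNReal.ofReal (1 / H) := by
      conv_rhs => rw [← ENNReal.rpow_one (ENNReal.ofReal (1 / H)), ← ENNReal.rpow_mul, one_mul]
      rw [← ENNReal.rpow_add _ _ hc0 hct]
      congr 1; ring
    have h3 : ENNReal.ofReal (1 / H) ^ (p - 1) * ENNReal.ofReal H ^ (p - 1) = 1 := by
      rw [← ENNReal.mul_rpow_of_nonneg _ _ (by linarith), ← ENNReal.ofReal_mul (by positivity),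
        one_div_mul_cancel hH.ne', ENNReal.ofReal_one, ENNReal.one_rpow]
    rw [h2]
    calc ENNReal.ofReal (1 / H) ^ (p - 1) * ENNReal.ofReal (1 / H) *
          (ENNReal.ofReal a ^ (p - 1) * ENNReal.ofReal H ^ (p - 1))
        = ENNReal.ofReal a ^ (p - 1) * ENNReal.ofReal (1 / H) *
          (ENNReal.ofReal (1 / H) ^ (p - 1) * ENNReal.ofReal H ^ (p - 1)) := by ring
      _ = _ := by rw [h3, mul_one]
  calc (ENNReal.ofReal (1 / H) * ∫⁻ t in Ioc w.2 (w.2 + H), f (w.1, t)) ^ p
      = ENNReal.ofReal (1 / H) ^ p * (∫⁻ t in Ioc w.2 (w.2 + H), f (w.1, t)) ^ p :=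
        ENNReal.mul_rpow_of_nonneg _ _ (by linarith)
    _ ≤ ENNReal.ofReal (1 / H) ^ p * (ENNReal.ofReal (a * H) ^ (p - 1) *
          ∫⁻ t in Ioc w.2 (w.2 + H), f (w.1, t) ^ p) := mul_le_mul' le_rfl h1
    _ = _ := by
        rw [← mul_assoc, h0, mul_assoc]

variable {ι κ : Type} [Fintype κ]

/-- the energy of the step amplitudes of one tube -/
def En (X : Bxs ι κ) (H : ℝ) (g : ι → ℝ × ℝ → ℂ) (i : ι) (w : ℝ × ℝ) : ℝ≥0∞ :=
  ∑' b : ℤ, ‖X.at' H g b i w‖ₑ ^ 2

theorem En_meas (X : Bxs ι κ) (H : ℝ) (g : ι → ℝ × ℝ → ℂ) (i : ι) : Measurable (En X H g i) :=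
  Measurable.tsum fun b => (X.measurable_at' H g b i).enorm.pow_const 2

/-- the `p`-th moment of the energy -/
theorem En_Lp {X : Bxs ι κ} (hX : X.Disj) {H a p : ℝ} (hH : 0 < H) (ha : 0 ≤ a) (hp : 1 ≤ p)
    {g : ι → ℝ × ℝ → ℂ} {i : ι} (hg : Measurable (g i)) {C : ℝ} (hC : ∀ z, ‖g i z‖ ≤ C)
    (ho : ∀ w ∈ X.reg i, volume {t | t ∈ Ioc w.2 (w.2 + H) ∧ g i (w.1, t) ≠ 0} ≤
      ENNReal.ofReal (a * H)) :
    ∫⁻ w, En X H g i w ^ p ≤ ENNReal.ofReal a ^ (p - 1) * ∫⁻ w, ‖g i w‖ₑ ^ (2 * p) := by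
  classical
  have hp0 : 0 < p := by linarith
  set S := Finset.univ.filter (fun k => X.tb k = i) with hS
  have hreg : X.reg i = ⋃ k ∈ S, X.box k := by
    ext w
    simp [Bxs.reg, hS]
  have hpd : Set.PairwiseDisjoint (↑S : Set κ) X.box := by
    intro k hk k' hk' hne
    simp only [hS, Finset.coe_filter, Finset.mem_univ, true_and, mem_ofPred_eq] at hk hk'
    exact hX k k' (hk.trans hk'.symm) hne
  have hm2 : Measurable fun w => ‖g i w‖ₑ ^ 2 := hg.enorm.pow_const 2
  have hmW : Measurable (Wa H fun w => ‖g i w‖ₑ ^ 2) := Wa_meas hm2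
  calc ∫⁻ w, En X H g i w ^ p
      = ∫⁻ w in X.reg i, En X H g i w ^ p := by
        rw [← lintegral_indicator (reg_meas X i)]
        refine lintegral_congr fun w => ?_
        by_cases hw : w ∈ X.reg i
        · rw [indicator_of_mem hw]
        · rw [indicator_of_notMem hw]
          have : En X H g i w = 0 := by
            unfold En
            rw [ENNReal.tsum_eq_zero]
            intro b
            rw [X.at'_zero H g b hw]
            simp
          rw [this, ENNReal.zero_rpow_of_pos hp0]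
    _ = ∑ k ∈ S, ∫⁻ w in X.box k, En X H g i w ^ p := by
        rw [hreg, lintegral_biUnion_finset hpd fun k _ => X.measurableSet_box k]
    _ ≤ ∑ k ∈ S, ∫⁻ w in X.box k, Wa H (fun w => ‖g i w‖ₑ ^ 2) w ^ p := by
        refine Finset.sum_le_sum fun k hk => ?_
        have hki : X.tb k = i := by simpa [hS] using hk
        subst hki
        have hv : volume (X.box k) = ENNReal.ofReal (X.lam k) * ENNReal.ofReal (X.h k) := by
          rw [Bxs.box, Measure.volume_eq_prod, Measure.prod_prod, Real.volume_Ico,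
            Real.volume_Ico]
          congr 2 <;> ring
        have hv0 : volume (X.box k) ≠ 0 := by
          rw [hv]
          exact mul_ne_zero (by simpa using X.lam_pos k) (by simpa using X.h_pos k)
        have hvt : volume (X.box k) ≠ ⊤ := by
          rw [hv]
          exact ENNReal.mul_ne_top ENNReal.ofReal_ne_top ENNReal.ofReal_ne_top
        have hJ := holder_supp hp (μ := volume.restrict (X.box k)) hmW
          (o := volume (X.box k)) ((measure_mono (subset_univ _)).trans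
            (by rw [Measure.restrict_apply_univ]))
        calc ∫⁻ w in X.box k, En X H g (X.tb k) w ^ p
            ≤ ∫⁻ w in X.box k, ((volume (X.box k))⁻¹ *
              ∫⁻ w in X.box k, Wa H (fun w => ‖g (X.tb k) w‖ₑ ^ 2) w) ^ p := by
              refine setLIntegral_mono' (X.measurableSet_box k) fun w hw => ?_
              exact ENNReal.rpow_le_rpow (Bxs.tsum_at'_le hX hH hg hC hw) hp0.le
          _ = ((volume (X.box k))⁻¹ *
              ∫⁻ w in X.box k, Wa H (fun w => ‖g (X.tb k) w‖ₑ ^ 2) w) ^ p *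
              volume (X.box k) := by rw [setLIntegral_const]
          _ ≤ ((volume (X.box k))⁻¹ ^ p * (volume (X.box k) ^ (p - 1) *
              ∫⁻ w in X.box k, Wa H (fun w => ‖g (X.tb k) w‖ₑ ^ 2) w ^ p)) *
              volume (X.box k) := by
              rw [ENNReal.mul_rpow_of_nonneg _ _ hp0.le]
              gcongr
          _ = ((volume (X.box k))⁻¹ ^ p * (volume (X.box k) ^ (p - 1) * volume (X.box k))) *
              ∫⁻ w in X.box k, Wa H (fun w => ‖g (X.tb k) w‖ₑ ^ 2) w ^ p := by ring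
          _ = _ := by
              have e1 : volume (X.box k) ^ (p - 1) * volume (X.box k) = volume (X.box k) ^ p := by
                conv_lhs => rw [← ENNReal.rpow_one (volume (X.box k)), ← ENNReal.rpow_mul, one_mul]
                rw [← ENNReal.rpow_add _ _ hv0 hvt]
                congr 1; ring
              rw [e1, ← ENNReal.mul_rpow_of_nonneg _ _ hp0.le, ENNReal.inv_mul_cancel hv0 hvt,
                ENNReal.one_rpow, one_mul]
    _ = ∫⁻ w in X.reg i, Wa H (fun w => ‖g i w‖ₑ ^ 2) w ^ p := by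
        rw [hreg, lintegral_biUnion_finset hpd fun k _ => X.measurableSet_box k]
    _ ≤ ∫⁻ w in X.reg i, ENNReal.ofReal a ^ (p - 1) *
          Wa H (fun w => ‖g i w‖ₑ ^ (2 * p)) w := by
        refine setLIntegral_mono' (reg_meas X i) fun w hw => ?_
        have h1 := Wa_pow hH ha hp hm2 (w := w) (by
          refine (measure_mono ?_).trans (ho w hw)
          rintro t ⟨h1, h2⟩
          refine ⟨h1, fun hc => h2 ?_⟩
          simp only [hc]
          simp)
        refine h1.trans (le_of_eq ?_)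
        congr 2
        funext w
        rw [← ENNReal.rpow_natCast, ← ENNReal.rpow_mul]
        norm_num
    _ ≤ ∫⁻ w, ENNReal.ofReal a ^ (p - 1) * Wa H (fun w => ‖g i w‖ₑ ^ (2 * p)) w :=
        setLIntegral_le_lintegral _ _
    _ = ENNReal.ofReal a ^ (p - 1) * ∫⁻ w, ‖g i w‖ₑ ^ (2 * p) := by
        have hm3 : Measurable fun w => ‖g i w‖ₑ ^ (2 * p) := hg.enorm.pow_const _
        rw [lintegral_const_mul _ (Wa_meas hm3), lint_Wa_all hH hm3]

end Vale.Agent.P112.T580.Lev
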