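import Vale.Agent.P112.T580.Lev3
import Vale.Agent.P112.H371.Marg

/-!
# P112 [GAIN-LEV]: one occupancy level, part 4: composition
-/

open MeasureTheory Set
open scoped ENNReal Real

noncomputable section

namespace Vale.Agent.P112.T580.Lev

open Vale.Agent.P112.H371 (eb Gb Wa Gb_meas tsum_Gb_bdd Wa_meas lint_Wa_all lint_shift Wa_eq)
open Vale.Agent.P112.H646 (Sys ff gg Arc)
open Vale.Agent.P112.H8 (Bxs)
open Vale.Agent.P112.H8.Bxs (at'_eq at'_zero)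
open Vale.Agent.P112.H22.Use (Den Nt use_Lp)

variable {ι κ : Type}

/-- the box `k` in the plane, enlarged by the relative amount `θ` -/
def dil (X : Bxs ι κ) (θ : ℝ) (k : κ) : Set (ℝ × ℝ) :=
  {z | X.x0 k - θ * X.lam k ≤ z.1 ∧ z.1 < X.x0 k + X.lam k + θ * X.lam k ∧
    X.y0 k - θ * X.h k ≤ z.2 - X.s (X.tb k) * z.1 ∧
    z.2 - X.s (X.tb k) * z.1 < X.y0 k + X.h k + θ * X.h k}

/-- separation of the boxes for all the frequencies above `k0` -/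
def SepB (X : Bxs ι κ) (k0 Q : ℝ) : Prop :=
  ∀ b b', X.tb b ≠ X.tb b' → (dil X 1 b ∩ dil X 1 b').Nonempty →
    Q ≤ k0 * |X.s (X.tb b) - X.s (X.tb b')| * min (X.lam b) (X.lam b')

/-- `z` is safe for all the boxes -/
def SafeB (X : Bxs ι κ) (θ : ℝ) (z : ℝ × ℝ) : Prop := ∀ b, z ∈ dil X (-θ) b ∨ z ∉ dil X θ b

/-- the high bands -/
def HB (H k0 : ℝ) : Type := {b : ℤ // k0 < |eb H b|}

instance (H k0 : ℝ) : Countable (HB H k0) := by unfold HB; infer_instance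

theorem HB_ne {H k0 : ℝ} (hk : 0 ≤ k0) (b : HB H k0) : b.1 ≠ 0 := by
  intro h
  have h2 := b.2
  rw [h] at h2
  simp only [eb, Int.cast_zero, mul_zero, zero_div, abs_zero] at h2
  linarith

/-- the split of the bands -/
theorem tsum_split {H : ℝ} (k0 : ℝ) (hH : 0 < H) (f : ℤ → ℝ≥0∞) :
    ∑' b : ℤ, f b = ∑ b ∈ H540.low H k0, f b + ∑' b : HB H k0, f b.1 := by
  have e : ∀ b, f b = (↑(H540.low H k0) : Set ℤ).indicator f b +
      {b : ℤ | k0 < |eb H b|}.indicator f b := by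
    intro b
    by_cases hb : |eb H b| ≤ k0
    · have h1 : b ∈ (↑(H540.low H k0) : Set ℤ) := by
        rw [Finset.mem_coe]; exact (H540.mem_low hH).2 hb
      have h2 : b ∉ {b : ℤ | k0 < |eb H b|} := not_lt.2 hb
      rw [indicator_of_mem h1, indicator_of_notMem h2, add_zero]
    · have h1 : b ∉ (↑(H540.low H k0) : Set ℤ) := by
        rw [Finset.mem_coe, H540.mem_low hH]; exact hb
      have h2 : b ∈ {b : ℤ | k0 < |eb H b|} := not_le.1 hb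
      rw [indicator_of_notMem h1, indicator_of_mem h2, zero_add]
  rw [tsum_congr e, ENNReal.tsum_add, ← tsum_subtype, ← tsum_subtype, Finset.tsum_subtype']
  rfl

variable [Fintype ι] [Fintype κ]

/-- the step systems of the high bands -/
def Zb (X : Bxs ι κ) {H k0 : ℝ} (hH : 0 < H) (hk : 0 ≤ k0) (g : ι → ℝ × ℝ → ℂ) (b : HB H k0) :
    Sys ι (X.Kb H g b.1) := X.sys hH g (HB_ne hk b)

theorem Den_le (X : Bxs ι κ) {H k0 : ℝ} (hH : 0 < H) (hk : 0 ≤ k0) (g : ι → ℝ × ℝ → ℂ) (i : ι)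
    (z : ℝ × ℝ) : Den (Zb X hH hk g) i z ≤ En X H g i (X.tilt i z) := by
  unfold Den En
  refine le_trans (le_of_eq (tsum_congr fun b => ?_)) (ENNReal.tsum_comp_le_tsum_of_injective
    (f := fun b : HB H k0 => b.1) Subtype.val_injective
    (fun b => ‖X.at' H g b i (X.tilt i z)‖ₑ ^ 2))
  rw [Zb, Bxs.sys_a, ENNReal.ofReal_pow (norm_nonneg _), ofReal_norm]

theorem Den_zero (X : Bxs ι κ) {H k0 : ℝ} (hH : 0 < H) (hk : 0 ≤ k0) (g : ι → ℝ × ℝ → ℂ) (i : ι)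
    {z : ℝ × ℝ} (hz : z ∉ Ri X i) : Den (Zb X hH hk g) i z = 0 := by
  refine le_antisymm ((Den_le X hH hk g i z).trans (le_of_eq ?_)) zero_le
  unfold En
  rw [ENNReal.tsum_eq_zero]
  intro b
  rw [X.at'_zero H g b hz]
  simp

theorem act_sub (X : Bxs ι κ) {H k0 : ℝ} (hH : 0 < H) (hk : 0 ≤ k0) (g : ι → ℝ × ℝ → ℂ)
    (b : HB H k0) (z : ℝ × ℝ) : (Zb X hH hk g b).act z ⊆ act X z := by
  intro i hi
  rw [H371.mem_act] at hi
  obtain ⟨k, hk1, hk2⟩ := hi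
  rw [mem_act]
  have h1 := (Bxs.mem_sys_bx X hH g (HB_ne hk b) k z).1 hk2
  have h2 : X.tb k.1 = i := hk1
  rw [h2] at h1
  exact ⟨k.1, h2, h1⟩

omit [Fintype κ] in
theorem Nt_eq (X : Bxs ι κ) (z : ℝ × ℝ) : Nt (Ri X) z = (act X z).card := rfl

/-- **[GAIN-LEV]** one occupancy level, complete. -/
theorem level : ∃ c0 : ℝ, 0 < c0 ∧ ∀ (ι κ : Type) [Fintype ι] [Fintype κ] (X : Bxs ι κ)
    (m K M0 : ℕ) (β p A A2 H1 Q δ θ H k0 C a : ℝ) (g g1 : ι → ℝ × ℝ → ℂ)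
    (gs : ι → ℝ × ℝ → ℝ≥0∞) (F : Set (ℝ × ℝ)),
    1 - c0 / Real.log (m + 3) ≤ β → 1 / 2 ≤ β → β ≤ 1 → 1 < p → 1 ≤ 2 * p * (1 - β) →
    1 ≤ m → 1 ≤ A2 → (4 * (m + 1) * A2) ^ (m + 3) ≤ A → 4 * (2 * A + 1) ^ (2 * m + 2) ≤ H1 →
    X.Disj → SepB X k0 Q → 0 < Q → 0 ≤ δ → 2 * m * K * δ ≤ 1 / 2 →
    (∀ b, Real.sqrt A2 * ((A + 1) * (3 * A) ^ (m + 2)) ≤ δ * (k0 * X.h b)) →
    Real.sqrt A2 * ((A + 1) * (3 * A) ^ (m + 2)) ≤ δ * Q →
    0 < H → 0 < k0 → (∀ k, X.h k ≤ θ * H) → θ ≤ 1 → 0 ≤ a →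
    (∀ i, Measurable (g i)) → (∀ i, Measurable (g1 i)) → (∀ i, Measurable (gs i)) →
    (∀ i z, ‖g i z‖ ≤ C) → (∀ i z, ‖g1 i z‖ ≤ C) →
    (∀ i x t, HasDerivAt (fun t => g1 i (x, t)) (g i (x, t)) t) →
    (∀ k, ∀ x ∈ Ico (X.x0 k) (X.x0 k + X.lam k),
      ∀ x' ∈ Ico (X.x0 k) (X.x0 k + X.lam k), ∀ t ∈ Ioo (X.y0 k) (X.y0 k + X.h k + H),
      ‖g (X.tb k) (x, t) - g (X.tb k) (x', t)‖ₑ ≤ gs (X.tb k) (x, t)) →
    (∀ i, ∀ w ∈ X.reg i, volume {t | t ∈ Ioc w.2 (w.2 + H) ∧ g i (w.1, t) ≠ 0} ≤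
      ENNReal.ofReal (a * H)) →
    MeasurableSet F →
    (∀ z ∈ F, (act X z).card ≤ K ∧ M0 ≤ (act X z).card ∧ Arc m H1 X.s (act X z) ∧
      SafeB X (2 * m * K * δ) z) → 1 ≤ M0 →
    ∫⁻ z in F, Wa H (fun w => ‖Gz X g z w‖ₑ ^ 2) z ≤
      K * (ENNReal.ofReal (8 * k0 / H + 8 / H ^ 2 + 2 * k0 ^ 2) * ∑ i, ∫⁻ w, ‖g1 i w‖ₑ ^ 2) +
      2 * (K * ∑ i, (ENNReal.ofReal (8 * θ) * (∫⁻ w, ‖g i w‖ₑ ^ 2) + 2 * ∫⁻ w, gs i w ^ 2)) +
      2 * ((ENNReal.ofReal (1 + K * (m * (14 * K ^ 3 / Real.sqrt A2))) *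
          ∑ i, ∫⁻ w, ‖g i w‖ₑ ^ 2) ^ (1 / 2 : ℝ) *
        ((∑ i, ∫⁻ w, ‖g i w‖ₑ ^ (2 * p)) ^ (1 / p) *
          ((M0 : ℝ≥0∞) ^ (-((2 * p * (1 - β) - 1) / (p - 1))) *
            (ENNReal.ofReal a * ∫⁻ z in F, ((act X z).card : ℝ≥0∞) ^ 2)) ^ (1 - 1 / p)) ^
              (1 / 2 : ℝ)) := by
  obtain ⟨c0, hc0, heart⟩ := H646.heart
  refine ⟨c0, hc0, ?_⟩
  intro ι κ _ _ X m K M0 β p A A2 H1 Q δ θ H k0 C a g g1 gs F hβ0 hβ1 hβ2 hp hpβ hm hA2 hA hH1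
    hX hSep hQ hδ hmK hb hbQ hH hk0 hθ hθ1 ha hg hg1 hgs hC hC1 hd hosc hocc hF hz hM0
  have hk0' := hk0.le
  have hp0 : 0 < p := by linarith
  have hK : ∀ z ∈ F, (act X z).card ≤ K := fun z h => (hz z h).1
  have hmG : ∀ b : ℤ, Measurable fun z => Gb H b (Gz X g z) z := by
    intro b
    have : (fun z => Gb H b (Gz X g z) z) = fun z => ∑ i, (Ri X i).indicator (fun z =>
        Complex.exp (-(Complex.I * (eb H b * (X.s i * z.1) : ℝ))) *
          Gb H b (g i) (X.tilt i z)) z := by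
      funext z
      rw [Gb_Gz X hH hg hC]
      classical
      rw [act, Finset.sum_filter]
      refine Finset.sum_congr rfl fun i _ => ?_
      by_cases h : z ∈ Ri X i
      · rw [if_pos h, indicator_of_mem h]
      · rw [if_neg h, indicator_of_notMem h]
    rw [this]
    refine Finset.measurable_sum _ fun i _ => Measurable.indicator ?_ (Ri_meas X i)
    refine Measurable.mul ?_ ((Gb_meas hH b (hg i)).comp (tilt_meas X i))
    refine Complex.measurable_exp.comp (Measurable.neg (measurable_const.mul ?_))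
    refine Complex.measurable_ofReal.comp ?_
    exact measurable_const.mul (measurable_const.mul measurable_fst)
  have hmZ : ∀ b : HB H k0, Measurable ((Zb X hH hk0' g b).G Finset.univ) := fun b =>
    H22.Use.measurable_G _ _
  -- the heart in every band
  have hheart : ∀ b : HB H k0, ∫⁻ z in F, (Zb X hH hk0' g b).phi β Finset.univ z ≤
      ENNReal.ofReal (1 + K * (m * (14 * K ^ 3 / Real.sqrt A2))) *
        ∫⁻ z, (Zb X hH hk0' g b).sq Finset.univ z := by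
    intro b
    have hη : k0 ≤ |(Zb X hH hk0' g b).η| := by
      show k0 ≤ |-(eb H b.1)|
      rw [abs_neg]
      exact b.2.le
    refine heart ι _ (Zb X hH hk0' g b) m K β A A2 H1 Q δ F hβ0 hβ2 hm hA2 hA hH1
      (Bxs.sys_disj hX hH g (HB_ne hk0' b)) ?_ hQ hδ hmK ?_ hbQ hF ?_
    · intro k k' hne hmeet
      have h1 := hSep k.1 k'.1 hne hmeet
      refine h1.trans ?_
      have h2 : 0 ≤ |X.s (X.tb k.1) - X.s (X.tb k'.1)| * min (X.lam k.1) (X.lam k'.1) :=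
        mul_nonneg (abs_nonneg _) (le_min (X.lam_pos _).le (X.lam_pos _).le)
      have h3 := mul_le_mul_of_nonneg_right hη h2
      rw [← mul_assoc, ← mul_assoc] at h3
      exact h3
    · intro k
      refine (hb k.1).trans ?_
      have h2 := (X.h_pos k.1).le
      exact mul_le_mul_of_nonneg_left (mul_le_mul_of_nonneg_right hη h2) hδ
    · intro z hzF
      obtain ⟨h1, _, h3, h4⟩ := hz z hzF
      have hsub := act_sub X hH hk0' g b z
      refine ⟨(Finset.card_le_card hsub).trans h1, ?_, ?_⟩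
      · intro P' hP'
        exact h3 P' (hP'.trans hsub)
      · intro k b' _
        exact h4 b'.1
  -- the closing form
  have huse := use_Lp (Zb X hH hk0' g) hβ1 hp hpβ (M0 := (M0 : ℝ≥0∞)) (Ri X) (Ri_meas X) hF hheart
    (fun z _ i hi => Den_zero X hH hk0' g i hi) (by exact_mod_cast hM0)
    (fun z h => by rw [Nt_eq]; exact_mod_cast (hz z h).2.1)
  have hDen1 : ∀ i, ∫⁻ z, Den (Zb X hH hk0' g) i z ≤ ∫⁻ w, ‖g i w‖ₑ ^ 2 := by
    intro i
    calc ∫⁻ z, Den (Zb X hH hk0' g) i z ≤ ∫⁻ z, En X H g i (X.tilt i z) :=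
          lintegral_mono fun z => Den_le X hH hk0' g i z
      _ = ∫⁻ w, En X H g i w := Bxs.lint_tilt (X.s i) (En_meas X H g i)
      _ ≤ _ := Bxs.lint_at'_le hX hH (hg i) (hC i)
  have hDenp : ∀ i, ∫⁻ z in F, Den (Zb X hH hk0' g) i z ^ p ≤
      ENNReal.ofReal a ^ (p - 1) * ∫⁻ w, ‖g i w‖ₑ ^ (2 * p) := by
    intro i
    calc ∫⁻ z in F, Den (Zb X hH hk0' g) i z ^ p
        ≤ ∫⁻ z, Den (Zb X hH hk0' g) i z ^ p := setLIntegral_le_lintegral _ _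
      _ ≤ ∫⁻ z, En X H g i (X.tilt i z) ^ p :=
          lintegral_mono fun z => ENNReal.rpow_le_rpow (Den_le X hH hk0' g i z) hp0.le
      _ = ∫⁻ w, En X H g i w ^ p := Bxs.lint_tilt (X.s i) (f := fun w => En X H g i w ^ p)
          ((En_meas X H g i).pow_const p)
      _ ≤ _ := En_Lp hX hH ha hp.le (hg i) (hC i) (hocc i)
  have hmain : ∫⁻ z in F, ∑' b : HB H k0,
      ENNReal.ofReal (‖(Zb X hH hk0' g b).G Finset.univ z‖ ^ 2) ≤
      (ENNReal.ofReal (1 + K * (m * (14 * K ^ 3 / Real.sqrt A2))) *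
          ∑ i, ∫⁻ w, ‖g i w‖ₑ ^ 2) ^ (1 / 2 : ℝ) *
        ((∑ i, ∫⁻ w, ‖g i w‖ₑ ^ (2 * p)) ^ (1 / p) *
          ((M0 : ℝ≥0∞) ^ (-((2 * p * (1 - β) - 1) / (p - 1))) *
            (ENNReal.ofReal a * ∫⁻ z in F, ((act X z).card : ℝ≥0∞) ^ 2)) ^ (1 - 1 / p)) ^
              (1 / 2 : ℝ) := by
    refine huse.trans ?_
    gcongr ?_ ^ (1 / 2 : ℝ) * ?_ ^ (1 / 2 : ℝ)
    · exact mul_le_mul' le_rfl (Finset.sum_le_sum fun i _ => hDen1 i)
    · calc (∑ i, ∫⁻ z in F, Den (Zb X hH hk0' g) i z ^ p) ^ (1 / p) *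
            ((M0 : ℝ≥0∞) ^ (-((2 * p * (1 - β) - 1) / (p - 1))) *
              ∫⁻ z in F, (Nt (Ri X) z : ℝ≥0∞) ^ 2) ^ (1 - 1 / p)
          ≤ (ENNReal.ofReal a ^ (p - 1) * ∑ i, ∫⁻ w, ‖g i w‖ₑ ^ (2 * p)) ^ (1 / p) *
            ((M0 : ℝ≥0∞) ^ (-((2 * p * (1 - β) - 1) / (p - 1))) *
              ∫⁻ z in F, (Nt (Ri X) z : ℝ≥0∞) ^ 2) ^ (1 - 1 / p) := by
            gcongr ?_ ^ (1 / p) * _
            rw [Finset.mul_sum]
            exact Finset.sum_le_sum fun i _ => hDenp i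
        _ = _ := by
            have hnn : 0 ≤ 1 - 1 / p := by
              rw [sub_nonneg, div_le_one hp0]; exact hp.le
            rw [ENNReal.mul_rpow_of_nonneg _ _ (by positivity : 0 ≤ 1 / p), ← ENNReal.rpow_mul,
              show (p - 1) * (1 / p) = 1 - 1 / p by field_simp,
              mul_comm (ENNReal.ofReal a ^ (1 - 1 / p)), mul_assoc,
              ← ENNReal.mul_rpow_of_nonneg _ _ hnn]
            congr 2
            simp only [Nt_eq]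
            ring
  have herr := err_level hX hH hθ hθ1 hg hC hgs hosc hK hF (B := HB H k0) (fun b => b.1)
    Subtype.val_injective (HB_ne hk0')
  have hlow := low_level (X := X) hH hk0' hg hg1 hC hC1 hd hK hF
  calc ∫⁻ z in F, Wa H (fun w => ‖Gz X g z w‖ₑ ^ 2) z
      = ∫⁻ z in F, (∑ b ∈ H540.low H k0, ‖Gb H b (Gz X g z) z‖ₑ ^ 2 +
        ∑' b : HB H k0, ‖Gb H b.1 (Gz X g z) z‖ₑ ^ 2) := by
        refine lintegral_congr fun z => ?_
        rw [← parseval hH hg hC z, tsum_split k0 hH]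
    _ = (∫⁻ z in F, ∑ b ∈ H540.low H k0, ‖Gb H b (Gz X g z) z‖ₑ ^ 2) +
        ∫⁻ z in F, ∑' b : HB H k0, ‖Gb H b.1 (Gz X g z) z‖ₑ ^ 2 := by
        rw [lintegral_add_left]
        exact Finset.measurable_sum _ fun b _ => (hmG b).enorm.pow_const 2
    _ ≤ (∫⁻ z in F, ∑ b ∈ H540.low H k0, ‖Gb H b (Gz X g z) z‖ₑ ^ 2) +
        (2 * (∫⁻ z in F, ∑' b : HB H k0, ‖Gb H b.1 (Gz X g z) z -
          (Zb X hH hk0' g b).G Finset.univ z‖ₑ ^ 2) +
        2 * ∫⁻ z in F, ∑' b : HB H k0,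
          ENNReal.ofReal (‖(Zb X hH hk0' g b).G Finset.univ z‖ ^ 2)) := by
        gcongr 1
        have m1 : Measurable fun z => ∑' b : HB H k0, ‖Gb H b.1 (Gz X g z) z -
          (Zb X hH hk0' g b).G Finset.univ z‖ₑ ^ 2 :=
          Measurable.tsum fun b => ((hmG b.1).sub (hmZ b)).enorm.pow_const 2
        have m2 : Measurable fun z => ∑' b : HB H k0,
          ENNReal.ofReal (‖(Zb X hH hk0' g b).G Finset.univ z‖ ^ 2) :=
          Measurable.tsum fun b => ENNReal.measurable_ofReal.comp ((hmZ b).norm.pow_const 2)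
        rw [← lintegral_const_mul _ m1, ← lintegral_const_mul _ m2,
          ← lintegral_add_left (m1.const_mul 2)]
        refine lintegral_mono fun z => ?_
        rw [← ENNReal.tsum_mul_left, ← ENNReal.tsum_mul_left, ← ENNReal.tsum_add]
        refine ENNReal.tsum_le_tsum fun b => ?_
        have h := H540.norm_sq_add_le (Gb H b.1 (Gz X g z) z - (Zb X hH hk0' g b).G Finset.univ z)
          ((Zb X hH hk0' g b).G Finset.univ z)
        rw [sub_add_cancel] at h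
        rw [ENNReal.ofReal_pow (norm_nonneg _), ofReal_norm]
        exact h
    _ ≤ _ := by
        rw [add_assoc]
        exact add_le_add hlow (add_le_add (mul_le_mul' le_rfl herr) (mul_le_mul' le_rfl hmain))

end Vale.Agent.P112.T580.Lev
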