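import Vale.Agent.P112.T580.Amp5

/-!
# P112: the maximal truncations of a tree function

`FM ζ = sup_{m ≤ n} |κ.FS u g E m ζ|` is bounded in every `L^q`, also in windows with the measure of
the active offsets.
-/

open MeasureTheory Set
open scoped ENNReal NNReal FourierTransform ContDiff

namespace Vale.Agent.P112.T580

open Vale.Agent.P112.T (Ker Nice Field Un)
open Vale.Agent.P112.H864 (prof Win)

/-- the maximal truncation -/
noncomputable def FM {M : ℕ} (κ : Ker M) (u : ℝ × ℝ → ℝ) (g : ℝ × ℝ → ℝ)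
    (E : ℕ → Set (ℝ × ℝ)) (n : ℕ) (ζ : ℝ × ℝ) : ℝ≥0∞ :=
  ⨆ m : ℕ, ⨆ _ : m ≤ n, ‖κ.FS u g E m ζ‖ₑ

theorem le_FM {M : ℕ} (κ : Ker M) (u : ℝ × ℝ → ℝ) (g : ℝ × ℝ → ℝ) (E : ℕ → Set (ℝ × ℝ))
    {m n : ℕ} (hm : m ≤ n) (ζ : ℝ × ℝ) : ‖κ.FS u g E m ζ‖ₑ ≤ FM κ u g E n ζ :=
  le_iSup_of_le m (le_iSup_of_le hm le_rfl)

theorem FM_meas {M : ℕ} (κ : Ker M) {u : ℝ × ℝ → ℝ} (hu : Field u) {g : ℝ × ℝ → ℝ}
    (hg : Nice g) {E : ℕ → Set (ℝ × ℝ)} (hE : ∀ j, MeasurableSet (E j)) (n : ℕ) :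
    Measurable (FM κ u g E n) := by
  unfold FM
  exact Measurable.iSup fun m => Measurable.iSup_Prop _ (κ.FS_nice hu hg hE m).meas.enorm

/-- averages on lines -/
theorem AvL_le_MS (s : ℝ) {B : ℝ} (hB : 0 < B) (j : ℕ) {F : ℝ × ℝ → ℝ} (ζ : ℝ × ℝ) :
    ENNReal.ofReal (T.AvL s B j (fun z => |F z|) ζ) ≤
      ENNReal.ofReal (4 * B) * HL.MS s (fun z => ‖F z‖ₑ) ζ := by
  have h2 : (0 : ℝ) < 2 ^ j := by positivity
  set L : ℝ := 2 * B / 2 ^ j with hL
  have hL0 : 0 < L := by positivity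
  unfold T.AvL
  rw [ENNReal.ofReal_mul h2.le]
  have h1 : ENNReal.ofReal (∫ x in {x : ℝ | |x - ζ.1| ≤ B / 2 ^ j},
      |F (x, ζ.2 + s * (x - ζ.1))|) ≤
      ∫⁻ x in Metric.ball ζ.1 L, ‖F (x, ζ.2 + s * (x - ζ.1))‖ₑ := by
    refine (ENNReal.ofReal_le_ofReal (le_abs_self _)).trans ?_
    rw [← Real.enorm_eq_ofReal_abs]
    refine (enorm_integral_le_lintegral_enorm _).trans ?_
    refine le_trans (lintegral_mono_set ?_) (le_of_eq ?_) (b := ∫⁻ x in Metric.ball ζ.1 L,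
      ‖|F (x, ζ.2 + s * (x - ζ.1))|‖ₑ)
    · intro x hx
      rw [Metric.mem_ball, Real.dist_eq]
      have hx' : |x - ζ.1| ≤ B / 2 ^ j := hx
      refine lt_of_le_of_lt hx' ?_
      have : 0 < B / 2 ^ j := by positivity
      have e : 2 * B / 2 ^ j = B / 2 ^ j + B / 2 ^ j := by ring
      linarith
    · refine lintegral_congr fun x => ?_
      rw [Real.enorm_eq_ofReal_abs, abs_abs, ← Real.enorm_eq_ofReal_abs]
  have h3 := HL.avg_le_MF (fun x => ‖F (x, ζ.2 + s * (x - ζ.1))‖ₑ)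
    (Metric.mem_ball_self hL0 : ζ.1 ∈ Metric.ball ζ.1 L)
  rw [ENNReal.div_le_iff (by simpa using hL0) ENNReal.ofReal_ne_top] at h3
  calc ENNReal.ofReal (2 ^ j) * ENNReal.ofReal (∫ x in {x : ℝ | |x - ζ.1| ≤ B / 2 ^ j},
        |F (x, ζ.2 + s * (x - ζ.1))|)
      ≤ ENNReal.ofReal (2 ^ j) * (HL.MS s (fun z => ‖F z‖ₑ) ζ * ENNReal.ofReal (2 * L)) := by
        gcongr
        exact h1.trans h3
    _ = _ := by
        rw [mul_left_comm, ← ENNReal.ofReal_mul h2.le, mul_comm]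
        congr 2
        rw [hL]
        field_simp
        ring

/-- **(MAXLEAF a)** -/
theorem FM_le (M : ℕ) (A C0 : ℝ) (hA : 1 ≤ A) : ∃ C : ℝ, 1 ≤ C ∧ ∀ (N : ℝ) (κ : Ker M),
    κ.Bd N C0 → ∀ u : ℝ × ℝ → ℝ, Field u → ∀ (n : ℕ) (E : ℕ → Set (ℝ × ℝ)),
    (∀ j, MeasurableSet (E j)) → ∀ s : ℝ,
    (∀ j < n, ∀ z ∈ E j, |u z - s| ≤ A * 2 ^ j / N) → ∀ g : ℝ × ℝ → ℝ, Nice g → ∀ ζ : ℝ × ℝ,
      FM κ u g E n ζ ≤ ENNReal.ofReal C *
        (HL.MS s (fun z => ‖κ.FS u g E n z‖ₑ) ζ + GR s (Un E n) g ζ) := by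
  obtain ⟨C, B, hC, hB, h⟩ := H964.stN4a M A C0 hA
  have hB0 : 0 < B := by linarith
  refine ⟨48 * B ^ 2 * C + 1, by nlinarith [mul_pos (sq_pos_of_pos hB0) hC], ?_⟩
  intro N κ hκ u hu n E hE s hs g hg ζ
  refine iSup_le fun m => iSup_le fun hm => ?_
  rcases m with _ | j
  · have : κ.FS u g E 0 ζ = 0 := by unfold Ker.FS; simp
    rw [this, enorm_zero]
    exact zero_le
  have h1 := h N κ hκ u hu n E hE s hs g hg j (by omega) ζ
  have hUn := Un_meas hE n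
  have e1 : ((Un E n).indicator fun z => |g z|) = fun z => |(Un E n).indicator g z| := by
    funext z
    by_cases hz : z ∈ Un E n
    · simp only [indicator_of_mem hz]
    · simp only [indicator_of_notMem hz, abs_zero]
  have hGn : ∀ i, 0 ≤ T.Av s B i (fun z => |(Un E n).indicator g z|) ζ := fun i =>
    mul_nonneg (by positivity) (integral_nonneg fun _ => abs_nonneg _)
  have hLn : 0 ≤ T.AvL s B j (fun z => |κ.FS u g E n z|) ζ :=
    mul_nonneg (by positivity) (integral_nonneg fun _ => abs_nonneg _)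
  -- the last sum
  have h2 : ∀ i ∈ Finset.range (j + 1), 2 ^ i / 2 ^ j *
      T.Av s B i ((E i).indicator fun z => |g z|) ζ ≤
      2 ^ i / 2 ^ j * T.Av s B i (fun z => |(Un E n).indicator g z|) ζ := by
    intro i hi
    have hin : i < n := by have := Finset.mem_range.1 hi; omega
    refine mul_le_mul_of_nonneg_left ?_ (by positivity)
    unfold T.Av
    refine mul_le_mul_of_nonneg_left ?_ (by positivity)
    refine integral_mono ?_ (hg.integrable.indicator hUn).abs.integrableOn fun z => ?_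
    · have : ((E i).indicator fun z => |g z|) = fun z => |(E i).indicator g z| := by
        funext z
        by_cases hz : z ∈ E i
        · simp only [indicator_of_mem hz]
        · simp only [indicator_of_notMem hz, abs_zero]
      rw [this]
      exact (hg.integrable.indicator (hE i)).abs.integrableOn
    · by_cases hz : z ∈ E i
      · have hz' : z ∈ Un E n := ⟨i, hin, hz⟩
        simp only [indicator_of_mem hz, indicator_of_mem hz', le_refl]
      · simp only [indicator_of_notMem hz]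
        exact abs_nonneg _
  rw [Real.enorm_eq_ofReal_abs]
  refine (ENNReal.ofReal_le_ofReal (h1.trans (mul_le_mul_of_nonneg_left (add_le_add
    (add_le_add le_rfl (le_of_eq (by rw [e1]))) (Finset.sum_le_sum h2)) hC.le))).trans ?_
  have hsumn : 0 ≤ ∑ i ∈ Finset.range (j + 1), 2 ^ i / 2 ^ j *
      T.Av s B i (fun z => |(Un E n).indicator g z|) ζ :=
    Finset.sum_nonneg fun i _ => mul_nonneg (by positivity) (hGn i)
  rw [ENNReal.ofReal_mul hC.le, ENNReal.ofReal_add (add_nonneg hLn (hGn j)) hsumn,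
    ENNReal.ofReal_add hLn (hGn j), ENNReal.ofReal_sum_of_nonneg fun i _ =>
      mul_nonneg (by positivity) (hGn i)]
  have h3 := AvL_le_MS s hB0 j (F := κ.FS u g E n) ζ
  have h4 := fun i => Av_le_GR s hB0 i hUn hg.meas ζ
  have h5 : ∑ i ∈ Finset.range (j + 1), ENNReal.ofReal (2 ^ i / 2 ^ j *
      T.Av s B i (fun z => |(Un E n).indicator g z|) ζ) ≤
      ENNReal.ofReal (32 * B ^ 2) * GR s (Un E n) g ζ := by
    calc ∑ i ∈ Finset.range (j + 1), ENNReal.ofReal (2 ^ i / 2 ^ j *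
          T.Av s B i (fun z => |(Un E n).indicator g z|) ζ)
        ≤ ∑ i ∈ Finset.range (j + 1), ENNReal.ofReal (2 ^ i / 2 ^ j) *
          (ENNReal.ofReal (16 * B ^ 2) * GR s (Un E n) g ζ) := by
          refine Finset.sum_le_sum fun i _ => ?_
          rw [ENNReal.ofReal_mul (by positivity)]
          exact mul_le_mul' le_rfl (h4 i)
      _ = ENNReal.ofReal (∑ i ∈ Finset.range (j + 1), (2 : ℝ) ^ i / 2 ^ j) *
          (ENNReal.ofReal (16 * B ^ 2) * GR s (Un E n) g ζ) := by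
          rw [← Finset.sum_mul, ENNReal.ofReal_sum_of_nonneg fun i _ => by positivity]
      _ ≤ ENNReal.ofReal 2 * (ENNReal.ofReal (16 * B ^ 2) * GR s (Un E n) g ζ) := by
          gcongr
          rw [← Finset.sum_div, div_le_iff₀ (by positivity), geom_sum_eq (by norm_num), pow_succ]
          have : (0 : ℝ) < 2 ^ j := by positivity
          linarith
      _ = _ := by
          rw [← mul_assoc, ← ENNReal.ofReal_mul (by norm_num)]
          congr 2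
          ring
  calc ENNReal.ofReal C * (ENNReal.ofReal (T.AvL s B j (fun z => |κ.FS u g E n z|) ζ) +
        ENNReal.ofReal (T.Av s B j (fun z => |(Un E n).indicator g z|) ζ) +
        ∑ i ∈ Finset.range (j + 1), ENNReal.ofReal (2 ^ i / 2 ^ j *
          T.Av s B i (fun z => |(Un E n).indicator g z|) ζ))
      ≤ ENNReal.ofReal C * (ENNReal.ofReal (48 * B ^ 2) *
          HL.MS s (fun z => ‖κ.FS u g E n z‖ₑ) ζ +
        ENNReal.ofReal (16 * B ^ 2) * GR s (Un E n) g ζ +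
        ENNReal.ofReal (32 * B ^ 2) * GR s (Un E n) g ζ) := by
        refine mul_le_mul' le_rfl (add_le_add (add_le_add
          (h3.trans (mul_le_mul' (ENNReal.ofReal_le_ofReal ?_) le_rfl)) (h4 j)) h5)
        nlinarith
    _ = ENNReal.ofReal (48 * B ^ 2 * C) *
        (HL.MS s (fun z => ‖κ.FS u g E n z‖ₑ) ζ + GR s (Un E n) g ζ) := by
        rw [add_assoc, ← add_mul, ← ENNReal.ofReal_add (by positivity) (by positivity),
          show 16 * B ^ 2 + 32 * B ^ 2 = 48 * B ^ 2 by ring, ← mul_add, ← mul_assoc,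
          ← ENNReal.ofReal_mul hC.le, mul_comm C]
    _ ≤ _ := by
        gcongr
        linarith

/-- **(MAXLEAF b)** -/
theorem FM_Lq {M : ℕ} {A C0 : ℝ} (hA : 1 ≤ A) (hC0 : 0 ≤ C0) : ∃ C : ℝ, 1 ≤ C ∧
    ∀ q : ℝ, 3 ≤ q → ∀ (N : ℝ) (κ : Ker M), κ.Bd N C0 → ∀ (τ : ℝ) (u : ℝ × ℝ → ℝ), Field u →
    ∀ (n : ℕ) (E : ℕ → Set (ℝ × ℝ)) (s δ : ℝ), TreeN N A δ τ s u n E →
    ∀ g : ℝ × ℝ → ℝ, Nice g →
      ∫⁻ ζ, FM κ u g E n ζ ^ q ≤
        ENNReal.ofReal ((C * q) ^ (3 * q) * (1 + δ ^ (q - 1))) * ∫⁻ z in Un E n, ‖g z‖ₑ ^ q := by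
  obtain ⟨C1, hC1, h1⟩ := HL.tqUN (M := M) hA hC0
  obtain ⟨C2, hC2, h2⟩ := FM_le M A C0 hA
  refine ⟨128 * C2 * C1, by nlinarith, ?_⟩
  intro q hq N κ hκ τ u hu n E s δ hT g hg
  have hδ := hT.pos
  have hq0 : 0 < q := by linarith
  have hUn := Un_meas hT.meas n
  set I : ℝ≥0∞ := ∫⁻ z in Un E n, ‖g z‖ₑ ^ q with hI
  have hFm : Measurable fun z => ‖κ.FS u g E n z‖ₑ :=
    (κ.FS_nice hu hg hT.meas n).meas.enorm
  have hMS := HL.strong_MS (p := q) (by linarith) s hFm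
  have hGR := GR_Lp (p := q) (by linarith) s hUn hg.meas
  have hT1 := h1 q hq N κ hκ τ u hu n E s δ hT g hg
  have hCM : HL.CM q ≤ ENNReal.ofReal (16 * 2 ^ q) := by
    unfold HL.CM
    apply ENNReal.ofReal_le_ofReal
    rw [div_le_iff₀ (by linarith), Real.rpow_sub_one (by norm_num)]
    have : (0 : ℝ) < 2 ^ q := by positivity
    nlinarith
  have hCM1 : 1 ≤ ENNReal.ofReal (16 * 2 ^ q) := by
    rw [← ENNReal.ofReal_one]
    apply ENNReal.ofReal_le_ofReal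
    have : (1 : ℝ) ≤ 2 ^ q := Real.one_le_rpow (by norm_num) hq0.le
    linarith
  set X : ℝ := (128 * C2 * C1 * q) ^ (3 * q) with hX
  have hXn : 0 ≤ X := by positivity
  have hC1q : 1 ≤ C1 * q := by nlinarith
  have hconst : C2 ^ q * 2 ^ q * (16 * 2 ^ q * (16 * 2 ^ q)) * ((C1 * q) ^ (3 * q)) ≤ X := by
    have e1 : (16 : ℝ) * 16 ≤ 16 ^ q := by
      calc (16 : ℝ) * 16 = 16 ^ (2 : ℝ) := by norm_num
        _ ≤ 16 ^ q := Real.rpow_le_rpow_of_exponent_le (by norm_num) (by linarith)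
    calc C2 ^ q * 2 ^ q * (16 * 2 ^ q * (16 * 2 ^ q)) * ((C1 * q) ^ (3 * q))
        = (16 * 16) * (C2 ^ q * 2 ^ q * 2 ^ q * 2 ^ q) * ((C1 * q) ^ (3 * q)) := by ring
      _ ≤ 16 ^ q * (C2 ^ q * 2 ^ q * 2 ^ q * 2 ^ q) * ((C1 * q) ^ (3 * q)) := by gcongr
      _ = (128 * C2) ^ q * (C1 * q) ^ (3 * q) := by
        have e2 : (128 * C2) ^ q = 16 ^ q * (C2 ^ q * 2 ^ q * 2 ^ q * 2 ^ q) := by
          have hC20 : (0 : ℝ) ≤ C2 := by linarith
          rw [← Real.mul_rpow hC20 (by norm_num : (0 : ℝ) ≤ 2),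
            ← Real.mul_rpow (by positivity : (0 : ℝ) ≤ C2 * 2) (by norm_num : (0 : ℝ) ≤ 2),
            ← Real.mul_rpow (by positivity : (0 : ℝ) ≤ C2 * 2 * 2) (by norm_num : (0 : ℝ) ≤ 2),
            ← Real.mul_rpow (by norm_num : (0 : ℝ) ≤ 16)
              (by positivity : (0 : ℝ) ≤ C2 * 2 * 2 * 2)]
          congr 1
          ring
        rw [e2]
      _ ≤ (128 * C2) ^ (3 * q) * (C1 * q) ^ (3 * q) := by
        gcongr
        · linarith
        · linarith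
      _ = X := by
        rw [← Real.mul_rpow (by positivity) (by positivity), hX]
        congr 1
        ring
  have hconst2 : C2 ^ q * 2 ^ q * (16 * 2 ^ q * (16 * 2 ^ q)) ≤ X := by
    refine le_trans ?_ hconst
    have : 1 ≤ (C1 * q) ^ (3 * q) := Real.one_le_rpow hC1q (by positivity)
    exact le_mul_of_one_le_right (by positivity) this
  calc ∫⁻ ζ, FM κ u g E n ζ ^ q
      ≤ ∫⁻ ζ, (ENNReal.ofReal (C2 ^ q * 2 ^ q)) *
        (HL.MS s (fun z => ‖κ.FS u g E n z‖ₑ) ζ ^ q + GR s (Un E n) g ζ ^ q) := by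
        refine lintegral_mono fun ζ => ?_
        have h3 := h2 N κ hκ u hu n E hT.meas s hT.slope g hg ζ
        calc FM κ u g E n ζ ^ q ≤ (ENNReal.ofReal C2 *
              (HL.MS s (fun z => ‖κ.FS u g E n z‖ₑ) ζ + GR s (Un E n) g ζ)) ^ q :=
              ENNReal.rpow_le_rpow h3 hq0.le
          _ = ENNReal.ofReal C2 ^ q * (HL.MS s (fun z => ‖κ.FS u g E n z‖ₑ) ζ +
              GR s (Un E n) g ζ) ^ q := ENNReal.mul_rpow_of_nonneg _ _ hq0.le
          _ ≤ ENNReal.ofReal C2 ^ q * (2 ^ (q - 1) *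
              (HL.MS s (fun z => ‖κ.FS u g E n z‖ₑ) ζ ^ q + GR s (Un E n) g ζ ^ q)) := by
              gcongr
              exact ENNReal.rpow_add_le_mul_rpow_add_rpow _ _ (by linarith)
          _ ≤ ENNReal.ofReal C2 ^ q * (ENNReal.ofReal (2 ^ q) *
              (HL.MS s (fun z => ‖κ.FS u g E n z‖ₑ) ζ ^ q + GR s (Un E n) g ζ ^ q)) := by
              gcongr
              rw [← ENNReal.ofReal_rpow_of_pos (by norm_num), show ENNReal.ofReal 2 = 2 by norm_num]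
              exact ENNReal.rpow_le_rpow_of_exponent_le (by norm_num) (by linarith)
          _ = _ := by
              rw [ENNReal.ofReal_rpow_of_nonneg (by positivity) hq0.le, ← mul_assoc,
                ← ENNReal.ofReal_mul (by positivity)]
    _ = ENNReal.ofReal (C2 ^ q * 2 ^ q) * ((∫⁻ ζ, HL.MS s (fun z => ‖κ.FS u g E n z‖ₑ) ζ ^ q) +
        ∫⁻ ζ, GR s (Un E n) g ζ ^ q) := by
        rw [lintegral_const_mul' _ _ ENNReal.ofReal_ne_top,
          lintegral_add_left ((HL.measurable_MS s hFm).pow_const q)]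
    _ ≤ ENNReal.ofReal (C2 ^ q * 2 ^ q) * (ENNReal.ofReal (16 * 2 ^ q) * ENNReal.ofReal (16 * 2 ^ q) *
        (ENNReal.ofReal ((C1 * q) ^ (3 * q) * δ ^ (q - 1)) * I) +
        ENNReal.ofReal (16 * 2 ^ q) * ENNReal.ofReal (16 * 2 ^ q) * I) := by
        have a1 : ∫⁻ ζ, HL.MS s (fun z => ‖κ.FS u g E n z‖ₑ) ζ ^ q ≤
            ENNReal.ofReal (16 * 2 ^ q) * ENNReal.ofReal (16 * 2 ^ q) *
            (ENNReal.ofReal ((C1 * q) ^ (3 * q) * δ ^ (q - 1)) * I) := by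
          refine hMS.trans (mul_le_mul' ?_ (by simpa using hT1))
          exact hCM.trans (le_mul_of_one_le_left' hCM1)
        have a2 : ∫⁻ ζ, GR s (Un E n) g ζ ^ q ≤
            ENNReal.ofReal (16 * 2 ^ q) * ENNReal.ofReal (16 * 2 ^ q) * I :=
          hGR.trans (mul_le_mul' (mul_le_mul' hCM hCM) le_rfl)
        exact mul_le_mul' le_rfl (add_le_add a1 a2)
    _ = ENNReal.ofReal (C2 ^ q * 2 ^ q * (16 * 2 ^ q * (16 * 2 ^ q)) * (C1 * q) ^ (3 * q) *
          δ ^ (q - 1) + C2 ^ q * 2 ^ q * (16 * 2 ^ q * (16 * 2 ^ q))) * I := by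
        rw [ENNReal.ofReal_add (by positivity) (by positivity), add_mul, mul_add]
        congr 1
        · rw [← ENNReal.ofReal_mul (by positivity), ← mul_assoc, ← mul_assoc,
            ← ENNReal.ofReal_mul (by positivity), ← ENNReal.ofReal_mul (by positivity)]
          congr 2
          ring
        · rw [← ENNReal.ofReal_mul (by positivity), ← mul_assoc, ← ENNReal.ofReal_mul (by positivity)]
    _ ≤ ENNReal.ofReal (X * (1 + δ ^ (q - 1))) * I := by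
        refine mul_le_mul' (ENNReal.ofReal_le_ofReal ?_) le_rfl
        have hd : 0 ≤ δ ^ (q - 1) := by positivity
        nlinarith [mul_le_mul_of_nonneg_right hconst hd]

/-- **(MAXLEAF c)**: windows, with the measure `o` of the active offsets -/
theorem FM_leaf {M : ℕ} {A C0 : ℝ} (hA : 1 ≤ A) (hC0 : 0 ≤ C0) : ∃ C : ℝ, 1 ≤ C ∧
    ∀ r : ℝ, 3 / 2 ≤ r → ∀ (N : ℝ) (κ : Ker M), κ.Bd N C0 → ∀ (τ : ℝ) (u : ℝ × ℝ → ℝ), Field u →
    ∀ (n : ℕ) (E : ℕ → Set (ℝ × ℝ)) (s δ : ℝ), TreeN N A δ τ s u n E →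
    ∀ g : ℝ × ℝ → ℝ, Nice g → ∀ (W : Set ℝ), MeasurableSet W → ∀ o : ℝ, 0 ≤ o →
    ∀ Om : Set (ℝ × ℝ), MeasurableSet Om →
    (∀ z ∈ Om, volume {w | w ∈ W ∧ FM κ u g E n (z.1, z.2 + w) ≠ 0} ≤ ENNReal.ofReal o) →
      ∫⁻ z in Om, (∫⁻ w in W, FM κ u g E n (z.1, z.2 + w) ^ 2) ^ r ≤
        ENNReal.ofReal (o ^ (r - 1) * ((C * r) ^ (6 * r) * (1 + δ ^ (2 * r - 1)))) * volume W *
          ∫⁻ z in Un E n, ‖g z‖ₑ ^ (2 * r) := by
  obtain ⟨C, hC, h⟩ := FM_Lq (M := M) hA hC0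
  refine ⟨2 * C, by linarith, ?_⟩
  intro r hr N κ hκ τ u hu n E s δ hT g hg W hW o ho Om hOm hocc
  have hδ := hT.pos
  have h1 := h (2 * r) (by linarith) N κ hκ τ u hu n E s δ hT g hg
  have hl := win_leaf (r := r) (by linarith) (Φ := fun z => FM κ u g E n z ^ 2)
    ((FM_meas κ hu hg hT.meas n).pow_const 2) (W := W) hW (o := ENNReal.ofReal o) hOm
    (fun z hz => by
      refine le_trans (measure_mono ?_) (hocc z hz)
      rintro w ⟨hw1, hw2⟩
      refine ⟨hw1, fun hc => hw2 ?_⟩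
      simp only [hc]
      norm_num)
  have hpow : ∀ x : ℝ≥0∞, (x ^ 2) ^ r = x ^ (2 * r) := fun x => by
    rw [← ENNReal.rpow_natCast, ← ENNReal.rpow_mul]; norm_num
  simp only [hpow] at hl
  refine hl.trans ?_
  calc ENNReal.ofReal o ^ (r - 1) * volume W * ∫⁻ z, FM κ u g E n z ^ (2 * r)
      ≤ ENNReal.ofReal o ^ (r - 1) * volume W * (ENNReal.ofReal ((C * (2 * r)) ^ (3 * (2 * r)) *
        (1 + δ ^ (2 * r - 1))) * ∫⁻ z in Un E n, ‖g z‖ₑ ^ (2 * r)) := by gcongr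
    _ = ENNReal.ofReal (o ^ (r - 1) * ((2 * C * r) ^ (6 * r) * (1 + δ ^ (2 * r - 1)))) * volume W *
          ∫⁻ z in Un E n, ‖g z‖ₑ ^ (2 * r) := by
        have e1 : (C * (2 * r)) ^ (3 * (2 * r)) = (2 * C * r) ^ (6 * r) := by
          rw [show C * (2 * r) = 2 * C * r by ring, show 3 * (2 * r) = 6 * r by ring]
        rw [e1, ENNReal.ofReal_rpow_of_nonneg ho (by linarith),
          ENNReal.ofReal_mul (p := o ^ (r - 1)) (by positivity)]
        simp only [mul_assoc, mul_left_comm]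

/-- the profile of any truncation is controlled by `FM` -/
theorem pc_le_FM {M : ℕ} {κ : Ker M} {u : ℝ × ℝ → ℝ} {g : ℝ × ℝ → ℝ} {E : ℕ → Set (ℝ × ℝ)}
    {n m : ℕ} (hm : m ≤ n) {ρ : ℝ → ℝ} {L h : ℝ} (hρ : Win ρ L) (hh : 0 < h) (z : ℝ × ℝ) :
    ∫⁻ v, ‖pc ρ h (κ.FS u g E m) z v‖ₑ ^ 2 ≤
      ∫⁻ w in Icc (-(2 * h)) (2 * h), FM κ u g E n (z.1, z.2 + w) ^ 2 := by
  rw [← lintegral_indicator measurableSet_Icc]
  refine lintegral_mono fun v => ?_
  by_cases hv : v ∈ Icc (-(2 * h)) (2 * h)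
  · rw [indicator_of_mem hv, pc, enorm_ofReal', prof, enorm_mul]
    have h2 : ‖ρ (v / h)‖ₑ ≤ 1 := by
      rw [Real.enorm_eq_ofReal_abs, abs_of_nonneg (hρ.nonneg _)]
      exact ENNReal.ofReal_le_one.2 (hρ.le_one _)
    have h3 := le_FM κ u g E hm (z.1, z.2 + v)
    calc (‖ρ (v / h)‖ₑ * ‖κ.FS u g E m (z.1, z.2 + v)‖ₑ) ^ 2
        ≤ (1 * FM κ u g E n (z.1, z.2 + v)) ^ 2 := by gcongr
      _ = _ := by rw [one_mul]
  · rw [indicator_of_notMem hv, pc, H864.prof_zero hρ hh]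
    · simp
    · by_contra hc
      rw [not_le] at hc
      exact hv (abs_le.1 hc.le)

/-- **(MAXLEAF d)**: support -/
theorem FM_supp {M : ℕ} {κ : Ker M} {u : ℝ × ℝ → ℝ} {g : ℝ × ℝ → ℝ} {E : ℕ → Set (ℝ × ℝ)}
    {n : ℕ} {ζ : ℝ × ℝ} (h : FM κ u g E n ζ ≠ 0) : ∃ j < n, ∃ z ∈ E j, g z ≠ 0 ∧
      |z.1 - ζ.1| ≤ 1 / (8 * 2 ^ j) ∧ |z.2 - ζ.2 - (z.1 - ζ.1) * u z| ≤ 1 := by
  by_contra hc
  push Not at hc
  apply h
  unfold FM
  simp only [ENNReal.iSup_eq_zero]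
  intro m hm
  rw [enorm_eq_zero]
  unfold Ker.FS
  refine Finset.sum_eq_zero fun j hj => ?_
  have hjn : j < n := lt_of_lt_of_le (Finset.mem_range.1 hj) hm
  unfold Ker.S
  refine integral_eq_zero_of_ae (Filter.Eventually.of_forall fun z => ?_)
  simp only [Pi.zero_apply]
  by_cases hz : z ∈ E j
  · by_cases hg0 : g z = 0
    · rw [indicator_of_mem hz, hg0, mul_zero]
    · by_cases hk : κ.k j (u z) z ζ = 0
      · rw [hk, zero_mul]
      · obtain ⟨h1, h2⟩ := κ.k_supp hk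
        exact absurd h2 (not_le.2 (hc j hjn z hz hg0 h1))
  · rw [indicator_of_notMem hz, mul_zero]

/-- **(MAXLEAF e)**: single scales are bounded -/
theorem S_bdd {M : ℕ} {κ : Ker M} {N C0 A : ℝ} (hκ : κ.Bd N C0) (hA : 0 ≤ A) {u : ℝ × ℝ → ℝ}
    (_hu : Field u) {g : ℝ × ℝ → ℝ} (hg : Nice g) (hg1 : ∀ z, |g z| ≤ 1) {s : ℝ} {j : ℕ}
    {Ej : Set (ℝ × ℝ)} (hE : MeasurableSet Ej) (hs : ∀ z ∈ Ej, |u z - s| ≤ A * 2 ^ j / N)
    (ζ : ℝ × ℝ) : |κ.S u j (Ej.indicator g) ζ| ≤ 8 * C0 ^ 2 * (1 + A) := by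
  have hp := H964.prof_of_ker κ
  have b := H964.pb_of_bd hκ
  have e1 : κ.S u j (Ej.indicator g) ζ = H964.S κ.K κ.psi 0 j (H964.vS s u)
      (fun z => Ej.indicator g (H964.shE s z)) ζ.1 (ζ.2 - s * ζ.1) := by
    rw [← H964.S_frame]
    congr 1
    ext <;> simp
  have hgi : Integrable (fun z => Ej.indicator g (H964.shE s z)) :=
    (H964.shE_mp s).integrable_comp_of_integrable ((H964.nice_int hg).indicator hE)
  rw [e1]
  have h1 := H964.abs_S_le hp b hA (a := 0) (by omega) j (H964.vS s u) _ hgi (fun z hz => by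
    have hz' : H964.shE s z ∈ Ej := by
      by_contra hn
      exact hz (indicator_of_notMem hn g)
    have := hs _ hz'
    rw [mul_div_right_comm] at this
    exact this) ζ.1 (ζ.2 - s * ζ.1) ζ.1 (by simp)
  have h2 := H864.Bx_le hA j (h := fun z => Ej.indicator g (H964.shE s z)) (fun z => by
    by_cases hz : H964.shE s z ∈ Ej
    · rw [indicator_of_mem hz]; exact hg1 _
    · rw [indicator_of_notMem hz, abs_zero]; norm_num) ζ.1 (ζ.2 - s * ζ.1)
  refine h1.trans ?_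
  simp only [pow_zero, mul_one, one_mul]
  nlinarith [sq_nonneg C0]

end Vale.Agent.P112.T580
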